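/-
R335/PR/Defs: barrier functions and the data of block PR (FROZEN)
Skeleton by helper48 (row 335); keep the statements unchanged, add any helper lemmas you like.
-/
import Crest.Agent.R335.Blocks
import Crest.Agent.R335.T.Cmp
import Crest.Agent.R335.T.MV
import Crest.Agent.R335.Assemble

set_option autoImplicit false
set_option linter.unusedSectionVars false
set_option linter.unusedVariables false
set_option linter.unusedSimpArgs false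

noncomputable section

namespace Crest.Agent.R335

open MeasureTheory Set Filter Topology Metric
open scoped ENNReal


/-- The radial profile `e^{-μ t} t^γ e^{s/t}`. -/
def Bf (μ γ s t : ℝ) : ℝ := Real.exp (-μ * t + γ * Real.log t + s / t)
/-- Even and odd two-centre profiles. -/
def Oe (D μ γ s : ℝ) (x : X) : ℝ := Bf μ γ s (tp D x) + Bf μ γ s (tm D x)
def Oo (D μ γ s : ℝ) (x : X) : ℝ := Bf μ γ s (tp D x) - Bf μ γ s (tm D x)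
/-- The tiny corrector. -/
def tau (x : X) : ℝ := Real.exp (-x 2 ^ 2) * ex (13 / 10) x
/-- The corrector of the first pass. -/
def tau2 (D μ γ : ℝ) (x : X) : ℝ := Real.exp (-x 2 ^ 2) * (Oe D μ γ 0 x / ‖x‖ ^ 3)
def T1 (D μ γ : ℝ) (x : X) : ℝ := x 2 / ‖x‖ ^ 3 * Oo D μ γ 0 x
def T2 (D μ γ : ℝ) (x : X) : ℝ := D / ‖x‖ ^ 4 * Oe D μ γ 0 x
/-- Upper and lower profile of the induced part. -/
def pU (D μ γ δ : ℝ) (x : X) : ℝ := T1 D μ γ x / δ + 3 * T2 D μ γ x / δ ^ 2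
def pL (D μ γ δ : ℝ) (x : X) : ℝ := T1 D μ γ x / δ + T2 D μ γ x / (20 * δ ^ 2)
/-- The reference level. -/
def a0 (μ γ : ℝ) (x : X) : ℝ := μ ^ 2 - 2 * μ * (γ + 1) / ‖x‖

/-- Admissible parameters. -/
structure Par (D μ γ s : ℝ) : Prop where
  D_ge : 1000 ≤ D
  μ_ge : 99 / 100 ≤ μ
  μ_le : μ ≤ 101 / 100
  γ_ge : 9 / 10 ≤ γ
  γ_le : γ ≤ 11 / 10
  s_le : |s| ≤ 20 * D

/-- The exponent that belongs to the level `m` and the charge `Zc`. -/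
def ga (m Zc : ℝ) : ℝ := Zc / √m - 1

/-- Static data. -/
structure Sd where
  c : ℝ
  C : ℝ
  C1 : ℝ
  D : ℝ
  g : X → ℝ
  u : X → ℝ
  eg : ℝ
  eu : ℝ
  K0 : ℝ
  M : ℝ

def Sd.δ (S : Sd) : ℝ := S.eu - S.eg
def Sd.Kb (S : Sd) : ℝ := 1000 * S.K0
def Sd.K2 (S : Sd) : ℝ := 10 ^ 6 * S.C1 * S.D * S.K0
def Sd.K3 (S : Sd) : ℝ := 10 ^ 6 * S.C1 * S.K0
def Sd.K4 (S : Sd) : ℝ := 10 ^ 14 * S.C1 ^ 2 * S.D * S.K0 ^ 2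

/-- The one-body data with sharp profiles outside the ball of radius `6 D`. -/
structure Sd.Ok (S : Sd) : Prop where
  ob : OB S.c S.C S.D S.g S.u S.eg S.eu
  C1_ge : 1 ≤ S.C1
  K0_ge : 1 ≤ S.K0
  g_up : ∀ᵐ x : X, 6 * S.D < ‖x‖ →
    S.g x ≤ S.K0 * Oe S.D (√(-2 * S.eg)) (ga (-2 * S.eg) 2) 0 x
  g_lo : ∀ᵐ x : X, 6 * S.D < ‖x‖ →
    Oe S.D (√(-2 * S.eg)) (ga (-2 * S.eg) 2) 0 x / S.K0 ≤ S.g x
  u_up : ∀ᵐ x : X, 6 * S.D < ‖x‖ → 0 < x 2 →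
    S.u x ≤ S.K0 * Oo S.D (√(-2 * S.eu)) (ga (-2 * S.eu) 2) 0 x
  u_lo : ∀ᵐ x : X, 6 * S.D < ‖x‖ → 0 < x 2 →
    Oo S.D (√(-2 * S.eu)) (ga (-2 * S.eu) 2) 0 x / S.K0 ≤ S.u x
  small : S.δ * S.K4 ≤ S.c / 1000

/-- Dynamic data. -/
structure Dy where
  η : ℝ
  l : ℝ
  m2 : ℝ
  de : ℝ
  f : Fns

def Ch (S : Sd) (w : Dy) : Prop := Chan S.c S.C1 S.D w.l S.g S.u S.eg S.eu S.M w.η w.m2 w.de w.f

/-- For all channel data with sufficiently small `η`. -/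
def Evt (S : Sd) (p : Dy → Prop) : Prop := ∃ η0 : ℝ, 0 < η0 ∧ ∀ w : Dy, w.η ≤ η0 → Ch S w → p w

theorem Evt.mono {S : Sd} {p q : Dy → Prop} (h : Evt S p) (hpq : ∀ w, Ch S w → p w → q w) :
    Evt S q := by
  obtain ⟨a, ha, h⟩ := h
  exact ⟨a, ha, fun w h1 h2 => hpq w h2 (h w h1 h2)⟩

theorem Evt.and {S : Sd} {p q : Dy → Prop} (h : Evt S p) (h' : Evt S q) :
    Evt S fun w => p w ∧ q w := by
  obtain ⟨a, ha, h⟩ := h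
  obtain ⟨b, hb, h'⟩ := h'
  exact ⟨min a b, lt_min ha hb, fun w h1 h2 =>
    ⟨h w (h1.trans (min_le_left _ _)) h2, h' w (h1.trans (min_le_right _ _)) h2⟩⟩

theorem Evt.mp {S : Sd} {p q : Dy → Prop} (h : Evt S p) (h' : Evt S fun w => p w → q w) :
    Evt S q := (h.and h').mono fun w _ h => h.2 h.1

theorem evt_le (S : Sd) {a : ℝ} (ha : 0 < a) : Evt S fun w => w.η ≤ a ∧ 0 < w.l ∧ w.l ≤ a :=
  ⟨a, ha, fun w h1 h2 => ⟨h1, h2.l_pos, h2.l_le.trans h1⟩⟩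

theorem evt_of_forall {S : Sd} {p : Dy → Prop} (h : ∀ w, Ch S w → p w) : Evt S p :=
  ⟨1, one_pos, fun w _ h2 => h w h2⟩

/-- Decay rate and exponent of the channel `d`. -/
def Dy.μ (w : Dy) : ℝ := √w.m2
def Dy.γ (w : Dy) : ℝ := ga w.m2 (2 - 2 * w.l)
/-- Levels of the upper and lower intrinsic barrier of the even channels. -/
def Dy.mU (w : Dy) : ℝ := w.m2 + 2 * w.de - √w.l
def Dy.mL (w : Dy) : ℝ := w.m2 + 2 * w.de + √w.l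

def Dy.E (w : Dy) (S : Sd) (s : ℝ) : X → ℝ := Oe S.D w.μ w.γ s
def Dy.O (w : Dy) (S : Sd) (s : ℝ) : X → ℝ := Oo S.D w.μ w.γ s
def Dy.Eu (w : Dy) (S : Sd) : X → ℝ := Oe S.D (√w.mU) (ga w.mU 2) (-(20 * S.D))
def Dy.El (w : Dy) (S : Sd) : X → ℝ := Oe S.D (√w.mL) (ga w.mL 2) (20 * S.D)
def Dy.t1 (w : Dy) (S : Sd) : X → ℝ := T1 S.D w.μ w.γ
def Dy.ebar (w : Dy) (S : Sd) (x : X) : ℝ :=
  S.Kb * w.Eu S x + w.l * S.K2 * pU S.D w.μ w.γ S.δ x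
def Dy.elow (w : Dy) (S : Sd) (x : X) : ℝ :=
  w.El S x / S.Kb + w.l / S.K3 * pL S.D w.μ w.γ S.δ x

/-- The parameters are admissible and close to their limits. -/
structure Adm (S : Sd) (w : Dy) : Prop where
  par : Par S.D w.μ w.γ 0
  parU : Par S.D (√w.mU) (ga w.mU 2) 0
  parL : Par S.D (√w.mL) (ga w.mL 2) 0
  parg : Par S.D (√(-2 * S.eg)) (ga (-2 * S.eg) 2) 0
  paru : Par S.D (√(-2 * S.eu)) (ga (-2 * S.eu) 2) 0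
  m2_near : |w.m2 - 1| ≤ 1 / 100
  lM : w.l * S.M ≤ 1
  l_le : w.l ≤ S.δ / 100
  sl_le : √w.l ≤ S.δ / 100
  de_ge : 99 / 100 * S.δ ≤ w.de
  de_le : w.de ≤ S.δ
  δ_pos : 0 < S.δ
  δ_le : S.δ ≤ 1 / 10000
  a_d : ∀ x : X, a0 w.μ w.γ x = w.m2 - 4 / ‖x‖ + 4 * w.l / ‖x‖
  a_U : ∀ x : X, a0 (√w.mU) (ga w.mU 2) x = w.mU - 4 / ‖x‖
  a_L : ∀ x : X, a0 (√w.mL) (ga w.mL 2) x = w.mL - 4 / ‖x‖
  gapU : w.μ + S.δ / 2 ≤ √w.mU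
  gapg : w.μ + S.δ / 2 ≤ √(-2 * S.eg)

/-- A bound outside the ball of radius `r`, a.e. -/
def Bd (r : ℝ) (F G : X → ℝ) : Prop := ∀ᵐ x : X, r < ‖x‖ → F x ≤ G x
/-- The same in the upper half space. -/
def BdH (r : ℝ) (F G : X → ℝ) : Prop := ∀ᵐ x : X, r < ‖x‖ → 0 < x 2 → F x ≤ G x

/-- The statements of the steps. -/
def P1 (S : Sd) (r : ℝ) (w : Dy) : Prop := Bd r w.f.R fun x => 60 * S.Kb * w.E S 0 x
def P2 (S : Sd) (r K5 : ℝ) (w : Dy) : Prop := Bd r w.f.Ev fun x => K5 * (w.E S 0 x / ‖x‖)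
def P3 (S : Sd) (r : ℝ) (w : Dy) : Prop := Bd r w.f.O fun x => S.Kb * (60 * |w.O S 0 x| + tau x)
def P4 (S : Sd) (r : ℝ) (w : Dy) : Prop :=
  BdH r (fun x => w.O S 0 x / (60 * S.Kb) - tau x) w.f.d
def P5 (S : Sd) (r η5 : ℝ) (w : Dy) : Prop :=
  Bd r w.f.No fun x => η5 * (|w.O S 0 x| / ‖x‖ ^ 2 + tau x)
def P6 (S : Sd) (r : ℝ) (w : Dy) : Prop := Bd r w.f.Ev (w.ebar S)
def P7 (S : Sd) (r : ℝ) (w : Dy) : Prop := Bd r w.f.Ne fun x => S.δ / S.c * w.ebar S x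
def P8 (S : Sd) (r η8 : ℝ) (w : Dy) : Prop := ∀ α1 α2 α3 : ℝ, |α1| ≤ 1 → |α2| ≤ 1 → |α3| ≤ 1 →
  α1 + α2 ≤ 0 → α1 + α3 ≤ 0 →
    Bd r (fun x => α1 * w.f.e1 x + α2 * w.f.e2 x + α3 * w.f.e3 x) fun x => η8 * w.ebar S x
def P9 (S : Sd) (r : ℝ) (w : Dy) : Prop := Bd r (w.elow S) w.f.e1
def P10 (S : Sd) (r : ℝ) (w : Dy) : Prop := ∀ x : X, r < ‖x‖ → w.ebar S x ≤ S.K4 * w.elow S x
/-- The cone condition and its companions. -/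
def P11 (S : Sd) (r : ℝ) (w : Dy) : Prop := ∀ᵐ x : X, r < ‖x‖ →
  w.elow S x ≤ w.f.e x ∧ w.f.e x ≤ w.ebar S x ∧ w.f.Ev x ≤ 2 * w.f.e x ∧
    w.f.N x ^ 2 ≤ 7 / 20 * w.f.e x ^ 2 + 1 / (20 * ‖x‖ ^ 2) * w.f.d x ^ 2 ∧
      tau x ≤ w.f.e x / 10 ∧ ex (6 / 5) x ≤ w.f.e x

/-- The facts in the inner ball. -/
def Lam0 (C : ℝ) : ℝ := 10 * C ^ 2 * Real.exp 21
def PI (S : Sd) (ρ : ℝ) (w : Dy) : Prop := (∃ cg : ℝ, 0 < cg ∧ ∀ᵐ x : X, ‖x‖ ≤ ρ → cg ≤ S.g x) ∧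
  ∀ᵐ x : X, ‖x‖ ≤ ρ → S.g x ≤ w.f.e x ∧ w.f.e x ≤ 2 * S.g x ∧
    w.f.N x ^ 2 ≤ 7 / 20 * w.f.e x ^ 2 ∧ (0 < x 2 → -w.f.e x / 10 ≤ w.f.d x) ∧
      w.l * S.M * w.f.R x ≤ w.f.e x ∧
        (tp S.D x ≤ 20 ∨ tm S.D x ≤ 20 → w.f.R x ≤ Lam0 S.C * w.f.e x)

/-- The two-sided equation of `e`. -/
def PE (S : Sd) (w : Dy) : Prop := ∀ σ : ℝ, |σ| ≤ 1 →
  Sub eX univ (fun x => σ * w.f.e x) (aa S.D w.m2) fun x => 10 * w.f.e x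

/-- The barrier of the first pass. -/
def Dy.w1 (w : Dy) (S : Sd) (x : X) : ℝ :=
  1 / (10 ^ 5 * S.Kb) * (w.O S (-(20 * S.D)) x + tau x + tau2 S.D w.μ w.γ x / 10)

/-- Small quantities far out. -/
def PN (S : Sd) (C2 ε r : ℝ) (w : Dy) : Prop :=
  (∀ x : X, r ≤ ‖x‖ → |x 2| ≤ 1 → w.ebar S x ≤ ε * (w.E S 0 x / ‖x‖ ^ 3)) ∧
  (∀ᵐ x : X, r ≤ ‖x‖ → C2 * S.g x ≤ ε * (w.E S 0 x / ‖x‖ ^ 3)) ∧
  ∀ x : X, r ≤ ‖x‖ → tau x ≤ ε * (w.E S 0 x / ‖x‖ ^ 3)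

/-- Everything that is known outside the ball of radius `r`. -/
structure Out (S : Sd) (r K5 : ℝ) (w : Dy) : Prop where
  adm : Adm S w
  p1 : P1 S r w
  p2 : P2 S r K5 w
  p3 : P3 S r w
  p4 : P4 S r w
  p5 : P5 S r 1 w
  p6 : P6 S r w
  p10 : P10 S r w
  p11 : P11 S r w

end Crest.Agent.R335
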