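/-
R335/PR/AdmA: admissible parameters (helper77)
-/
import Crest.Agent.R335.PR.Defs

set_option autoImplicit false
set_option linter.unusedSectionVars false
set_option linter.unusedVariables false
set_option linter.unusedSimpArgs false

noncomputable section

namespace Crest.Agent.R335

open MeasureTheory Set Filter Topology Metric
open scoped ENNReal

variable {S : Sd}

theorem adma_consts (hS : S.Ok) : 1000 ≤ S.D ∧ 1000 ≤ S.Kb ∧ 1 ≤ S.K2 ∧ 1 ≤ S.K3 ∧ 1 ≤ S.K4 ∧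
    0 < S.δ ∧ S.δ ≤ 1 / 10000 ∧ 0 < S.c ∧ S.c ≤ 1 / 10 := by
  have h1 := hS.ob.D_ge
  have h2 := hS.C1_ge
  have h3 := hS.K0_ge
  have h4 : (1 : ℝ) ≤ S.D := by linarith
  have h5 : 0 < S.δ := sub_pos.2 hS.ob.lt
  have h6 : 1 ≤ S.K4 := one_le_mul_of_one_le_of_one_le (one_le_mul_of_one_le_of_one_le
    (one_le_mul_of_one_le_of_one_le (by norm_num) (one_le_pow₀ h2)) h4) (one_le_pow₀ h3)
  have h7 := le_mul_of_one_le_right h5.le h6
  refine ⟨h1, by rw [Sd.Kb]; linarith, one_le_mul_of_one_le_of_one_le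
    (one_le_mul_of_one_le_of_one_le (one_le_mul_of_one_le_of_one_le (by norm_num) h2) h4) h3,
    one_le_mul_of_one_le_of_one_le (one_le_mul_of_one_le_of_one_le (by norm_num) h2) h3, h6, h5,
    by linarith [hS.small, hS.ob.c_le], hS.ob.c_pos, hS.ob.c_le⟩

theorem adma_sqrt {m : ℝ} (hm : |m - 1| ≤ 1 / 100) :
    0 ≤ m ∧ 994 / 1000 ≤ √m ∧ √m ≤ 1005 / 1000 := by
  obtain ⟨h1, h2⟩ := abs_le.1 hm
  exact ⟨by linarith, Real.le_sqrt_of_sq_le (by linarith),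
    Real.sqrt_le_iff.2 ⟨by norm_num, by linarith⟩⟩

theorem adma_par {D m Zc : ℝ} (hD : 1000 ≤ D) (hm : |m - 1| ≤ 1 / 100) (h1 : 198 / 100 ≤ Zc)
    (h2 : Zc ≤ 2) : Par D (√m) (ga m Zc) 0 ∧ ∀ x : X, a0 (√m) (ga m Zc) x = m - 2 * Zc / ‖x‖ := by
  obtain ⟨a1, a2, a3⟩ := adma_sqrt hm
  have a4 : 0 < √m := by linarith
  refine ⟨⟨hD, by linarith, by linarith, ?_, ?_, by rw [abs_zero]; linarith⟩, fun x => ?_⟩
  · rw [ga, le_sub_iff_add_le, le_div_iff₀ a4]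
    linarith
  · rw [ga, sub_le_iff_le_add, div_le_iff₀ a4]
    linarith
  · rw [a0, ga, Real.sq_sqrt a1, sub_add_cancel, mul_assoc, mul_div_cancel₀ _ a4.ne']

theorem adma_close {m m' Zc Zc' : ℝ} (hm : |m - 1| ≤ 1 / 100) (hm' : |m' - 1| ≤ 1 / 100)
    (h2 : |Zc| ≤ 2) : |√m - √m'| ≤ |m - m'| ∧
      |ga m Zc - ga m' Zc'| ≤ 3 * |m - m'| + 2 * |Zc - Zc'| := by
  obtain ⟨a1, a2, a3⟩ := adma_sqrt hm
  obtain ⟨b1, b2, b3⟩ := adma_sqrt hm'
  have a4 : 0 < √m := by linarith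
  have b4 : 0 < √m' := by linarith
  have c1 : |√m - √m'| ≤ |m - m'| := by
    have e : m - m' = (√m - √m') * (√m + √m') := by
      linear_combination -Real.mul_self_sqrt a1 + Real.mul_self_sqrt b1
    rw [e, abs_mul, abs_of_pos (add_pos a4 b4)]
    exact le_mul_of_one_le_right (abs_nonneg _) (by linarith)
  refine ⟨c1, ?_⟩
  have e : ga m Zc - ga m' Zc' = -(Zc * (√m - √m') / (√m * √m')) + (Zc - Zc') / √m' := by
    simp only [ga]
    field_simp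
    ring
  rw [e]
  refine (abs_add_le _ _).trans (add_le_add ?_ ?_)
  · rw [abs_neg, abs_div, abs_mul, abs_of_pos (mul_pos a4 b4), div_le_iff₀ (mul_pos a4 b4)]
    have c2 := mul_le_mul h2 c1 (abs_nonneg _) zero_le_two
    have c3 := mul_le_mul_of_nonneg_left (mul_le_mul a2 b2 (by norm_num) a4.le)
      (abs_nonneg (m - m'))
    linarith [abs_nonneg (m - m')]
  · rw [abs_div, abs_of_pos b4, div_le_iff₀ b4]
    have c3 := mul_le_mul_of_nonneg_left b2 (abs_nonneg (Zc - Zc'))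
    linarith [abs_nonneg (Zc - Zc')]

theorem adma_evt_sqrt (S : Sd) {a : ℝ} (ha : 0 < a) :
    Evt S fun w => w.l ≤ a * √w.l ∧ √w.l ≤ a := by
  refine (evt_le S (pow_pos ha 2)).mono fun w _ h => ?_
  have h1 : √w.l ≤ a := Real.sqrt_le_iff.2 ⟨ha.le, h.2.2⟩
  refine ⟨?_, h1⟩
  nth_rewrite 1 [← Real.mul_self_sqrt h.2.1.le]
  exact mul_le_mul_of_nonneg_right h1 (Real.sqrt_nonneg _)

theorem adma_gap {m m' δ : ℝ} (hm : |m - 1| ≤ 1 / 100) (h0 : 0 < δ) (h1 : δ ≤ 1 / 10000)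
    (h : m + 3 / 2 * δ ≤ m') : √m + δ / 2 ≤ √m' := by
  obtain ⟨a1, a2, a3⟩ := adma_sqrt hm
  refine Real.le_sqrt_of_sq_le ?_
  have a4 := Real.sq_sqrt a1
  have a5 := mul_le_mul_of_nonneg_left a3 h0.le
  have a6 := mul_le_mul_of_nonneg_left h1 h0.le
  linarith

theorem adma_evt (hS : S.Ok) : Evt S (Adm S) := by
  obtain ⟨hD, -, -, -, -, d0, d1, -, -⟩ := adma_consts hS
  have p1 : 0 < S.δ / 100 := by positivity
  refine (((evt_le S p1).and (evt_le S (a := 1 / (|S.M| + 1)) (by positivity))).and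
    (adma_evt_sqrt S p1)).mono fun w hw h => ?_
  obtain ⟨⟨⟨a1, a2, a3⟩, -, -, a4⟩, -, a5⟩ := h
  obtain ⟨b1, b2⟩ := abs_le.1 hw.m2_near
  obtain ⟨b3, b4⟩ := abs_le.1 hS.ob.eu_near
  obtain ⟨b5, b6⟩ := abs_le.1 hS.ob.eg_near
  have b7 : w.de ≤ S.δ := hw.de_le
  have b8 : S.δ - w.η ≤ w.de := hw.de_ge
  have b9 := Real.sqrt_nonneg w.l
  have e0 : S.δ = S.eu - S.eg := rfl
  have c1 : |w.m2 - 1| ≤ 1 / 100 := abs_le.2 ⟨by linarith, by linarith⟩
  have c2 := adma_par hD c1 (Zc := 2 - 2 * w.l) (by linarith) (by linarith)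
  have c3 := adma_par hD (m := w.mU) (by rw [Dy.mU]; exact abs_le.2 ⟨by linarith, by linarith⟩)
    (Zc := 2) (by norm_num) le_rfl
  have c4 := adma_par hD (m := w.mL) (by rw [Dy.mL]; exact abs_le.2 ⟨by linarith, by linarith⟩)
    (Zc := 2) (by norm_num) le_rfl
  refine ⟨c2.1, c3.1, c4.1,
    (adma_par hD (abs_le.2 ⟨by linarith, by linarith⟩) (by norm_num) le_rfl).1,
    (adma_par hD (abs_le.2 ⟨by linarith, by linarith⟩) (by norm_num) le_rfl).1, c1, ?_, a3, a5,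
    by linarith, b7, d0, d1, fun x => ?_, fun x => ?_, fun x => ?_,
    adma_gap c1 d0 d1 (by rw [Dy.mU]; linarith), adma_gap c1 d0 d1 (by linarith)⟩
  · rw [le_div_iff₀ (by positivity)] at a4
    have := mul_le_mul_of_nonneg_left (le_abs_self S.M) a2.le
    linarith
  · rw [Dy.μ, Dy.γ, c2.2]
    ring
  · rw [c3.2]
    ring
  · rw [c4.2]
    ring

end Crest.Agent.R335
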