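/-
R335/PR/Rad: Laplacians of products and of radial functions; the profile Bf
Skeleton by helper48 (row 335); keep the statements unchanged, add any helper lemmas you like.
-/
import Crest.Agent.R335.PR.Defs

set_option autoImplicit false
set_option linter.unusedSectionVars false
set_option linter.unusedVariables false
set_option linter.unusedSimpArgs false

noncomputable section

namespace Crest.Agent.R335

open MeasureTheory Set Filter Topology Metric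
open scoped ENNReal

open Crest.Agent.R338 (pd lap)

variable {f g : X → ℝ} {x : X}

theorem prr_congr (h : f =ᶠ[𝓝 x] g) (c : Fin 3) : pd c f =ᶠ[𝓝 x] pd c g :=
  (h.fderiv (𝕜 := ℝ)).mono fun y hy => by simp only [pd, hy]

theorem prr_ev (hf : ContDiffAt ℝ 2 f x) : ∀ᶠ y in 𝓝 x, DifferentiableAt ℝ f y :=
  (hf.eventually (by simp)).mono fun y hy => hy.differentiableAt two_ne_zero

theorem prr_d (hf : ContDiffAt ℝ 2 f x) (c : Fin 3) : DifferentiableAt ℝ (pd c f) x :=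
  ((hf.fderiv_right (m := 1) le_rfl).clm_apply contDiffAt_const).differentiableAt one_ne_zero

theorem prr_pd (h : f =ᶠ[𝓝 x] g) (c : Fin 3) : pd c f x = pd c g x := (prr_congr h c).eq_of_nhds

theorem lap_congr (h : f =ᶠ[𝓝 x] g) : lap f x = lap g x := by
  exact Finset.sum_congr rfl fun c _ => prr_pd (prr_congr h c) c

theorem lap_add (hf : ContDiffAt ℝ 2 f x) (hg : ContDiffAt ℝ 2 g x) :
    lap (fun y => f y + g y) x = lap f x + lap g x := by
  simp only [lap, ← Finset.sum_add_distrib]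
  refine Finset.sum_congr rfl fun c _ => ?_
  rw [← R338.pd_add c (prr_d hf c) (prr_d hg c)]
  exact prr_pd (by filter_upwards [prr_ev hf, prr_ev hg] with y h1 h2 using R338.pd_add c h1 h2) c

theorem prr_const_mul (hf : ContDiffAt ℝ 2 f x) (a : ℝ) :
    lap (fun y => a * f y) x = a * lap f x := by
  simp only [lap, Finset.mul_sum]
  refine Finset.sum_congr rfl fun c _ => ?_
  rw [← R338.pd_const_mul c a (prr_d hf c)]
  exact prr_pd ((prr_ev hf).mono fun y h1 => R338.pd_const_mul c a h1) c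

theorem lap_sub (hf : ContDiffAt ℝ 2 f x) (hg : ContDiffAt ℝ 2 g x) :
    lap (fun y => f y - g y) x = lap f x - lap g x := by
  have h := lap_add hf (contDiffAt_const (c := (-1 : ℝ)).mul hg)
  rw [prr_const_mul hg] at h
  simpa only [neg_one_mul, ← sub_eq_add_neg] using h

theorem lap_const_mul (hf : ContDiffAt ℝ 2 f x) (a : ℝ) :
    lap (fun y => a * f y) x = a * lap f x := by
  exact prr_const_mul hf a

theorem lap_div_const (hf : ContDiffAt ℝ 2 f x) (a : ℝ) :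
    lap (fun y => f y / a) x = lap f x / a := by
  simpa only [div_eq_inv_mul] using prr_const_mul hf a⁻¹

theorem lap_neg (hf : ContDiffAt ℝ 2 f x) : lap (fun y => -f y) x = -lap f x := by
  simpa only [neg_one_mul] using prr_const_mul hf (-1)

theorem lap_mul (hf : ContDiffAt ℝ 2 f x) (hg : ContDiffAt ℝ 2 g x) :
    lap (fun y => f y * g y) x =
      lap f x * g x + 2 * ∑ c, pd c f x * pd c g x + f x * lap g x := by
  have df := hf.differentiableAt two_ne_zero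
  have dg := hg.differentiableAt two_ne_zero
  simp only [lap, Finset.mul_sum, Finset.sum_mul, ← Finset.sum_add_distrib]
  refine Finset.sum_congr rfl fun c _ => ?_
  rw [prr_pd (g := fun y => pd c f y * g y + f y * pd c g y) (by
      filter_upwards [prr_ev hf, prr_ev hg] with y h1 h2 using R338.pd_mul c h1 h2) c,
    R338.pd_add c (f := fun y => pd c f y * g y) (g := fun y => f y * pd c g y)
      ((prr_d hf c).mul dg) (df.mul (prr_d hg c)),
    R338.pd_mul c (prr_d hf c) dg, R338.pd_mul c df (prr_d hg c)]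
  ring

theorem prr_rf (c : Fin 3) (f : X → ℝ) (x : X) :
    pd c (fun y => f (rf y)) x = (if c = 2 then -1 else 1) * pd c f (rf x) := by
  have h := cov_rfL.toContinuousLinearEquiv.comp_right_fderiv (f := f) (x := x)
  have h2 : fderiv ℝ (fun y => f (rf y)) x (eX c) = fderiv ℝ f (rf x) (rf (eX c)) :=
    congrArg (fun L : X →L[ℝ] ℝ => L (eX c)) h
  rw [cov_rf_eX, map_smul] at h2
  exact h2

theorem lap_rf (hf : ContDiffAt ℝ 2 f (rf x)) : lap (fun y => f (rf y)) x = lap f (rf x) := by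
  refine Finset.sum_congr rfl fun c _ => ?_
  rw [funext (prr_rf c f), R338.pd_const_mul c _ (f := fun y => pd c f (rf y))
    ((prr_d hf c).comp x cov_rfL.toContinuousLinearEquiv.differentiableAt), prr_rf]
  split_ifs <;> ring

theorem prr_norm {p : X} (hx : x ≠ p) : ContDiffAt ℝ 2 (fun y : X => ‖y - p‖) x :=
  (contDiffAt_id.sub contDiffAt_const).norm ℝ (sub_ne_zero.2 hx)

theorem prr_pd_norm {p : X} (hx : x ≠ p) (c : Fin 3) :
    pd c (fun y : X => ‖y - p‖) x = (x c - p c) / ‖x - p‖ := by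
  have d := (prr_norm hx).differentiableAt two_ne_zero
  have h1 := R338.pd_mul c d d
  have h2 : HasFDerivAt (fun y : X => ‖y - p‖ ^ 2) _ x := ((hasFDerivAt_id x).sub_const p).norm_sq
  have h3 : pd c (fun y : X => ‖y - p‖ ^ 2) x = 2 * (x c - p c) := by
    rw [pd, h2.fderiv]
    simp [EuclideanSpace.inner_single_right]
  simp only [← pow_two, h3] at h1
  rw [eq_div_iff (norm_pos_iff.2 (sub_ne_zero.2 hx)).ne']
  linarith

/-- Radial functions: `F` is `C²` on `(0, ∞)` with derivatives `F1`, `F2`. -/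
theorem radial {F F1 F2 : ℝ → ℝ} (hF : ContDiffOn ℝ 2 F (Ioi 0))
    (h1 : ∀ t, 0 < t → HasDerivAt F (F1 t) t) (h2 : ∀ t, 0 < t → HasDerivAt F1 (F2 t) t) (p : X)
    (hx : x ≠ p) : ContDiffAt ℝ 2 (fun y : X => F ‖y - p‖) x ∧
      (∀ c, pd c (fun y : X => F ‖y - p‖) x = F1 ‖x - p‖ * (x c - p c) / ‖x - p‖) ∧
      lap (fun y : X => F ‖y - p‖) x = F2 ‖x - p‖ + 2 * F1 ‖x - p‖ / ‖x - p‖ := by
  have n0 : ∀ {y : X}, y ≠ p → 0 < ‖y - p‖ := fun hy => norm_pos_iff.2 (sub_ne_zero.2 hy)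
  have e : ∀ c, ∀ y : X, y ≠ p → pd c (fun y : X => F ‖y - p‖) y =
      F1 ‖y - p‖ / ‖y - p‖ * (y c - p c) := fun c y hy => by
    rw [R338.pd_comp c (f := fun y : X => ‖y - p‖) (h1 _ (n0 hy)) ((prr_norm hy).differentiableAt two_ne_zero), prr_pd_norm hy]
    ring
  have d := (prr_norm hx).differentiableAt two_ne_zero
  refine ⟨(hF.contDiffAt (Ioi_mem_nhds (n0 hx))).comp x (prr_norm hx), fun c => by rw [e c x hx]; ring, ?_⟩
  have h3 : HasDerivAt (fun t => F1 t / t) _ ‖x - p‖ :=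
    (h2 _ (n0 hx)).div (hasDerivAt_id _) (n0 hx).ne'
  have e2 : ∀ c, pd c (pd c fun y : X => F ‖y - p‖) x = (F2 ‖x - p‖ * ‖x - p‖ - F1 ‖x - p‖) /
      ‖x - p‖ ^ 3 * (x c - p c) ^ 2 + F1 ‖x - p‖ / ‖x - p‖ := fun c => by
    rw [prr_pd ((eventually_ne_nhds hx).mono (e c)) c,
      R338.pd_mul c (f := fun y : X => F1 ‖y - p‖ / ‖y - p‖) (g := fun y => y c - p c)
        (h3.differentiableAt.comp x (f := fun y : X => ‖y - p‖) d) (by fun_prop),
      R338.pd_comp c (f := fun y : X => ‖y - p‖) h3 d, prr_pd_norm hx, R338.pd_coord c c (h := fun t => t - p c)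
        ((hasDerivAt_id _).sub_const _), if_pos rfl]
    simp only [id]
    ring
  have e3 : ∑ c, (x c - p c) ^ 2 = ‖x - p‖ ^ 2 := cov_sq (x - p)
  simp only [lap, e2, Finset.sum_add_distrib, ← Finset.mul_sum, e3]
  have := (n0 hx).ne'
  simp
  field_simp
  ring

/-- Functions of the height. -/
theorem height {F F1 F2 : ℝ → ℝ} (hF : ContDiff ℝ 2 F) (h1 : ∀ t, HasDerivAt F (F1 t) t)
    (h2 : ∀ t, HasDerivAt F1 (F2 t) t) (x : X) : ContDiffAt ℝ 2 (fun y : X => F (y 2)) x ∧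
      (∀ c, pd c (fun y : X => F (y 2)) x = if c = 2 then F1 (x 2) else 0) ∧
      lap (fun y : X => F (y 2)) x = F2 (x 2) := by
  have e : ∀ c, pd c (fun y : X => F (y 2)) = fun y => if c = 2 then F1 (y 2) else 0 := fun c =>
    funext fun y => R338.pd_coord c 2 (h1 _)
  refine ⟨hF.contDiffAt.comp x (EuclideanSpace.proj (𝕜 := ℝ) (2 : Fin 3)).contDiff.contDiffAt,
    fun c => congrFun (e c) x, ?_⟩
  simp only [lap, e, Fin.sum_univ_three, if_true, R338.pd_coord (2 : Fin 3) 2 (h2 (x 2))]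
  simp [pd]

/-- Logarithmic derivative of `Bf`. -/
def ld (μ γ s t : ℝ) : ℝ := -μ + γ / t - s / t ^ 2
/-- `Δ Bf / Bf`. -/
def be (μ γ s t : ℝ) : ℝ :=
  μ ^ 2 - 2 * μ * (γ + 1) / t + (γ ^ 2 + γ + 2 * μ * s) / t ^ 2 - 2 * γ * s / t ^ 3 + s ^ 2 / t ^ 4

theorem Bf_pos (μ γ s t : ℝ) : 0 < Bf μ γ s t := by
  exact Real.exp_pos _

theorem contDiffOn_Bf (μ γ s : ℝ) : ContDiffOn ℝ 2 (Bf μ γ s) (Ioi 0) := by
  exact fun t ht => (ContDiffAt.exp (((contDiffAt_const.mul contDiffAt_id).add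
    (contDiffAt_const.mul (Real.contDiffAt_log.2 (ne_of_gt ht)))).add
      (contDiffAt_const.div contDiffAt_id (ne_of_gt ht)))).contDiffWithinAt

theorem hasDerivAt_Bf (μ γ s : ℝ) {t : ℝ} (ht : 0 < t) :
    HasDerivAt (Bf μ γ s) (ld μ γ s t * Bf μ γ s t) t := by
  have h : HasDerivAt (fun t => Real.exp (-μ * t + γ * Real.log t + s / t)) _ t :=
    ((((hasDerivAt_id t).const_mul (-μ)).add ((Real.hasDerivAt_log ht.ne').const_mul γ)).add
      ((hasDerivAt_const t s).div (hasDerivAt_id t) ht.ne')).exp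
  refine h.congr_deriv ?_
  simp only [ld, Bf, id, Pi.add_apply, Pi.div_apply]
  ring

theorem radial_Bf (μ γ s : ℝ) (p : X) (hx : x ≠ p) :
    ContDiffAt ℝ 2 (fun y : X => Bf μ γ s ‖y - p‖) x ∧
      (∀ c, pd c (fun y : X => Bf μ γ s ‖y - p‖) x =
        ld μ γ s ‖x - p‖ * Bf μ γ s ‖x - p‖ * (x c - p c) / ‖x - p‖) ∧
      lap (fun y : X => Bf μ γ s ‖y - p‖) x = be μ γ s ‖x - p‖ * Bf μ γ s ‖x - p‖ := by
  have h := radial (F1 := fun t => ld μ γ s t * Bf μ γ s t)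
    (F2 := fun t => (-γ / t ^ 2 + 2 * s / t ^ 3 + ld μ γ s t ^ 2) * Bf μ γ s t) (contDiffOn_Bf μ γ s)
    (fun t => hasDerivAt_Bf μ γ s) (fun t ht => by
      have h1 : HasDerivAt (fun t => -μ + γ / t - s / t ^ 2) _ t :=
        (((hasDerivAt_const t γ).div (hasDerivAt_id t) ht.ne').const_add (-μ)).sub
          ((hasDerivAt_const t s).div (hasDerivAt_pow 2 t) (pow_pos ht 2).ne')
      refine (h1.mul (hasDerivAt_Bf μ γ s ht)).congr_deriv ?_
      have := ht.ne'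
      simp only [ld, id]
      field_simp
      ring) p hx
  refine ⟨h.1, h.2.1, h.2.2.trans ?_⟩
  have := (norm_pos_iff.2 (sub_ne_zero.2 hx)).ne'
  simp only [ld, be]
  field_simp
  ring

theorem Par.zero {D μ γ s : ℝ} (h : Par D μ γ s) : Par D μ γ 0 := by
  exact ⟨h.1, h.2, h.3, h.4, h.5, by rw [abs_zero]; linarith [h.1]⟩

theorem Par.of_abs {D μ γ s s' : ℝ} (h : Par D μ γ s) (hs : |s'| ≤ 20 * D) : Par D μ γ s' := by
  exact ⟨h.1, h.2, h.3, h.4, h.5, hs⟩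

theorem Par.ld {D μ γ s t : ℝ} (h : Par D μ γ s) (ht : 5 * D ≤ t) :
    -(102 / 100) ≤ R335.ld μ γ s t ∧ R335.ld μ γ s t ≤ -(98 / 100) := by
  have h1 := h.1
  have t0 : 0 < t := by linarith
  have h2 : 0 ≤ γ / t := div_nonneg (by linarith [h.4]) t0.le
  have h3 : γ / t ≤ 1 / 1000 := by rw [div_le_iff₀ t0]; linarith [h.5]
  have h4 : |s / t ^ 2| ≤ 1 / 1000 := by
    rw [abs_div, abs_of_pos (pow_pos t0 2), div_le_iff₀ (pow_pos t0 2)]
    nlinarith [h.6]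
  rw [abs_le] at h4
  unfold R335.ld
  constructor <;> linarith [h.2, h.3]

theorem prr_nuc {D : ℝ} (hD : 0 ≤ D) : ‖nuc D‖ = D := by simp [nuc, hD]

theorem prr_tp_sq (D : ℝ) (x : X) : tp D x ^ 2 = ‖x‖ ^ 2 - 2 * D * x 2 + D ^ 2 := by
  rw [tp, norm_sub_sq_real]
  simp [nuc, EuclideanSpace.inner_single_right, mul_assoc]

theorem prr_tm_sq (D : ℝ) (x : X) : tm D x ^ 2 = ‖x‖ ^ 2 + 2 * D * x 2 + D ^ 2 := by
  rw [tm, norm_add_sq_real]
  simp [nuc, EuclideanSpace.inner_single_right, mul_assoc]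

theorem prr_tp {D : ℝ} (hD : 0 ≤ D) (x : X) : ‖x‖ - D ≤ tp D x ∧ tp D x ≤ ‖x‖ + D := by
  have h1 := norm_sub_norm_le x (nuc D)
  have h2 := norm_sub_le x (nuc D)
  rw [prr_nuc hD] at h1 h2
  exact ⟨h1, h2⟩

theorem prr_tm {D : ℝ} (hD : 0 ≤ D) (x : X) : ‖x‖ - D ≤ tm D x ∧ tm D x ≤ ‖x‖ + D := by
  rw [← tp_rf, ← norm_rf]
  exact prr_tp hD _

/-- Geometry of the two centres outside the ball of radius `6 D`. -/
theorem geo {D : ℝ} (hD : 1000 ≤ D) (hx : 6 * D ≤ ‖x‖) :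
    (‖x‖ - D ≤ tp D x ∧ tp D x ≤ ‖x‖ + D) ∧ (‖x‖ - D ≤ tm D x ∧ tm D x ≤ ‖x‖ + D) ∧
      tm D x ^ 2 - tp D x ^ 2 = 4 * D * x 2 ∧ tp D x ^ 2 = ‖x‖ ^ 2 - 2 * D * x 2 + D ^ 2 ∧
      |x 2| ≤ ‖x‖ ∧ (0 ≤ x 2 → 12 / 7 * (D * x 2 / ‖x‖) ≤ tm D x - tp D x ∧
        tm D x - tp D x ≤ 12 / 5 * (D * x 2 / ‖x‖)) := by
  have h1 := prr_tp (by linarith : 0 ≤ D) x
  have h2 := prr_tm (by linarith : 0 ≤ D) x
  have h3 : tm D x ^ 2 - tp D x ^ 2 = 4 * D * x 2 := by rw [prr_tp_sq, prr_tm_sq]; ring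
  refine ⟨h1, h2, h3, prr_tp_sq D x, PiLp.norm_apply_le x 2, fun h0 => ?_⟩
  have r0 : 0 < ‖x‖ := by linarith
  have h4 : 0 ≤ tm D x - tp D x := by
    refine sub_nonneg.2 (le_of_sq_le_sq ?_ (norm_nonneg _))
    nlinarith [mul_nonneg (by linarith : 0 ≤ D) h0]
  rw [← mul_div_assoc, ← mul_div_assoc, div_le_iff₀ r0, le_div_iff₀ r0]
  constructor <;> nlinarith [mul_le_mul_of_nonneg_left (add_le_add h1.1 h2.1) h4,
    mul_le_mul_of_nonneg_left (add_le_add h1.2 h2.2) h4, mul_le_mul_of_nonneg_left hx h4]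

theorem V_ext {D : ℝ} (hD : 1000 ≤ D) (hx : 6 * D ≤ ‖x‖) :
    |2 * V D x + 4 / ‖x‖| ≤ 5 * D / ‖x‖ ^ 2 := by
  have r0 : 0 < ‖x‖ := by linarith
  have key : ∀ t : ℝ, ‖x‖ - D ≤ t ∧ t ≤ ‖x‖ + D → |1 / ‖x‖ - 1 / t| ≤ 5 / 4 * D / ‖x‖ ^ 2 :=
    fun t ht => by
      have t0 : 0 < t := by linarith [ht.1]
      rw [div_sub_div _ _ r0.ne' t0.ne', abs_div, abs_of_pos (mul_pos r0 t0),
        div_le_div_iff₀ (mul_pos r0 t0) (pow_pos r0 2)]
      have h1 : |1 * t - ‖x‖ * 1| ≤ D := abs_le.2 ⟨by linarith [ht.1], by linarith [ht.2]⟩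
      refine (mul_le_mul_of_nonneg_right h1 (sq_nonneg _)).trans ?_
      nlinarith [mul_le_mul_of_nonneg_left (by linarith [ht.1] : 4 / 5 * ‖x‖ ≤ t)
        (mul_pos (by linarith : 0 < D) r0).le]
  have h1 := abs_le.1 (key _ (prr_tp (by linarith) x))
  have h2 := abs_le.1 (key _ (prr_tm (by linarith) x))
  have e : 2 * V D x + 4 / ‖x‖ = 2 * (1 / ‖x‖ - 1 / tp D x) + 2 * (1 / ‖x‖ - 1 / tm D x) := by
    rw [V]; ring
  have e2 : 5 * D / ‖x‖ ^ 2 = 4 * (5 / 4 * D / ‖x‖ ^ 2) := by ring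
  rw [e, e2, abs_le]
  constructor <;> linarith [h1.1, h1.2, h2.1, h2.2]

/-- Comparison of differences by comparison of derivatives. -/
theorem diff_le {F G F1 G1 : ℝ → ℝ} {a b K : ℝ} (hab : a ≤ b)
    (hF : ∀ t ∈ Icc a b, HasDerivAt F (F1 t) t) (hG : ∀ t ∈ Icc a b, HasDerivAt G (G1 t) t)
    (h : ∀ t ∈ Icc a b, -F1 t ≤ K * -G1 t) : F a - F b ≤ K * (G a - G b) := by
  have hH : ∀ t ∈ Icc a b, HasDerivAt (fun t => F t - K * G t) (F1 t - K * G1 t) t := fun t ht =>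
    (hF t ht).sub ((hG t ht).const_mul K)
  have h1 := monotoneOn_of_deriv_nonneg (convex_Icc a b)
    (fun t ht => (hH t ht).continuousAt.continuousWithinAt)
    (fun t ht => (hH t (interior_subset ht)).differentiableAt.differentiableWithinAt)
    (fun t ht => by rw [(hH t (interior_subset ht)).deriv]; linarith [h t (interior_subset ht)])
    (left_mem_Icc.2 hab) (right_mem_Icc.2 hab) hab
  linarith

theorem Oe_rf (D μ γ s : ℝ) (x : X) : Oe D μ γ s (rf x) = Oe D μ γ s x := by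
  rw [Oe, Oe, tp_rf, tm_rf, add_comm]

theorem Oo_rf (D μ γ s : ℝ) (x : X) : Oo D μ γ s (rf x) = -Oo D μ γ s x := by
  rw [Oo, Oo, tp_rf, tm_rf, neg_sub]

theorem tau_rf (x : X) : tau (rf x) = tau x := by
  simp only [tau, ex, rf_two, norm_rf, neg_sq]

theorem T1_rf (D μ γ : ℝ) (x : X) : T1 D μ γ (rf x) = T1 D μ γ x := by
  rw [T1, T1, Oo_rf, rf_two, norm_rf]
  ring

theorem T2_rf (D μ γ : ℝ) (x : X) : T2 D μ γ (rf x) = T2 D μ γ x := by
  rw [T2, T2, Oe_rf, norm_rf]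

theorem prr_ne {D : ℝ} (hD : 0 ≤ D) (hx : D < ‖x‖) : x ≠ nuc D ∧ x ≠ -nuc D :=
  ⟨fun h => by rw [h, prr_nuc hD] at hx; exact lt_irrefl _ hx,
    fun h => by rw [h, norm_neg, prr_nuc hD] at hx; exact lt_irrefl _ hx⟩

theorem prr_tm_eq (D : ℝ) (x : X) : tm D x = ‖x - -nuc D‖ := by rw [tm, sub_neg_eq_add]

theorem prr_gauss : ContDiff ℝ 2 fun y : X => Real.exp (-y 2 ^ 2) :=
  ((EuclideanSpace.proj (𝕜 := ℝ) (2 : Fin 3)).contDiff.pow 2).neg.exp

theorem contDiffAt_Oe {D : ℝ} (μ γ s : ℝ) (hD : 0 ≤ D) (hx : D < ‖x‖) :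
    ContDiffAt ℝ 2 (Oe D μ γ s) x := by
  unfold Oe
  simp only [prr_tm_eq]
  exact (radial_Bf μ γ s _ (prr_ne hD hx).1).1.add (radial_Bf μ γ s _ (prr_ne hD hx).2).1

theorem contDiffAt_Oo {D : ℝ} (μ γ s : ℝ) (hD : 0 ≤ D) (hx : D < ‖x‖) :
    ContDiffAt ℝ 2 (Oo D μ γ s) x := by
  unfold Oo
  simp only [prr_tm_eq]
  exact (radial_Bf μ γ s _ (prr_ne hD hx).1).1.sub (radial_Bf μ γ s _ (prr_ne hD hx).2).1

theorem contDiffAt_tau (hx : x ≠ 0) : ContDiffAt ℝ 2 tau x := by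
  exact prr_gauss.contDiffAt.mul (contDiffAt_const.mul (contDiffAt_norm ℝ hx)).exp

theorem contDiffAt_div_pow (hf : ContDiffAt ℝ 2 f x) (hx : x ≠ 0) (k : ℕ) :
    ContDiffAt ℝ 2 (fun y => f y / ‖y‖ ^ k) x := by
  exact hf.div ((contDiffAt_norm ℝ hx).pow k) (pow_pos (norm_pos_iff.2 hx) k).ne'

theorem contDiffAt_tau2 {D : ℝ} (μ γ : ℝ) (hD : 0 ≤ D) (hx : D < ‖x‖) :
    ContDiffAt ℝ 2 (tau2 D μ γ) x := by
  exact prr_gauss.contDiffAt.mul
    (contDiffAt_div_pow (contDiffAt_Oe μ γ 0 hD hx) (norm_pos_iff.1 (hD.trans_lt hx)) 3)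

theorem contDiffAt_T1 {D : ℝ} (μ γ : ℝ) (hD : 0 ≤ D) (hx : D < ‖x‖) :
    ContDiffAt ℝ 2 (T1 D μ γ) x := by
  exact (contDiffAt_div_pow (EuclideanSpace.proj (𝕜 := ℝ) (2 : Fin 3)).contDiff.contDiffAt
    (norm_pos_iff.1 (hD.trans_lt hx)) 3).mul (contDiffAt_Oo μ γ 0 hD hx)

theorem contDiffAt_T2 {D : ℝ} (μ γ : ℝ) (hD : 0 ≤ D) (hx : D < ‖x‖) :
    ContDiffAt ℝ 2 (T2 D μ γ) x := by
  exact (contDiffAt_div_pow contDiffAt_const (norm_pos_iff.1 (hD.trans_lt hx)) 4).mul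
    (contDiffAt_Oe μ γ 0 hD hx)

end Crest.Agent.R335
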