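/-
R335/PR/Bar2: sizes of the profiles
Skeleton by helper48 (row 335); keep the statements unchanged, add any helper lemmas you like.
-/
import Crest.Agent.R335.PR.Rad

set_option autoImplicit false
set_option linter.unusedSectionVars false
set_option linter.unusedVariables false
set_option linter.unusedSimpArgs false

noncomputable section

namespace Crest.Agent.R335

open MeasureTheory Set Filter Topology Metric
open scoped ENNReal

open Crest.Agent.R338 (pd lap)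

variable {D μ γ s μ' γ' s' : ℝ} {x : X}

theorem Oe_pos (D μ γ s : ℝ) (x : X) : 0 < Oe D μ γ s x := by
  exact add_pos (Bf_pos _ _ _ _) (Bf_pos _ _ _ _)

theorem abs_Oo_le (D μ γ s : ℝ) (x : X) : |Oo D μ γ s x| ≤ Oe D μ γ s x := by
  have h1 := Bf_pos μ γ s (tp D x)
  have h2 := Bf_pos μ γ s (tm D x)
  rw [Oo, Oe, abs_le]
  exact ⟨by linarith, by linarith⟩

theorem tau_pos (x : X) : 0 < tau x := by
  exact mul_pos (Real.exp_pos _) (Real.exp_pos _)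

theorem tau_le (x : X) : tau x ≤ ex (13 / 10) x := by
  exact mul_le_of_le_one_left (Real.exp_pos _).le
    (Real.exp_le_one_iff.2 (neg_nonpos.2 (sq_nonneg _)))

theorem bar2a_ratio (h : Par D μ γ s) {a b : ℝ} (ha : 5 * D ≤ a) (hab : a ≤ b) :
    (1 + 98 / 100 * (b - a)) * Bf μ γ s b ≤ Bf μ γ s a ∧
      (1 - 102 / 100 * (b - a)) * Bf μ γ s a ≤ Bf μ γ s b := by
  have hD := h.D_ge
  have hL : ∀ t ∈ Icc a b, HasDerivAt (fun t => -μ * t + γ * Real.log t + s / t) (ld μ γ s t) t :=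
    fun t ht => by
      have h0 : t ≠ 0 := by linarith [ht.1]
      refine ((((hasDerivAt_id t).const_mul (-μ)).add
        ((Real.hasDerivAt_log h0).const_mul γ)).add
          ((hasDerivAt_const t s).div (hasDerivAt_id t) h0)).congr_deriv ?_
      simp only [ld, id]
      field_simp
      ring
  have hN : ∀ t ∈ Icc a b, HasDerivAt (fun t : ℝ => -t) (-1) t := fun t _ => hasDerivAt_neg' t
  have h1 := diff_le (K := 102 / 100) hab hL hN fun t ht => by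
    linarith [(h.ld (ha.trans ht.1)).1]
  have h2 := diff_le (K := 100 / 98) hab hN hL fun t ht => by
    linarith [(h.ld (ha.trans ht.1)).2]
  constructor
  · calc _ ≤ Real.exp (98 / 100 * (b - a)) * Bf μ γ s b :=
          mul_le_mul_of_nonneg_right (by linarith [Real.add_one_le_exp (98 / 100 * (b - a))])
            (Bf_pos _ _ _ _).le
      _ ≤ _ := by
          rw [Bf, Bf, ← Real.exp_add]
          exact Real.exp_le_exp.2 (by linarith)
  · calc _ ≤ Real.exp (-(102 / 100 * (b - a))) * Bf μ γ s a :=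
          mul_le_mul_of_nonneg_right (by linarith [Real.add_one_le_exp (-(102 / 100 * (b - a)))])
            (Bf_pos _ _ _ _).le
      _ ≤ _ := by
          rw [Bf, Bf, ← Real.exp_add]
          exact Real.exp_le_exp.2 (by linarith)

/-- `Bf(t-) ≤ e^{-0.98 Δt} Bf(t+)`, `Bf(t-) ≥ e^{-1.02 Δt} Bf(t+)` (`Par.ld`), `geo`. -/
theorem Par.Oo_size (h : Par D μ γ s) (hx : 6 * D ≤ ‖x‖) (hz : 0 ≤ x 2) :
    min 1 (D * x 2 / ‖x‖) / 4 * Oe D μ γ s x ≤ Oo D μ γ s x ∧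
      Oo D μ γ s x ≤ 3 * (D * x 2 / ‖x‖) * Oe D μ γ s x ∧
      98 / 100 * (tm D x - tp D x) * Bf μ γ s (tm D x) ≤ Oo D μ γ s x := by
  have hD := h.D_ge
  obtain ⟨g1, -, -, -, -, g2⟩ := geo hD hx
  obtain ⟨g3, g4⟩ := g2 hz
  have hw : 0 ≤ D * x 2 / ‖x‖ := div_nonneg (mul_nonneg (by linarith) hz) (norm_nonneg _)
  obtain ⟨r1, r2⟩ := bar2a_ratio h (a := tp D x) (b := tm D x) (by linarith [g1.1]) (by linarith)
  have hA := Bf_pos μ γ s (tp D x)
  have hB := Bf_pos μ γ s (tm D x)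
  have m1 := min_le_left 1 (D * x 2 / ‖x‖)
  have m2 := min_le_right 1 (D * x 2 / ‖x‖)
  have m3 : 0 ≤ min 1 (D * x 2 / ‖x‖) := le_min zero_le_one hw
  rw [Oo, Oe]
  generalize min 1 (D * x 2 / ‖x‖) = m at m1 m2 m3
  generalize D * x 2 / ‖x‖ = w at *
  generalize Bf μ γ s (tp D x) = A at *
  generalize Bf μ γ s (tm D x) = B at *
  generalize tm D x - tp D x = Δ at *
  refine ⟨?_, ?_, by linarith⟩
  · have a1 : (1 + 3 / 2 * m) * B ≤ A := le_trans (mul_le_mul_of_nonneg_right (by linarith) hB.le) r1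
    have a2 := mul_le_mul_of_nonneg_left a1 (show 0 ≤ 1 - m / 4 by linarith)
    have a3 := mul_nonneg (mul_nonneg m3 (sub_nonneg.2 m1)) hB.le
    have a4 := mul_nonneg m3 hB.le
    linarith
  · have a1 := mul_le_mul_of_nonneg_right g4 hA.le
    have a2 := mul_nonneg hw hA.le
    have a3 := mul_nonneg hw hB.le
    linarith

theorem Par.Oo_nonneg (h : Par D μ γ s) (hx : 6 * D ≤ ‖x‖) (hz : 0 ≤ x 2) : 0 ≤ Oo D μ γ s x := by
  refine le_trans (mul_nonneg (div_nonneg (le_min zero_le_one (div_nonneg (mul_nonneg ?_ hz)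
    (norm_nonneg _))) zero_le_four) (Oe_pos D μ γ s x).le) (h.Oo_size hx hz).1
  linarith [h.D_ge]

/-- Both half spaces. -/
theorem Par.abs_Oo (h : Par D μ γ s) (hx : 6 * D ≤ ‖x‖) :
    |x 2| / ‖x‖ * Oe D μ γ s x ≤ 4 * |Oo D μ γ s x| ∧
      |Oo D μ γ s x| ≤ 3 * (D * |x 2| / ‖x‖) * Oe D μ γ s x := by
  have hD := h.D_ge
  have key : ∀ x : X, 6 * D ≤ ‖x‖ → 0 ≤ x 2 → |x 2| / ‖x‖ * Oe D μ γ s x ≤ 4 * |Oo D μ γ s x| ∧
      |Oo D μ γ s x| ≤ 3 * (D * |x 2| / ‖x‖) * Oe D μ γ s x := fun x hx hz => by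
    obtain ⟨a1, a2, -⟩ := h.Oo_size hx hz
    have a3 := (geo hD hx).2.2.2.2.1
    rw [abs_of_nonneg hz] at a3
    rw [abs_of_nonneg hz, abs_of_nonneg (h.Oo_nonneg hx hz)]
    refine ⟨?_, a2⟩
    have a4 : x 2 / ‖x‖ ≤ min 1 (D * x 2 / ‖x‖) := le_min (div_le_one_of_le₀ a3 (norm_nonneg _))
      (div_le_div_of_nonneg_right (le_mul_of_one_le_left hz (by linarith)) (norm_nonneg _))
    have a5 := mul_le_mul_of_nonneg_right a4 (Oe_pos D μ γ s x).le
    linarith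
  rcases le_total 0 (x 2) with hz | hz
  · exact key x hx hz
  · have a1 := key (rf x) (by rwa [norm_rf]) (by rw [rf_two]; linarith)
    rwa [rf_two, norm_rf, Oe_rf, Oo_rf, abs_neg, abs_neg] at a1

theorem Par.T1_eq (h : Par D μ γ 0) (hx : 6 * D ≤ ‖x‖) :
    T1 D μ γ x = |x 2| / ‖x‖ ^ 3 * |Oo D μ γ 0 x| ∧ 0 ≤ T1 D μ γ x ∧ 0 < T2 D μ γ x ∧
      T1 D μ γ x ≤ 3 * x 2 ^ 2 * T2 D μ γ x := by
  have hD := h.D_ge
  have hr : 0 < ‖x‖ := by linarith
  have e1 : T1 D μ γ x = |x 2| / ‖x‖ ^ 3 * |Oo D μ γ 0 x| := by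
    rcases le_total 0 (x 2) with hz | hz
    · rw [T1, abs_of_nonneg hz, abs_of_nonneg (h.Oo_nonneg hx hz)]
    · have a1 := h.Oo_nonneg (x := rf x) (by rwa [norm_rf]) (by rw [rf_two]; linarith)
      rw [Oo_rf] at a1
      rw [T1, abs_of_nonpos hz, abs_of_nonpos (neg_nonneg.1 a1)]
      ring
  refine ⟨e1, by rw [e1]; positivity,
    mul_pos (div_pos (by linarith) (by positivity)) (Oe_pos _ _ _ _ _), ?_⟩
  rw [e1]
  refine (mul_le_mul_of_nonneg_left (h.abs_Oo hx).2 (by positivity)).trans (le_of_eq ?_)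
  rw [T2, ← sq_abs (x 2)]
  field_simp

theorem bar2a_s (h : Par D μ γ s) {t : ℝ} (ht : 5 * D ≤ t) :
    Bf μ γ s t ≤ 55 * Bf μ γ 0 t ∧ Bf μ γ 0 t ≤ 55 * Bf μ γ s t := by
  have hD := h.D_ge
  have h0 : 0 < t := by linarith
  have h1 : |s / t| ≤ 4 := by
    rw [abs_div, abs_of_pos h0, div_le_iff₀ h0]
    linarith [h.s_le]
  have h2 : Real.exp 4 ≤ 55 := by
    have a1 : Real.exp 4 = Real.exp 1 ^ 4 := by
      rw [← Real.exp_nat_mul]
      norm_num
    rw [a1]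
    refine (pow_le_pow_left₀ (Real.exp_pos _).le Real.exp_one_lt_d9.le 4).trans (by norm_num)
  obtain ⟨h3, h4⟩ := abs_le.1 h1
  constructor
  · refine le_trans ?_ (mul_le_mul_of_nonneg_right h2 (Bf_pos _ _ _ _).le)
    rw [Bf, Bf, ← Real.exp_add, zero_div]
    exact Real.exp_le_exp.2 (by linarith)
  · refine le_trans ?_ (mul_le_mul_of_nonneg_right h2 (Bf_pos _ _ _ _).le)
    rw [Bf, Bf, ← Real.exp_add, zero_div]
    exact Real.exp_le_exp.2 (by linarith)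

theorem bar2a_odd (h : Par D μ γ s) (h' : Par D μ γ s') {a b : ℝ} (ha : 5 * D ≤ a) (hab : a ≤ b)
    (hc : ∀ t, 5 * D ≤ t → Bf μ γ s t ≤ 55 * Bf μ γ s' t) :
    Bf μ γ s a - Bf μ γ s b ≤ 60 * (Bf μ γ s' a - Bf μ γ s' b) := by
  have hD := h.D_ge
  refine diff_le hab (fun t ht => hasDerivAt_Bf μ γ s (by linarith [ht.1]))
    (fun t ht => hasDerivAt_Bf μ γ s' (by linarith [ht.1])) fun t ht => ?_
  have a1 := mul_le_mul_of_nonneg_right (h.ld (ha.trans ht.1)).1 (Bf_pos μ γ s t).le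
  have a2 := mul_le_mul_of_nonneg_right (h'.ld (ha.trans ht.1)).2 (Bf_pos μ γ s' t).le
  have a3 := hc t (ha.trans ht.1)
  have a4 := Bf_pos μ γ s' t
  linarith

/-- `|s| / t ≤ 4`, `e⁴ · 1.05 ≤ 60`; `diff_le` for the odd profile. -/
theorem Par.cmp_s (h : Par D μ γ s) (hx : 6 * D ≤ ‖x‖) :
    Oe D μ γ s x ≤ 60 * Oe D μ γ 0 x ∧ Oe D μ γ 0 x ≤ 60 * Oe D μ γ s x ∧
      (0 ≤ x 2 → Oo D μ γ s x ≤ 60 * Oo D μ γ 0 x ∧ Oo D μ γ 0 x ≤ 60 * Oo D μ γ s x) := by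
  have hD := h.D_ge
  obtain ⟨g1, g5, -, -, -, g2⟩ := geo hD hx
  have p1 : 5 * D ≤ tp D x := by linarith [g1.1]
  have a1 := bar2a_s h p1
  have a2 := bar2a_s h (t := tm D x) (by linarith [g5.1])
  have b1 := Oe_pos D μ γ s x
  have b2 := Oe_pos D μ γ 0 x
  simp only [Oe] at b1 b2 ⊢
  refine ⟨by linarith [a1.1, a2.1], by linarith [a1.2, a2.2], fun hz => ?_⟩
  have hw : 0 ≤ D * x 2 / ‖x‖ := div_nonneg (mul_nonneg (by linarith) hz) (norm_nonneg _)
  have p2 : tp D x ≤ tm D x := by linarith [(g2 hz).1]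
  exact ⟨bar2a_odd h h.zero p1 p2 fun t ht => (bar2a_s h ht).1,
    bar2a_odd h.zero h p1 p2 fun t ht => (bar2a_s h ht).2⟩

theorem bar2b_sq {a b : ℝ} (h : a ^ 2 ≤ b ^ 2) (hb : 0 ≤ b) : a ≤ b :=
  (le_abs_self a).trans (abs_le_of_sq_le_sq' h hb |> abs_le.2)

theorem bar2b_log {t : ℝ} (ht : 5000 ≤ t) : 0 ≤ Real.log t ∧ Real.log t ≤ 3 / 100 * t := by
  refine ⟨Real.log_nonneg (by linarith), ?_⟩
  have h1 := Real.log_le_sub_one_of_pos (show 0 < t / 100 by linarith)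
  have h2 := Real.log_le_sub_one_of_pos (show (0 : ℝ) < 100 by norm_num)
  rw [Real.log_div (by linarith) (by norm_num)] at h1
  linarith

theorem bar2b_exp {a : ℝ} (ha : a < 1) : Real.exp a ≤ 1 / (1 - a) := by
  rw [le_div_iff₀ (by linarith)]
  have h1 := mul_le_mul_of_nonneg_left (Real.add_one_le_exp (-a)) (Real.exp_pos a).le
  rw [← Real.exp_add, add_neg_cancel, Real.exp_zero] at h1
  linarith

theorem bar2b_s (h : Par D μ γ s) {t : ℝ} (ht : 5 * D ≤ t) : -4 ≤ s / t ∧ s / t ≤ 4 := by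
  have hD := h.D_ge
  have h0 : 0 < t := by linarith
  rw [← abs_le, abs_div, abs_of_pos h0, div_le_iff₀ h0]
  linarith [h.s_le]

/-- Comparison of two profiles through their exponents. -/
theorem bar2b_le {t t' c K : ℝ} (hK : Real.exp c ≤ K)
    (h : -μ * t + γ * Real.log t + s / t ≤ c + (-μ' * t' + γ' * Real.log t' + s' / t')) :
    Bf μ γ s t ≤ K * Bf μ' γ' s' t' := by
  refine le_trans ?_ (mul_le_mul_of_nonneg_right hK (Bf_pos _ _ _ _).le)
  rw [Bf, Bf, ← Real.exp_add]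
  exact Real.exp_le_exp.2 h

theorem Par.Oe_exp (h : Par D μ γ s) (hx : 6 * D ≤ ‖x‖) :
    ex (11 / 10) x ≤ Oe D μ γ s x ∧ Oe D μ γ s x ≤ ex (1 / 2) x := by
  have hD := h.D_ge
  obtain ⟨g1, g2, g3, g4, -⟩ := geo hD hx
  have lo : ∀ t, 5 * D ≤ t → t ^ 2 ≤ ‖x‖ ^ 2 + D ^ 2 → ex (11 / 10) x ≤ Bf μ γ s t := by
    intro t a1 a2
    have a3 : t ≤ 102 / 100 * ‖x‖ := by
      refine bar2b_sq ?_ (by positivity)
      nlinarith
    have a4 := mul_nonneg (show 0 ≤ γ by linarith [h.γ_ge]) (bar2b_log (t := t) (by linarith)).1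
    have a5 := mul_le_mul_of_nonneg_right h.μ_le (show 0 ≤ t by linarith)
    exact Real.exp_le_exp.2 (by linarith [(bar2b_s h a1).1])
  have hi : ∀ t, ‖x‖ - D ≤ t → 2 * Bf μ γ s t ≤ ex (1 / 2) x := by
    intro t a1
    obtain ⟨a2, a3⟩ := bar2b_log (t := t) (by linarith)
    have a4 := mul_le_mul_of_nonneg_right h.γ_le a2
    have a5 := mul_le_mul_of_nonneg_right h.μ_ge (show 0 ≤ t by linarith)
    have a6 := (bar2b_s h (t := t) (by linarith)).2
    refine (mul_le_mul_of_nonneg_right (show 2 ≤ Real.exp 1 by linarith [Real.add_one_le_exp 1])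
      (Bf_pos _ _ _ _).le).trans ?_
    rw [Bf, ← Real.exp_add]
    exact Real.exp_le_exp.2 (by linarith)
  have b1 := Bf_pos μ γ s (tp D x)
  have b2 := Bf_pos μ γ s (tm D x)
  refine ⟨?_, by rw [Oe]; linarith [hi _ g1.1, hi _ g2.1]⟩
  rcases le_total 0 (x 2) with hz | hz
  · exact (lo (tp D x) (by linarith [g1.1]) (by nlinarith)).trans (le_add_of_nonneg_right b2.le)
  · exact (lo (tm D x) (by linarith [g2.1]) (by nlinarith)).trans (le_add_of_nonneg_left b1.le)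

/-- Close parameters. -/
theorem Par.close (h : Par D μ γ s) (h' : Par D μ' γ' s) (hx : 6 * D ≤ ‖x‖) {ε : ℝ}
    (h1 : |μ - μ'| ≤ ε) (h2 : |γ - γ'| ≤ ε) (h3 : 4 * ε * ‖x‖ ≤ 1) :
    Oe D μ γ s x ≤ 2 * Oe D μ' γ' s x ∧ (0 ≤ x 2 → Oo D μ γ s x ≤ 2 * Oo D μ' γ' s x) := by
  have hD := h.D_ge
  obtain ⟨g1, g2, -, -, -, g3⟩ := geo hD hx
  have hε : 0 ≤ ε := (abs_nonneg _).trans h1
  have key : ∀ t, 5 * D ≤ t → t ≤ ‖x‖ + D → Bf μ γ s t ≤ 3 / 2 * Bf μ' γ' s t := by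
    intro t a1 a2
    obtain ⟨a3, a4⟩ := bar2b_log (t := t) (by linarith)
    have a5 := mul_le_mul_of_nonneg_right (abs_le.1 h1).1 (show 0 ≤ t by linarith)
    have a6 := mul_le_mul_of_nonneg_right (abs_le.1 h2).2 a3
    have a7 := mul_le_mul_of_nonneg_left a4 hε
    have a8 := mul_le_mul_of_nonneg_left (show t ≤ 7 / 6 * ‖x‖ by linarith) hε
    exact bar2b_le (c := 1 / 3) ((bar2b_exp (by norm_num)).trans (by norm_num)) (by linarith)
  have p1 : 5 * D ≤ tp D x := by linarith [g1.1]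
  refine ⟨?_, fun hz => ?_⟩
  · have a1 := key _ p1 g1.2
    have a2 := key (tm D x) (by linarith [g2.1]) g2.2
    have b1 := Oe_pos D μ' γ' s x
    simp only [Oe] at b1 ⊢
    linarith
  · have hw : 0 ≤ D * x 2 / ‖x‖ := div_nonneg (mul_nonneg (by linarith) hz) (norm_nonneg _)
    refine diff_le (by linarith [(g3 hz).1]) (fun t ht => hasDerivAt_Bf μ γ s (by linarith [ht.1]))
      (fun t ht => hasDerivAt_Bf μ' γ' s (by linarith [ht.1])) fun t ht => ?_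
    have a1 := mul_le_mul_of_nonneg_right (h.ld (p1.trans ht.1)).1 (Bf_pos μ γ s t).le
    have a2 := mul_le_mul_of_nonneg_right (h'.ld (p1.trans ht.1)).2 (Bf_pos μ' γ' s t).le
    have a3 := key t (p1.trans ht.1) (ht.2.trans g2.2)
    have a4 := Bf_pos μ' γ' s t
    linarith

/-- A faster rate. -/
theorem Par.faster (h : Par D μ γ 0) (h' : Par D μ' γ' 0) (hx : 6 * D ≤ ‖x‖) {a : ℝ} (ha : 0 ≤ a)
    (h1 : μ + a ≤ μ') : Oe D μ' γ' 0 x ≤ ‖x‖ * ex (a / 2) x * Oe D μ γ 0 x := by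
  have hD := h.D_ge
  obtain ⟨g1, g2, -⟩ := geo hD hx
  have hr : 0 < ‖x‖ := by linarith
  have key : ∀ t, ‖x‖ - D ≤ t → t ≤ ‖x‖ + D →
      Bf μ' γ' 0 t ≤ ‖x‖ * ex (a / 2) x * Bf μ γ 0 t := by
    intro t a1 a2
    have a3 := (bar2b_log (t := t) (by linarith)).1
    have a4 : Real.log t ≤ 2 * Real.log ‖x‖ := by
      rw [two_mul, ← Real.log_mul hr.ne' hr.ne']
      exact Real.log_le_log (by linarith) (by nlinarith)
    have a5 := mul_le_mul_of_nonneg_right h1 (show 0 ≤ t by linarith)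
    have a6 := mul_le_mul_of_nonneg_right h'.γ_le a3
    have a7 := mul_le_mul_of_nonneg_right h.γ_ge a3
    have a8 := mul_le_mul_of_nonneg_left (show ‖x‖ / 2 ≤ t by linarith) ha
    refine bar2b_le (c := Real.log ‖x‖ + -(a / 2) * ‖x‖)
      (by rw [Real.exp_add, Real.exp_log hr, ex]) (by linarith)
  rw [Oe, Oe, mul_add]
  exact add_le_add (key _ g1.1 g1.2) (key _ g2.1 g2.2)

theorem Par.anti (h : Par D μ γ 0) (h' : Par D μ' γ' 0) (hx : 6 * D ≤ ‖x‖) (h1 : μ ≤ μ')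
    (h2 : γ' ≤ γ) : Oe D μ' γ' 0 x ≤ Oe D μ γ 0 x := by
  have hD := h.D_ge
  obtain ⟨g1, g2, -⟩ := geo hD hx
  have key : ∀ t, ‖x‖ - D ≤ t → Bf μ' γ' 0 t ≤ Bf μ γ 0 t := by
    intro t a1
    have a3 := mul_le_mul_of_nonneg_right h2 (bar2b_log (t := t) (by linarith)).1
    have a5 := mul_le_mul_of_nonneg_right h1 (show 0 ≤ t by linarith)
    exact Real.exp_le_exp.2 (by linarith)
  exact add_le_add (key _ g1.1) (key _ g2.1)

theorem Par.near (h : Par D μ γ 0) (hx : 6 * D ≤ ‖x‖) {y : X} (hy : 6 * D ≤ ‖y‖)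
    (hxy : ‖x - y‖ ≤ 2) : Oe D μ γ 0 x ≤ 10 * Oe D μ γ 0 y := by
  have hD := h.D_ge
  obtain ⟨g1, g2, -⟩ := geo hD hx
  obtain ⟨g3, g4, -⟩ := geo hD hy
  have e1 : Real.exp (1 + 1 + 1 / 10) ≤ 10 := by
    rw [Real.exp_add, Real.exp_add]
    have a1 : Real.exp 1 ≤ 3 := by linarith [Real.exp_one_lt_d9]
    have a2 : Real.exp (1 / 10) ≤ 10 / 9 := (bar2b_exp (by norm_num)).trans (by norm_num)
    calc _ ≤ 3 * 3 * (10 / 9 : ℝ) := by gcongr
      _ = _ := by norm_num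
  have key : ∀ t t', 5000 ≤ t → 5000 ≤ t' → |t - t'| ≤ 2 → Bf μ γ 0 t ≤ 10 * Bf μ γ 0 t' := by
    intro t t' a1 a2 a3
    obtain ⟨a4, a5⟩ := abs_le.1 a3
    have a6 := Real.log_le_sub_one_of_pos (show 0 < t / t' by positivity)
    rw [Real.log_div (by linarith) (by linarith)] at a6
    have a7 : t / t' ≤ 1 + 1 / 100 := by
      rw [div_le_iff₀ (by linarith)]
      linarith
    have a8 := mul_le_mul_of_nonneg_left (show Real.log t - Real.log t' ≤ 1 / 100 by linarith)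
      (show 0 ≤ γ by linarith [h.γ_ge])
    have a9 := mul_le_mul_of_nonneg_left (show t' - t ≤ 2 by linarith)
      (show 0 ≤ μ by linarith [h.μ_ge])
    refine bar2b_le e1 ?_
    simp only [zero_div]
    linarith [h.μ_le, h.γ_le]
  rw [Oe, Oe, mul_add]
  refine add_le_add (key _ _ (by linarith [g1.1]) (by linarith [g3.1]) ?_)
    (key _ _ (by linarith [g2.1]) (by linarith [g4.1]) ?_)
  · refine (abs_norm_sub_norm_le _ _).trans ?_
    rwa [sub_sub_sub_cancel_right]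
  · refine (abs_norm_sub_norm_le _ _).trans ?_
    rwa [add_sub_add_right_eq_sub]

theorem Par.Oe_lower (h : Par D μ γ 0) (hx : 6 * D ≤ ‖x‖) :
    Real.exp (-μ * (‖x‖ + D)) ≤ Oe D μ γ 0 x := by
  have hD := h.D_ge
  obtain ⟨g1, -⟩ := geo hD hx
  refine le_trans (Real.exp_le_exp.2 ?_) (le_add_of_nonneg_right (Bf_pos μ γ 0 (tm D x)).le)
  have a1 := mul_nonneg (show 0 ≤ γ by linarith [h.γ_ge])
    (bar2b_log (t := tp D x) (by linarith [g1.1])).1
  have a2 := mul_le_mul_of_nonneg_left g1.2 (show 0 ≤ μ by linarith [h.μ_ge])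
  rw [zero_div]
  linarith

/-- In the slab, far from the axis, `t±` and `r` lie in `[s, s + 1]`. -/
theorem Par.slab (h : Par D μ γ 0) (hz : |x 2| ≤ 3) (hs : (D + 3) ^ 2 ≤ sx x) :
    sx x ≤ ‖x‖ ∧ ‖x‖ ≤ sx x + 1 ∧ Oe D μ γ 0 x ≤ 2 * Bf μ γ 0 (sx x) ∧
      7 / 10 * Bf μ γ 0 (sx x) ≤ Oe D μ γ 0 x := by
  have hD := h.D_ge
  have s0 : 0 ≤ sx x := Real.sqrt_nonneg _
  have e1 : ‖x‖ ^ 2 = sx x ^ 2 + x 2 ^ 2 := by
    rw [sx, Real.sq_sqrt (by positivity), EuclideanSpace.real_norm_sq_eq, Fin.sum_univ_three]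
  obtain ⟨z1, z2⟩ := abs_le.1 hz
  have s1 : 6 * D ≤ sx x := by nlinarith
  have r1 : sx x ≤ ‖x‖ := bar2b_sq (by nlinarith [sq_nonneg (x 2)]) (norm_nonneg _)
  obtain ⟨-, -, g3, g4, -⟩ := geo hD (s1.trans r1)
  have key : ∀ t w, 0 ≤ t → t ^ 2 = sx x ^ 2 + w ^ 2 → w ^ 2 ≤ (D + 3) ^ 2 →
      Bf μ γ 0 t ≤ Bf μ γ 0 (sx x) ∧ 2 / 5 * Bf μ γ 0 (sx x) ≤ Bf μ γ 0 t := by
    intro t w a1 a2 a3
    have a4 : sx x ≤ t := bar2b_sq (by nlinarith [sq_nonneg w]) a1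
    have a5 : t ≤ sx x + 1 / 2 := bar2b_sq (by nlinarith) (by linarith)
    obtain ⟨a6, a7⟩ := bar2a_ratio h (a := sx x) (b := t) (by linarith) a4
    exact ⟨le_trans (le_mul_of_one_le_left (Bf_pos _ _ _ _).le (by linarith)) a6,
      le_trans (mul_le_mul_of_nonneg_right (by linarith) (Bf_pos _ _ _ _).le) a7⟩
  have k1 := key (tp D x) (x 2 - D) (norm_nonneg _) (by linarith)
    (sq_le_sq' (by linarith) (by linarith))
  have k2 := key (tm D x) (x 2 + D) (norm_nonneg _) (by linarith)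
    (sq_le_sq' (by linarith) (by linarith))
  have b1 := Bf_pos μ γ 0 (sx x)
  refine ⟨r1, bar2b_sq (by nlinarith) (by linarith), ?_, ?_⟩
  · rw [Oe]
    linarith [k1.1, k2.1]
  · rw [Oe]
    linarith [k1.2, k2.2]

/-- Polynomials against exponentials. -/
theorem ev_poly_exp (k : ℕ) {a ε : ℝ} (ha : 0 < a) (hε : 0 < ε) :
    ∀ᶠ r : ℝ in atTop, ∀ x : X, r ≤ ‖x‖ → ‖x‖ ^ k * ex a x ≤ ε := by
  have h1 := (tendsto_rpow_mul_exp_neg_mul_atTop_nhds_zero k a ha).eventually (ge_mem_nhds hε)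
  simp only [Real.rpow_natCast] at h1
  obtain ⟨N, hN⟩ := eventually_atTop.1 h1
  filter_upwards [eventually_ge_atTop N] with r hr x hx using hN _ (hr.trans hx)

theorem ex_pos (a : ℝ) (x : X) : 0 < ex a x := by
  exact Real.exp_pos _

theorem ex_add (a b : ℝ) (x : X) : ex (a + b) x = ex a x * ex b x := by
  rw [ex, ex, ex, ← Real.exp_add, neg_add, add_mul]

theorem ex_anti {a b : ℝ} (h : a ≤ b) (x : X) : ex b x ≤ ex a x := by
  exact Real.exp_le_exp.2 (mul_le_mul_of_nonneg_right (neg_le_neg h) (norm_nonneg _))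

theorem memLp_ex {a : ℝ} (ha : 0 < a) : MemLp (ex a) 2 volume := by
  have h1 : Continuous (ex a) := by
    unfold ex
    fun_prop
  refine (memLp_two_iff_integrable_sq h1.aestronglyMeasurable).2
    ((integrable_ex (add_pos ha ha) 0 0).congr (.of_forall fun x => ?_))
  simp only [pow_zero, one_mul, sub_zero, sq, ← ex_add]
  rfl

end Crest.Agent.R335
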