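/-
R335/PR/Bar1: Laplacians of the profiles
Skeleton by helper48 (row 335); keep the statements unchanged, add any helper lemmas you like.
-/
import Crest.Agent.R335.PR.Bar2

set_option autoImplicit false
set_option linter.unusedSectionVars false
set_option linter.unusedVariables false
set_option linter.unusedSimpArgs false

noncomputable section

namespace Crest.Agent.R335

open MeasureTheory Set Filter Topology Metric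
open scoped ENNReal

open Crest.Agent.R338 (pd lap)

variable {D μ γ s : ℝ} {x : X}

theorem bar1_mul {a b A B : ℝ} (ha : |a| ≤ A) (hb : |b| ≤ B) : |a * b| ≤ A * B := by
  rw [abs_mul]
  exact mul_le_mul ha hb (abs_nonneg _) ((abs_nonneg _).trans ha)

theorem bar1_be (μ γ s t : ℝ) : be μ γ s t = μ ^ 2 - 2 * μ * (γ + 1) * t⁻¹ +
    (γ ^ 2 + γ + 2 * μ * s) * t⁻¹ ^ 2 - 2 * γ * s * t⁻¹ ^ 3 + s ^ 2 * t⁻¹ ^ 4 := by
  simp only [be, div_eq_mul_inv, inv_pow]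

theorem bar1_par (h : Par D μ γ s) : |2 * μ * (γ + 1)| ≤ 425 / 100 ∧ |γ ^ 2 + γ| ≤ 3 ∧
    |μ| ≤ 101 / 100 ∧ |γ| ≤ 11 / 10 := by
  have h1 := h.μ_ge
  have h2 := h.μ_le
  have h3 := h.γ_ge
  have h4 := h.γ_le
  refine ⟨abs_le.2 ⟨by nlinarith, by nlinarith⟩, abs_le.2 ⟨by nlinarith, by nlinarith⟩,
    abs_le.2 ⟨by linarith, h2⟩, abs_le.2 ⟨by linarith, h4⟩⟩

theorem bar1_inv (hD : 1000 ≤ D) {r t : ℝ} (hr : 6 * D ≤ r) (h1 : r - D ≤ t) :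
    0 < t⁻¹ ∧ t⁻¹ ≤ 1 / 5000 ∧ D * t⁻¹ ≤ 1 / 5 ∧ t⁻¹ ≤ 6 / 5 * r⁻¹ := by
  have ht : 0 < t := by linarith
  have hr0 : 0 < r := by linarith
  refine ⟨inv_pos.2 ht, ?_, ?_, ?_⟩
  · rw [one_div]
    exact inv_anti₀ (by norm_num) (by linarith)
  · rw [← div_eq_mul_inv, div_le_iff₀ ht]
    linarith
  · rw [← div_eq_mul_inv, inv_eq_one_div, div_le_div_iff₀ ht hr0]
    linarith

/-- `|1/t - 1/r| ≤ 1.2 D / r²`, `5r/6 ≤ t ≤ 7r/6`, `t ≥ 5 D`. -/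
theorem Par.be_bounds (h : Par D μ γ 0) (hx : 6 * D ≤ ‖x‖) {t : ℝ} (h1 : ‖x‖ - D ≤ t)
    (h2 : t ≤ ‖x‖ + D) : be μ γ (-(20 * D)) t ≤ a0 μ γ x - 23 * D / ‖x‖ ^ 2 ∧
      a0 μ γ x + 23 * D / ‖x‖ ^ 2 ≤ be μ γ (20 * D) t ∧
      |be μ γ 0 t - a0 μ γ x| ≤ 11 / 2 * D / ‖x‖ ^ 2 := by
  have hD := h.D_ge
  have hr : 0 < ‖x‖ := by linarith
  have ht : 0 < t := by linarith
  obtain ⟨u0, u1, u2, u3⟩ := bar1_inv hD hx h1
  obtain ⟨k1, k2, k3, k4⟩ := bar1_par h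
  have v0 := inv_pos.2 hr
  have u4 : 6 / 7 * ‖x‖⁻¹ ≤ t⁻¹ := by
    rw [← div_eq_mul_inv, inv_eq_one_div, div_le_div_iff₀ hr ht]
    linarith
  have d1 : |t⁻¹ - ‖x‖⁻¹| ≤ 6 / 5 * (D * ‖x‖⁻¹ ^ 2) := by
    have e : t⁻¹ - ‖x‖⁻¹ = (‖x‖ - t) * (t⁻¹ * ‖x‖⁻¹) := by field_simp
    rw [e]
    refine (bar1_mul (A := D) (B := 6 / 5 * ‖x‖⁻¹ * ‖x‖⁻¹) (abs_le.2 ⟨by linarith, by linarith⟩)
      (by rw [abs_of_pos (mul_pos u0 v0)]; gcongr)).trans (le_of_eq (by ring))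
  have d2 := abs_le.1 (bar1_mul k1 d1)
  have q0 : 0 ≤ D * t⁻¹ ^ 2 := by positivity
  have q1 : 36 / 49 * (D * ‖x‖⁻¹ ^ 2) ≤ D * t⁻¹ ^ 2 := by
    have := mul_le_mul_of_nonneg_left (pow_le_pow_left₀ (by positivity) u4 2)
      (show 0 ≤ D by linarith)
    linarith
  have q2 : D * t⁻¹ ^ 2 ≤ 36 / 25 * (D * ‖x‖⁻¹ ^ 2) := by
    have := mul_le_mul_of_nonneg_left (pow_le_pow_left₀ u0.le u3 2) (show 0 ≤ D by linarith)
    linarith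
  have q3 : |t⁻¹ ^ 2| ≤ 1 / 1000 * (D * t⁻¹ ^ 2) := by
    have := mul_le_mul_of_nonneg_right hD (sq_nonneg t⁻¹)
    rw [abs_of_nonneg (sq_nonneg _)]
    linarith
  have q4 := abs_le.1 (bar1_mul k2 q3)
  have q5 := mul_le_mul_of_nonneg_right h.μ_ge q0
  have q6 := abs_le.1 (bar1_mul (bar1_mul k4 ((abs_of_pos u0).trans_le u1))
    (abs_of_nonneg q0).le)
  have q7 := mul_le_mul_of_nonneg_right
    (mul_le_mul u2 u1 u0.le (by norm_num)) q0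
  have q8 := mul_nonneg q0 q0
  have q9 := mul_nonneg (show 0 ≤ γ ^ 2 + γ by nlinarith [h.γ_ge]) (sq_nonneg t⁻¹)
  simp only [bar1_be, a0, div_eq_mul_inv _ ‖x‖, div_eq_mul_inv _ (‖x‖ ^ 2), ← inv_pow]
  refine ⟨by linarith [d2.1, q4.2, q6.2], by linarith [d2.2, q6.2],
    abs_le.2 ⟨by linarith [d2.2], by linarith [d2.1, q4.2]⟩⟩

/-- `|β'| ≤ 32 / r²` on `[t+, t-]`. -/
theorem Par.be_diff (h : Par D μ γ s) (hx : 6 * D ≤ ‖x‖) (hz : 0 ≤ x 2) :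
    |be μ γ s (tp D x) - be μ γ s (tm D x)| ≤ 32 / ‖x‖ ^ 2 * (tm D x - tp D x) := by
  have hD := h.D_ge
  have hr : 0 < ‖x‖ := by linarith
  obtain ⟨g1, g2, -, -, -, g3⟩ := geo hD hx
  have hw : 0 ≤ D * x 2 / ‖x‖ := div_nonneg (mul_nonneg (by linarith) hz) (norm_nonneg _)
  have hab : 0 ≤ tm D x - tp D x := by linarith [(g3 hz).1]
  have ha : 0 < tp D x := by linarith [g1.1]
  have hb : 0 < tm D x := by linarith [g2.1]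
  obtain ⟨u0, u1, u2, u3⟩ := bar1_inv hD hx g1.1
  obtain ⟨w0, w1, w2, w3⟩ := bar1_inv hD hx g2.1
  obtain ⟨k1, k2, k3, k4⟩ := bar1_par h
  have e1 : (tp D x)⁻¹ - (tm D x)⁻¹ = (tm D x - tp D x) * ((tp D x)⁻¹ * (tm D x)⁻¹) := by
    field_simp
  rw [bar1_be, bar1_be, div_eq_mul_inv _ (‖x‖ ^ 2), ← inv_pow]
  generalize tm D x - tp D x = Δ at hab e1
  generalize (tp D x)⁻¹ = u at *
  generalize (tm D x)⁻¹ = w at *
  have p1 : |s * u| ≤ 4 := (bar1_mul h.s_le (abs_of_pos u0).le).trans (by linarith)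
  have p2 : |s * w| ≤ 4 := (bar1_mul h.s_le (abs_of_pos w0).le).trans (by linarith)
  have u5 := (abs_of_pos u0).trans_le u1
  have w5 := (abs_of_pos w0).trans_le w1
  have b1 := abs_le.1 (bar1_mul k2 u5)
  have b2 := abs_le.1 (bar1_mul k2 w5)
  have b3 := abs_le.1 (bar1_mul k3 p1)
  have b4 := abs_le.1 (bar1_mul k3 p2)
  have b5 := abs_le.1 (bar1_mul k4 (bar1_mul p1 u5))
  have b6 := abs_le.1 (bar1_mul k4 (bar1_mul p1 w5))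
  have b7 := abs_le.1 (bar1_mul k4 (bar1_mul p2 w5))
  have b8 := abs_le.1 (bar1_mul p1 (bar1_mul p1 u5))
  have b9 := abs_le.1 (bar1_mul p1 (bar1_mul p2 w5))
  have b10 := abs_le.1 (bar1_mul p2 (bar1_mul p1 u5))
  have b11 := abs_le.1 (bar1_mul p2 (bar1_mul p2 w5))
  have k5 := abs_le.1 k1
  have c1 : |-(2 * μ * (γ + 1)) + (γ ^ 2 + γ + 2 * μ * s) * (u + w) -
      2 * γ * s * (u ^ 2 + u * w + w ^ 2) + s ^ 2 * ((u + w) * (u ^ 2 + w ^ 2))| ≤ 21 :=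
    abs_le.2 ⟨by linarith [b1.1, b2.1, b3.1, b4.1, b5.2, b6.2, b7.2, b8.1, b9.1, b10.1, b11.1, k5.2],
      by linarith [b1.2, b2.2, b3.2, b4.2, b5.1, b6.1, b7.1, b8.2, b9.2, b10.2, b11.2, k5.1]⟩
  have c2 : |u - w| ≤ Δ * (6 / 5 * ‖x‖⁻¹ * (6 / 5 * ‖x‖⁻¹)) := by
    rw [e1]
    exact bar1_mul (abs_of_nonneg hab).le
      (bar1_mul ((abs_of_pos u0).trans_le u3) ((abs_of_pos w0).trans_le w3))
  have c3 := bar1_mul c2 c1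
  have c4 := mul_nonneg hab (sq_nonneg ‖x‖⁻¹)
  refine le_trans (le_of_eq ?_) (c3.trans (by linarith))
  congr 1
  ring

theorem bar1_rad (μ γ s : ℝ) (hD : 0 ≤ D) (hx : D < ‖x‖) :
    (ContDiffAt ℝ 2 (fun y : X => Bf μ γ s (tp D y)) x ∧
      lap (fun y : X => Bf μ γ s (tp D y)) x = be μ γ s (tp D x) * Bf μ γ s (tp D x)) ∧
    ContDiffAt ℝ 2 (fun y : X => Bf μ γ s (tm D y)) x ∧
      lap (fun y : X => Bf μ γ s (tm D y)) x = be μ γ s (tm D x) * Bf μ γ s (tm D x) := by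
  have hn : ‖nuc D‖ = D := by rw [nuc, PiLp.norm_single, Real.norm_of_nonneg hD]
  have h1 := radial_Bf μ γ s (nuc D) (x := x) fun h => by
    rw [h, hn] at hx
    exact lt_irrefl _ hx
  have h2 := radial_Bf μ γ s (-nuc D) (x := x) fun h => by
    rw [h, norm_neg, hn] at hx
    exact lt_irrefl _ hx
  simp only [sub_neg_eq_add] at h2
  exact ⟨⟨h1.1, h1.2.2⟩, h2.1, h2.2.2⟩

theorem lap_Oe (μ γ s : ℝ) (hD : 0 ≤ D) (hx : D < ‖x‖) : lap (Oe D μ γ s) x =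
    be μ γ s (tp D x) * Bf μ γ s (tp D x) + be μ γ s (tm D x) * Bf μ γ s (tm D x) := by
  obtain ⟨⟨h1, h2⟩, h3, h4⟩ := bar1_rad μ γ s hD hx
  rw [← h2, ← h4]
  exact lap_add h1 h3

theorem lap_Oo (μ γ s : ℝ) (hD : 0 ≤ D) (hx : D < ‖x‖) : lap (Oo D μ γ s) x =
    be μ γ s (tp D x) * Bf μ γ s (tp D x) - be μ γ s (tm D x) * Bf μ γ s (tm D x) := by
  obtain ⟨⟨h1, h2⟩, h3, h4⟩ := bar1_rad μ γ s hD hx
  rw [← h2, ← h4]
  exact lap_sub h1 h3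

theorem Par.lap_Oe (h : Par D μ γ 0) (hx : 6 * D ≤ ‖x‖) :
    lap (Oe D μ γ (-(20 * D))) x ≤ (a0 μ γ x - 20 * D / ‖x‖ ^ 2) * Oe D μ γ (-(20 * D)) x ∧
    (a0 μ γ x + 20 * D / ‖x‖ ^ 2) * Oe D μ γ (20 * D) x ≤ lap (Oe D μ γ (20 * D)) x ∧
    |lap (Oe D μ γ 0) x - a0 μ γ x * Oe D μ γ 0 x| ≤ 6 * D / ‖x‖ ^ 2 * Oe D μ γ 0 x := by
  have hD := h.D_ge
  obtain ⟨g1, g2, -⟩ := geo hD hx
  obtain ⟨a1, a2, a3⟩ := h.be_bounds hx g1.1 g1.2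
  obtain ⟨b1, b2, b3⟩ := h.be_bounds hx g2.1 g2.2
  have hl := fun s => R335.lap_Oe (D := D) (x := x) μ γ s (by linarith) (by linarith)
  have w0 : 0 ≤ D / ‖x‖ ^ 2 := div_nonneg (by linarith) (sq_nonneg _)
  simp only [mul_div_assoc] at a1 a2 a3 b1 b2 b3 ⊢
  simp only [hl, Oe]
  generalize D / ‖x‖ ^ 2 = W at *
  have key : ∀ {β β' : ℝ} (s t : ℝ), β ≤ β' → β * Bf μ γ s t ≤ β' * Bf μ γ s t :=
    fun s t h => mul_le_mul_of_nonneg_right h (Bf_pos _ _ _ _).le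
  refine ⟨?_, ?_, abs_le.2 ⟨?_, ?_⟩⟩
  · linarith [key (-(20 * D)) (tp D x) (a1.trans (show _ ≤ a0 μ γ x - 20 * W by linarith)),
      key (-(20 * D)) (tm D x) (b1.trans (show _ ≤ a0 μ γ x - 20 * W by linarith))]
  · linarith [key (20 * D) (tp D x) ((show a0 μ γ x + 20 * W ≤ _ by linarith).trans a2),
      key (20 * D) (tm D x) ((show a0 μ γ x + 20 * W ≤ _ by linarith).trans b2)]
  · linarith [key 0 (tp D x) ((show -(6 * W) ≤ _ by linarith).trans (abs_le.1 a3).1),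
      key 0 (tm D x) ((show -(6 * W) ≤ _ by linarith).trans (abs_le.1 b3).1)]
  · linarith [key 0 (tp D x) ((abs_le.1 a3).2.trans (show _ ≤ 6 * W by linarith)),
      key 0 (tm D x) ((abs_le.1 b3).2.trans (show _ ≤ 6 * W by linarith))]

theorem bar1_Oo (h : Par D μ γ s) (hx : 6 * D ≤ ‖x‖) (hz : 0 ≤ x 2) :
    |lap (Oo D μ γ s) x - be μ γ s (tp D x) * Oo D μ γ s x| ≤
      1 / 10 * (D / ‖x‖ ^ 2) * Oo D μ γ s x := by
  have hD := h.D_ge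
  have a1 := bar1_mul (h.be_diff hx hz) (abs_of_pos (Bf_pos μ γ s (tm D x))).le
  have a2 := mul_le_mul_of_nonneg_left (h.Oo_size hx hz).2.2 (sq_nonneg ‖x‖⁻¹)
  have a3 := mul_nonneg (sq_nonneg ‖x‖⁻¹) (h.Oo_nonneg hx hz)
  have a4 := mul_le_mul_of_nonneg_right hD a3
  rw [div_eq_mul_inv, ← inv_pow] at a1
  rw [div_eq_mul_inv D, ← inv_pow, R335.lap_Oo μ γ s (by linarith) (by linarith)]
  refine le_trans (le_of_eq ?_) (a1.trans (by linarith))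
  congr 1
  rw [Oo]
  ring

/-- `lap Oo = β(t+) Oo + (β(t+) - β(t-)) B(t-)`, `Par.Oo_size`. -/
theorem Par.lap_Oo (h : Par D μ γ 0) (hx : 6 * D ≤ ‖x‖) (hz : 0 ≤ x 2) :
    lap (Oo D μ γ (-(20 * D))) x ≤ (a0 μ γ x - 20 * D / ‖x‖ ^ 2) * Oo D μ γ (-(20 * D)) x ∧
    (a0 μ γ x + 20 * D / ‖x‖ ^ 2) * Oo D μ γ (20 * D) x ≤ lap (Oo D μ γ (20 * D)) x ∧
    |lap (Oo D μ γ 0) x - a0 μ γ x * Oo D μ γ 0 x| ≤ 6 * D / ‖x‖ ^ 2 * Oo D μ γ 0 x := by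
  have hD := h.D_ge
  obtain ⟨g1, -⟩ := geo hD hx
  obtain ⟨a1, a2, a3⟩ := h.be_bounds hx g1.1 g1.2
  have h1 : Par D μ γ (-(20 * D)) := h.of_abs (by rw [abs_neg, abs_of_nonneg (by linarith)])
  have h2 : Par D μ γ (20 * D) := h.of_abs (by rw [abs_of_nonneg (by linarith)])
  have b1 := (abs_le.1 (bar1_Oo h1 hx hz)).2
  have b2 := (abs_le.1 (bar1_Oo h2 hx hz)).1
  have b3 := abs_le.1 (bar1_Oo h hx hz)
  have c1 := h1.Oo_nonneg hx hz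
  have c2 := h2.Oo_nonneg hx hz
  have c3 := h.Oo_nonneg hx hz
  have w0 : 0 ≤ D / ‖x‖ ^ 2 := div_nonneg (by linarith) (sq_nonneg _)
  simp only [mul_div_assoc] at a1 a2 a3 ⊢
  generalize D / ‖x‖ ^ 2 = W at *
  refine ⟨?_, ?_, abs_le.2 ⟨?_, ?_⟩⟩
  · linarith [mul_le_mul_of_nonneg_right a1 c1, mul_nonneg w0 c1]
  · linarith [mul_le_mul_of_nonneg_right a2 c2, mul_nonneg w0 c2]
  · linarith [mul_le_mul_of_nonneg_right (abs_le.1 a3).1 c3, mul_nonneg w0 c3, b3.1]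
  · linarith [mul_le_mul_of_nonneg_right (abs_le.1 a3).2 c3, mul_nonneg w0 c3, b3.2]

theorem Par.a0_bounds (h : Par D μ γ s) (hx : 6 * D ≤ ‖x‖) :
    97 / 100 ≤ a0 μ γ x ∧ a0 μ γ x ≤ 103 / 100 ∧ D / ‖x‖ ^ 2 ≤ 1 / 36000 := by
  have hD := h.D_ge
  have hr : 0 < ‖x‖ := by linarith
  obtain ⟨u0, u1, -, -⟩ := bar1_inv hD hx (t := ‖x‖) (by linarith)
  have a1 := abs_le.1 (bar1_mul (bar1_par h).1 ((abs_of_pos u0).trans_le u1))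
  have a2 := mul_nonneg (show 0 ≤ 2 * μ * (γ + 1) by nlinarith [h.μ_ge, h.γ_ge]) u0.le
  have a3 := pow_le_pow_left₀ (by norm_num) h.μ_ge 2
  have a4 := pow_le_pow_left₀ (by linarith [h.μ_ge]) h.μ_le 2
  rw [a0, div_eq_mul_inv _ ‖x‖]
  refine ⟨by linarith [a1.2], by linarith, ?_⟩
  rw [div_le_iff₀ (by positivity)]
  nlinarith

end Crest.Agent.R335
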