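/-
R335/PR/Bar3: profiles times powers of the distance; the induced profiles
Skeleton by helper48 (row 335); keep the statements unchanged, add any helper lemmas you like.
-/
import Crest.Agent.R335.PR.Bar1

set_option autoImplicit false
set_option linter.unusedSectionVars false
set_option linter.unusedVariables false
set_option linter.unusedSimpArgs false

noncomputable section

namespace Crest.Agent.R335

open MeasureTheory Set Filter Topology Metric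
open scoped ENNReal

open Crest.Agent.R338 (pd lap)

variable {D μ γ : ℝ} {x : X}

/-- `B'(t) / t`. -/
def bq (μ γ t : ℝ) : ℝ := ld μ γ 0 t * Bf μ γ 0 t / t

theorem bar3_ne (hD : 0 ≤ D) (hx : D < ‖x‖) : x ≠ nuc D ∧ x ≠ -nuc D := by
  have hn : ‖nuc D‖ = D := by simp [nuc, abs_of_nonneg hD]
  constructor
  · rintro rfl; linarith
  · rintro rfl; rw [norm_neg] at hx; linarith

theorem bar3_pd (μ γ : ℝ) (hD : 0 ≤ D) (hx : D < ‖x‖) (c : Fin 3) :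
    pd c (Oe D μ γ 0) x = bq μ γ (tp D x) * (x c - nuc D c) + bq μ γ (tm D x) * (x c + nuc D c) ∧
    pd c (Oo D μ γ 0) x = bq μ γ (tp D x) * (x c - nuc D c) - bq μ γ (tm D x) * (x c + nuc D c) := by
  obtain ⟨n1, n2⟩ := bar3_ne hD hx
  obtain ⟨c1, p1, -⟩ := radial_Bf μ γ 0 (nuc D) n1
  obtain ⟨c2, p2, -⟩ := radial_Bf μ γ 0 (-nuc D) n2
  have d1 := c1.differentiableAt two_ne_zero
  have d2 := c2.differentiableAt two_ne_zero
  have e1 : Oe D μ γ 0 = fun y => Bf μ γ 0 ‖y - nuc D‖ + Bf μ γ 0 ‖y - -nuc D‖ := by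
    funext y; simp only [Oe, tp, tm, sub_neg_eq_add]
  have e2 : Oo D μ γ 0 = fun y => Bf μ γ 0 ‖y - nuc D‖ + -1 * Bf μ γ 0 ‖y - -nuc D‖ := by
    funext y; simp only [Oo, tp, tm, sub_neg_eq_add]; ring
  rw [e1, e2, R338.pd_add c d1 d2, R338.pd_add c d1 (d2.const_mul _), R338.pd_const_mul c _ d2,
    p1, p2]
  simp only [bq, tp, tm, sub_neg_eq_add, PiLp.neg_apply]
  constructor <;> ring

theorem bar3_sq (x : X) : ‖x‖ ^ 2 = x 0 ^ 2 + x 1 ^ 2 + x 2 ^ 2 := by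
  rw [EuclideanSpace.real_norm_sq_eq, Fin.sum_univ_three]

theorem bar3_sum (μ γ : ℝ) (hD : 0 ≤ D) (hx : D < ‖x‖) :
    ∑ c, x c * pd c (Oe D μ γ 0) x =
      bq μ γ (tp D x) * (‖x‖ ^ 2 - D * x 2) + bq μ γ (tm D x) * (‖x‖ ^ 2 + D * x 2) ∧
    ∑ c, x c * pd c (Oo D μ γ 0) x = ‖x‖ ^ 2 * (bq μ γ (tp D x) - bq μ γ (tm D x)) -
      D * x 2 * (bq μ γ (tp D x) + bq μ γ (tm D x)) ∧
    pd 2 (Oe D μ γ 0) x = bq μ γ (tp D x) * (x 2 - D) + bq μ γ (tm D x) * (x 2 + D) ∧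
    pd 2 (Oo D μ γ 0) x = x 2 * (bq μ γ (tp D x) - bq μ γ (tm D x)) -
      D * (bq μ γ (tp D x) + bq μ γ (tm D x)) := by
  have n0 : nuc D 0 = 0 := by simp [nuc]
  have n1 : nuc D 1 = 0 := by simp [nuc]
  have n2 : nuc D 2 = D := by simp [nuc]
  simp only [Fin.sum_univ_three, (bar3_pd μ γ hD hx _).1, (bar3_pd μ γ hD hx _).2, n0, n1, n2,
    bar3_sq]
  refine ⟨by ring, by ring, trivial, by ring⟩

theorem bar3_bq (h : Par D μ γ 0) {t : ℝ} (ht : 5 * D ≤ t) :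
    98 / 100 * Bf μ γ 0 t ≤ -bq μ γ t * t ∧ -bq μ γ t * t ≤ 102 / 100 * Bf μ γ 0 t := by
  have h0 : 0 < t := by linarith [h.D_ge]
  obtain ⟨l1, l2⟩ := h.ld ht
  have hb := Bf_pos μ γ 0 t
  have : -bq μ γ t * t = -ld μ γ 0 t * Bf μ γ 0 t := by unfold bq; field_simp
  rw [this]
  constructor <;> nlinarith

theorem bar3_deriv (μ γ : ℝ) {t : ℝ} (ht : 0 < t) : HasDerivAt (bq μ γ)
    (Bf μ γ 0 t / t * (ld μ γ 0 t ^ 2 - γ / t ^ 2 - ld μ γ 0 t / t)) t := by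
  have h1 : HasDerivAt (ld μ γ 0) (-γ / t ^ 2) t := by
    have e : ld μ γ 0 = fun t => -μ + γ * t⁻¹ := by
      funext t; simp only [ld]; ring
    rw [e]
    exact (((hasDerivAt_inv ht.ne').const_mul γ).const_add (-μ)).congr_deriv (by ring)
  refine ((h1.mul (hasDerivAt_Bf μ γ 0 ht)).div (hasDerivAt_id t) ht.ne').congr_deriv ?_
  simp only [Pi.mul_apply, id]
  field_simp
  ring

theorem bar3_b (h : Par D μ γ 0) (hx : 6 * D ≤ ‖x‖) :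
    84 / 100 * Oe D μ γ 0 x ≤ -(bq μ γ (tp D x) + bq μ γ (tm D x)) * ‖x‖ ∧
    -(bq μ γ (tp D x) + bq μ γ (tm D x)) * ‖x‖ ≤ 123 / 100 * Oe D μ γ 0 x ∧
    (0 ≤ x 2 → |bq μ γ (tp D x) - bq μ γ (tm D x)| * ‖x‖ ≤ 13 / 10 * Oo D μ γ 0 x) := by
  have hD := h.D_ge
  obtain ⟨⟨a1, a2⟩, ⟨a3, a4⟩, -, -, -, a5⟩ := geo hD hx
  obtain ⟨p1, p2⟩ := bar3_bq h (t := tp D x) (by linarith)
  obtain ⟨m1, m2⟩ := bar3_bq h (t := tm D x) (by linarith)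
  have bp := Bf_pos μ γ 0 (tp D x)
  have bm := Bf_pos μ γ 0 (tm D x)
  have np : 0 ≤ -bq μ γ (tp D x) := by
    by_contra hc
    push Not at hc
    nlinarith
  have nm : 0 ≤ -bq μ γ (tm D x) := by
    by_contra hc
    push Not at hc
    nlinarith
  refine ⟨?_, ?_, fun hz => ?_⟩
  · unfold Oe
    nlinarith [mul_le_mul_of_nonneg_left (show tp D x ≤ 7 / 6 * ‖x‖ by linarith) np,
      mul_le_mul_of_nonneg_left (show tm D x ≤ 7 / 6 * ‖x‖ by linarith) nm]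
  · unfold Oe
    nlinarith [mul_le_mul_of_nonneg_left (show 5 / 6 * ‖x‖ ≤ tp D x by linarith) np,
      mul_le_mul_of_nonneg_left (show 5 / 6 * ‖x‖ ≤ tm D x by linarith) nm]
  · have hr : 0 < ‖x‖ := by linarith
    have hab : tp D x ≤ tm D x := by
      have := (a5 hz).1
      have : 0 ≤ D * x 2 / ‖x‖ := by positivity
      linarith
    have key : ∀ t ∈ Icc (tp D x) (tm D x),
        |Bf μ γ 0 t / t * (ld μ γ 0 t ^ 2 - γ / t ^ 2 - ld μ γ 0 t / t)| ≤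
          13 / 10 / ‖x‖ * -(ld μ γ 0 t * Bf μ γ 0 t) := fun t ht => by
      have t1 : 5 * D ≤ t := by linarith [ht.1]
      have t0 : 0 < t := by linarith
      obtain ⟨l1, l2⟩ := h.ld t1
      have hb := Bf_pos μ γ 0 t
      have u1 : γ / t ^ 2 ≤ 1 / 1000 := by
        rw [div_le_iff₀ (by positivity)]; nlinarith [h.γ_le]
      have u2 : 0 ≤ γ / t ^ 2 := by have := h.γ_ge; positivity
      have u3 : -ld μ γ 0 t / t ≤ 1 / 1000 := by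
        rw [div_le_iff₀ t0]; linarith
      have u4 : 0 ≤ -ld μ γ 0 t / t := div_nonneg (by linarith) t0.le
      have u5 : |ld μ γ 0 t ^ 2 - γ / t ^ 2 - ld μ γ 0 t / t| ≤ 105 / 100 := by
        rw [neg_div] at u3 u4
        rw [abs_le]; constructor <;> nlinarith
      have u6 : Bf μ γ 0 t / t ≤ 6 / 5 / ‖x‖ * Bf μ γ 0 t := by
        rw [div_le_iff₀ t0, div_mul_eq_mul_div, div_mul_eq_mul_div, le_div_iff₀ hr]
        nlinarith [ht.1]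
      rw [abs_mul, abs_of_pos (div_pos hb t0)]
      have u7 : 0 < 1 / ‖x‖ * Bf μ γ 0 t := by positivity
      calc _ ≤ 6 / 5 / ‖x‖ * Bf μ γ 0 t * (105 / 100) := by gcongr
        _ = 126 / 100 * (1 / ‖x‖ * Bf μ γ 0 t) := by ring
        _ ≤ 13 / 10 * -ld μ γ 0 t * (1 / ‖x‖ * Bf μ γ 0 t) := by gcongr; linarith
        _ = _ := by ring
    have t0 : ∀ t ∈ Icc (tp D x) (tm D x), 0 < t := fun t ht => by linarith [ht.1]
    have k1 := diff_le (K := 13 / 10 / ‖x‖) hab (fun t ht => bar3_deriv μ γ (t0 t ht))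
      (fun t ht => hasDerivAt_Bf μ γ 0 (t0 t ht)) fun t ht => (neg_le_abs _).trans (key t ht)
    have k2 := diff_le (K := 13 / 10 / ‖x‖) hab (fun t ht => (bar3_deriv μ γ (t0 t ht)).neg)
      (fun t ht => hasDerivAt_Bf μ γ 0 (t0 t ht))
      fun t ht => (neg_neg _).le.trans ((le_abs_self _).trans (key t ht))
    simp only [Pi.neg_apply] at k2
    rw [← le_div_iff₀ hr, abs_le]
    have e : 13 / 10 * Oo D μ γ 0 x / ‖x‖ =
      13 / 10 / ‖x‖ * (Bf μ γ 0 (tp D x) - Bf μ γ 0 (tm D x)) := by unfold Oo; ring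
    rw [e]
    constructor <;> linarith

theorem bar3_abs {q B t w k : ℝ} (h1 : 0 ≤ -q * t) (h2 : -q * t ≤ 102 / 100 * B) (ht : 0 < t)
    (hk : 0 ≤ k) (hw : w ^ 2 ≤ (k * t) ^ 2) : |q * w| ≤ 102 / 100 * k * B := by
  have a1 : |w| ≤ k * t := abs_le_of_sq_le_sq hw (by positivity)
  have a2 : 0 ≤ -q := by
    by_contra hc
    push Not at hc
    nlinarith
  rw [abs_mul, abs_of_nonpos (by linarith : q ≤ 0)]
  nlinarith [mul_le_mul_of_nonneg_left a1 a2, mul_le_mul_of_nonneg_left h2 hk]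

/-- With `b t = ld t * Bf t / t`:  `∑ x c * pd c Oo = r² (b t+ - b t-) - D z (b t+ + b t-)`,
`|b t+ - b t-| ≤ 1.44 Oo / r` (`diff_le`), `|b t±| ≤ 1.23 Bf / r`, `D z / r · Oe ≤ 4 D Oo`. -/
theorem Par.grad (h : Par D μ γ 0) (hx : 6 * D ≤ ‖x‖) :
    |∑ c, x c * pd c (Oe D μ γ 0) x| ≤ 102 / 100 * ‖x‖ * Oe D μ γ 0 x ∧
    |pd 2 (Oe D μ γ 0) x| ≤ 102 / 100 * Oe D μ γ 0 x ∧
    (0 ≤ x 2 → |∑ c, x c * pd c (Oo D μ γ 0) x| ≤ 5 / 2 * ‖x‖ * Oo D μ γ 0 x) := by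
  have hD := h.D_ge
  obtain ⟨s1, s2, s3, -⟩ := bar3_sum μ γ (D := D) (x := x) (by linarith) (by linarith)
  obtain ⟨⟨a1, a2⟩, ⟨a3, a4⟩, a5, a6, a7, -⟩ := geo hD hx
  obtain ⟨p1, p2⟩ := bar3_bq h (t := tp D x) (by linarith)
  obtain ⟨m1, m2⟩ := bar3_bq h (t := tm D x) (by linarith)
  have bp := Bf_pos μ γ 0 (tp D x)
  have bm := Bf_pos μ γ 0 (tm D x)
  have hz : x 2 ^ 2 ≤ ‖x‖ ^ 2 := by rw [← sq_abs]; gcongr
  have hr : 0 < ‖x‖ := by linarith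
  have a8 : tm D x ^ 2 = ‖x‖ ^ 2 + 2 * D * x 2 + D ^ 2 := by linarith
  have hz' : D ^ 2 * x 2 ^ 2 ≤ D ^ 2 * ‖x‖ ^ 2 := by gcongr
  refine ⟨?_, ?_, fun h0 => ?_⟩
  · rw [s1]
    have u1 := bar3_abs (w := ‖x‖ ^ 2 - D * x 2) (by linarith) p2 (by linarith) hr.le
      (by rw [mul_pow, a6]; nlinarith)
    have u2 := bar3_abs (w := ‖x‖ ^ 2 + D * x 2) (by linarith) m2 (by linarith) hr.le
      (by rw [mul_pow, a8]; nlinarith)
    refine (abs_add_le _ _).trans ?_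
    unfold Oe
    linarith
  · rw [s3]
    have u1 := bar3_abs (w := x 2 - D) (by linarith) p2 (by linarith) zero_le_one
      (by rw [one_mul, a6]; nlinarith)
    have u2 := bar3_abs (w := x 2 + D) (by linarith) m2 (by linarith) zero_le_one
      (by rw [one_mul, a8]; nlinarith)
    refine (abs_add_le _ _).trans ?_
    unfold Oe
    linarith
  · obtain ⟨b1, b2, b3⟩ := bar3_b h hx
    have b3 := b3 h0
    have o0 := h.Oo_nonneg hx h0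
    have o1 := (h.abs_Oo hx).1
    rw [abs_of_nonneg h0, abs_of_nonneg o0, div_mul_eq_mul_div, div_le_iff₀ hr] at o1
    have oe := Oe_pos D μ γ 0 x
    set A := bq μ γ (tp D x) - bq μ γ (tm D x)
    set B := bq μ γ (tp D x) + bq μ γ (tm D x)
    have hB : 0 ≤ -B := by
      by_contra hc
      push Not at hc
      nlinarith
    have u1 : |‖x‖ ^ 2 * A| ≤ 13 / 10 * ‖x‖ * Oo D μ γ 0 x := by
      rw [abs_mul, abs_of_pos (by positivity : 0 < ‖x‖ ^ 2)]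
      nlinarith [mul_le_mul_of_nonneg_left b3 hr.le]
    have u2 : x 2 * -B ≤ 5 * Oo D μ γ 0 x := by
      refine le_of_mul_le_mul_right ?_ hr
      nlinarith [mul_le_mul_of_nonneg_left b2 h0, mul_nonneg o0 hr.le]
    have u3 : |D * x 2 * B| ≤ ‖x‖ * Oo D μ γ 0 x := by
      rw [abs_of_nonpos (by nlinarith [mul_nonneg (mul_nonneg (by linarith : 0 ≤ D) h0) hB])]
      nlinarith [mul_le_mul_of_nonneg_left u2 (by linarith : 0 ≤ D),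
        mul_le_mul_of_nonneg_right hx o0]
    rw [s2]
    refine (abs_sub _ _).trans ?_
    nlinarith [mul_nonneg hr.le o0]

/-- `lap (f / r^k) = lap f / r^k - 2 k (x · ∇f) / r^(k+2) + k (k - 1) f / r^(k+2)`. -/
theorem lap_div_pow {f : X → ℝ} (hf : ContDiffAt ℝ 2 f x) (hx : x ≠ 0) (k : ℕ) :
    lap (fun y => f y / ‖y‖ ^ k) x = lap f x / ‖x‖ ^ k -
      2 * k * (∑ c, x c * pd c f x) / ‖x‖ ^ (k + 2) + k * (k - 1) * f x / ‖x‖ ^ (k + 2) ∧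
    pd 2 (fun y => f y / ‖y‖ ^ k) x = pd 2 f x / ‖x‖ ^ k - k * x 2 * f x / ‖x‖ ^ (k + 2) := by
  have hr : ‖x‖ ≠ 0 := norm_ne_zero_iff.2 hx
  have hd : ∀ (n : ℕ) (t : ℝ), 0 < t →
      HasDerivAt (fun t : ℝ => (t ^ n)⁻¹) (-n * (t ^ (n + 1))⁻¹) t := fun n t ht => by
    have := hasDerivAt_zpow (-(n : ℤ)) t (Or.inl ht.ne')
    have e : -(n : ℤ) - 1 = -((n + 1 : ℕ) : ℤ) := by push_cast; ring
    rw [e] at this
    simpa only [zpow_neg, zpow_natCast, Int.cast_neg, Int.cast_natCast] using this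
  obtain ⟨c1, p1, l1⟩ := radial (F := fun t : ℝ => (t ^ k)⁻¹) (F1 := fun t => -k * (t ^ (k + 1))⁻¹)
    (F2 := fun t => -k * (-(k + 1 : ℕ) * (t ^ (k + 1 + 1))⁻¹))
    ((contDiffOn_id.pow k).inv fun t ht => pow_ne_zero _ (ne_of_gt ht)) (hd k)
    (fun t ht => (hd (k + 1) t ht).const_mul _) 0 hx
  simp only [sub_zero, PiLp.zero_apply] at c1 p1 l1
  simp only [div_eq_mul_inv (f _)]
  rw [lap_mul hf c1, R338.pd_mul 2 (hf.differentiableAt two_ne_zero)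
    (c1.differentiableAt two_ne_zero), l1]
  simp only [p1, Fin.sum_univ_three]
  push_cast
  constructor
  · field_simp
    ring
  · field_simp
    ring

theorem bar3_div {f : X → ℝ} {a : ℝ} (hf : ContDiffAt ℝ 2 f x) (hD : 1000 ≤ D) (hx : 6 * D ≤ ‖x‖)
    (h0 : 0 ≤ f x) (h1 : |lap f x - a * f x| ≤ 6 * D / ‖x‖ ^ 2 * f x)
    (h2 : |∑ c, x c * pd c f x| ≤ 5 / 2 * ‖x‖ * f x) {k : ℕ} (hk : k ≤ 4) :
    |lap (fun y => f y / ‖y‖ ^ k) x - a * (f x / ‖x‖ ^ k)| ≤ 25 / ‖x‖ * (f x / ‖x‖ ^ k) := by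
  have hr : 0 < ‖x‖ := by linarith
  rw [(lap_div_pow hf (norm_pos_iff.1 hr) k).1]
  set G := ∑ c, x c * pd c f x
  have k4 : (k : ℝ) ≤ 4 := by exact_mod_cast hk
  have k0 : (0 : ℝ) ≤ k := k.cast_nonneg
  have e : lap f x / ‖x‖ ^ k - 2 * k * G / ‖x‖ ^ (k + 2) + k * (k - 1) * f x / ‖x‖ ^ (k + 2) -
      a * (f x / ‖x‖ ^ k) = ((lap f x - a * f x) * ‖x‖ ^ 2 - 2 * k * G + k * (k - 1) * f x) /
        ‖x‖ ^ (k + 2) := by
    field_simp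
    ring
  have e' : 25 / ‖x‖ * (f x / ‖x‖ ^ k) = 25 * ‖x‖ * f x / ‖x‖ ^ (k + 2) := by
    field_simp
    ring
  rw [e, e', abs_div, abs_of_pos (by positivity : 0 < ‖x‖ ^ (k + 2))]
  refine div_le_div_of_nonneg_right ?_ (by positivity)
  have u1 : |(lap f x - a * f x) * ‖x‖ ^ 2| ≤ ‖x‖ * f x := by
    rw [abs_mul, abs_of_pos (by positivity : 0 < ‖x‖ ^ 2)]
    rw [div_mul_eq_mul_div, le_div_iff₀ (by positivity)] at h1
    nlinarith [mul_le_mul_of_nonneg_right hx h0]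
  have u2 : |2 * k * G| ≤ 20 * ‖x‖ * f x := by
    rw [abs_mul, abs_of_nonneg (by positivity : (0 : ℝ) ≤ 2 * k)]
    calc _ ≤ 2 * 4 * (5 / 2 * ‖x‖ * f x) := by gcongr
      _ = _ := by ring
  have u3 : |k * (k - 1) * f x| ≤ ‖x‖ * f x := by
    rw [abs_mul, abs_of_nonneg h0]
    refine mul_le_mul_of_nonneg_right ?_ h0
    rw [abs_le]; constructor <;> nlinarith
  have := abs_le.1 u1
  have := abs_le.1 u2
  have := abs_le.1 u3
  rw [abs_le]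
  constructor <;> nlinarith [mul_nonneg hr.le h0]

theorem bar3_Oo_div (h : Par D μ γ 0) (hx : 6 * D ≤ ‖x‖) (hz : 0 ≤ x 2) {k : ℕ} (hk : k ≤ 4) :
    |lap (fun y => Oo D μ γ 0 y / ‖y‖ ^ k) x - a0 μ γ x * (Oo D μ γ 0 x / ‖x‖ ^ k)| ≤
      25 / ‖x‖ * (Oo D μ γ 0 x / ‖x‖ ^ k) := by
  have hD := h.D_ge
  exact bar3_div (contDiffAt_Oo μ γ 0 (by linarith) (by linarith)) hD hx (h.Oo_nonneg hx hz)
    (h.lap_Oo hx hz).2.2 ((h.grad hx).2.2 hz) hk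

theorem Par.lap_Oe_div (h : Par D μ γ 0) (hx : 6 * D ≤ ‖x‖) {k : ℕ} (hk : k ≤ 4) :
    |lap (fun y => Oe D μ γ 0 y / ‖y‖ ^ k) x - a0 μ γ x * (Oe D μ γ 0 x / ‖x‖ ^ k)| ≤
      100 / ‖x‖ * (Oe D μ γ 0 x / ‖x‖ ^ k) := by
  have hD := h.D_ge
  have oe := Oe_pos D μ γ 0 x
  refine (bar3_div (contDiffAt_Oe μ γ 0 (by linarith) (by linarith)) hD hx oe.le
    (h.lap_Oe hx).2.2 ((h.grad hx).1.trans ?_) hk).trans ?_
  · nlinarith [mul_nonneg (norm_nonneg x) oe.le]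
  · gcongr; norm_num

theorem Par.lap_Oo_div (h : Par D μ γ 0) (hx : 6 * D ≤ ‖x‖) (hz : 0 ≤ x 2) {k : ℕ} (hk : k ≤ 4) :
    |lap (fun y => Oo D μ γ 0 y / ‖y‖ ^ k) x - a0 μ γ x * (Oo D μ γ 0 x / ‖x‖ ^ k)| ≤
      100 / ‖x‖ * (Oo D μ γ 0 x / ‖x‖ ^ k) := by
  have := h.Oo_nonneg hx hz
  refine (bar3_Oo_div h hx hz hk).trans ?_
  gcongr; norm_num

theorem Par.lap_T2 (h : Par D μ γ 0) (hx : 6 * D ≤ ‖x‖) :
    |lap (T2 D μ γ) x - a0 μ γ x * T2 D μ γ x| ≤ 100 / ‖x‖ * T2 D μ γ x := by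
  have hD := h.D_ge
  have e : T2 D μ γ = fun y => D * (Oe D μ γ 0 y / ‖y‖ ^ 4) := by
    funext y; unfold T2; ring
  have hne : x ≠ 0 := norm_pos_iff.1 (by linarith)
  have := mul_le_mul_of_nonneg_left (h.lap_Oe_div hx (k := 4) le_rfl) (by linarith : 0 ≤ D)
  rw [e, lap_const_mul (contDiffAt_div_pow (contDiffAt_Oe μ γ 0 (by linarith) (by linarith)) hne 4)]
  rw [← abs_of_nonneg (by linarith : 0 ≤ D), ← abs_mul, abs_of_nonneg (by linarith : 0 ≤ D)] at this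
  calc _ = |D * (lap (fun y => Oe D μ γ 0 y / ‖y‖ ^ 4) x - a0 μ γ x * (Oe D μ γ 0 x / ‖x‖ ^ 4))| := by
        congr 1; ring
    _ ≤ _ := this
    _ = _ := by ring

theorem bar3_T1_half (h : Par D μ γ 0) (hx : 6 * D ≤ ‖x‖) (hz : 0 ≤ x 2) :
    lap (T1 D μ γ) x ≤ (a0 μ γ x + 100 / ‖x‖) * T1 D μ γ x + 3 * T2 D μ γ x ∧
    (a0 μ γ x - 100 / ‖x‖) * T1 D μ γ x + T2 D μ γ x ≤ lap (T1 D μ γ) x := by
  have hD := h.D_ge
  have hr : 0 < ‖x‖ := by linarith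
  have hne : x ≠ 0 := norm_pos_iff.1 hr
  have e : T1 D μ γ = fun y => y 2 * (Oo D μ γ 0 y / ‖y‖ ^ 3) := by
    funext y; unfold T1; ring
  have co := contDiffAt_Oo μ γ 0 (D := D) (x := x) (by linarith) (by linarith)
  obtain ⟨c1, p1, l1⟩ := height (F := fun t => t) (F1 := fun _ => 1) (F2 := fun _ => 0) contDiff_id
    hasDerivAt_id' (fun t => hasDerivAt_const t _) x
  have e2 : lap (T1 D μ γ) x = x 2 * lap (fun y => Oo D μ γ 0 y / ‖y‖ ^ 3) x +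
      2 * pd 2 (fun y => Oo D μ γ 0 y / ‖y‖ ^ 3) x := by
    rw [e, lap_mul c1 (contDiffAt_div_pow co hne 3), l1]
    simp [p1]
    ring
  obtain ⟨b1, b2, b3⟩ := bar3_b h hx
  have b3 := b3 hz
  have o0 := h.Oo_nonneg hx hz
  have d1 := abs_le.1 (bar3_Oo_div h hx hz (k := 3) (by norm_num))
  rw [e2, (lap_div_pow co hne 3).2,
    (bar3_sum μ γ (D := D) (x := x) (by linarith) (by linarith)).2.2.2]
  set A := bq μ γ (tp D x) - bq μ γ (tm D x)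
  set B := bq μ γ (tp D x) + bq μ γ (tm D x)
  set L := lap (fun y => Oo D μ γ 0 y / ‖y‖ ^ 3) x
  set T := T1 D μ γ x with hT
  have hT' : T = x 2 * (Oo D μ γ 0 x / ‖x‖ ^ 3) := by rw [hT, e]
  have T0 : 0 ≤ 1 / ‖x‖ * T := by rw [hT']; positivity
  have u1 : |x 2 * L - a0 μ γ x * T| ≤ 25 * (1 / ‖x‖ * T) := by
    rw [hT', abs_le]
    have := mul_le_mul_of_nonneg_left d1.1 hz
    have := mul_le_mul_of_nonneg_left d1.2 hz
    constructor <;> ring_nf at * <;> linarith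
  have u2 : |x 2 * A / ‖x‖ ^ 3| ≤ 13 / 10 * (1 / ‖x‖ * T) := by
    rw [abs_div, abs_mul, abs_of_nonneg hz, abs_of_pos (by positivity : 0 < ‖x‖ ^ 3), hT']
    rw [← le_div_iff₀ hr] at b3
    calc _ ≤ x 2 * (13 / 10 * Oo D μ γ 0 x / ‖x‖) / ‖x‖ ^ 3 := by gcongr
      _ = _ := by ring
  have u3 : 0 ≤ x 2 * Oo D μ γ 0 x / ‖x‖ ^ (3 + 2) ∧
      x 2 * Oo D μ γ 0 x / ‖x‖ ^ (3 + 2) ≤ 1 / ‖x‖ * T := by
    refine ⟨by positivity, ?_⟩
    have : x 2 * Oo D μ γ 0 x / ‖x‖ ^ (3 + 2) = 1 / ‖x‖ * (1 / ‖x‖ * T) := by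
      rw [hT']; field_simp
    rw [this]
    refine mul_le_of_le_one_left T0 ?_
    rw [div_le_one hr]; linarith
  have u4 : 84 / 100 * T2 D μ γ x ≤ -(D * B / ‖x‖ ^ 3) ∧
      -(D * B / ‖x‖ ^ 3) ≤ 123 / 100 * T2 D μ γ x := by
    have : -(D * B / ‖x‖ ^ 3) = D / ‖x‖ ^ 4 * (-B * ‖x‖) := by field_simp
    have hp : 0 ≤ D / ‖x‖ ^ 4 := by positivity
    rw [this]
    unfold T2
    constructor <;> nlinarith [mul_le_mul_of_nonneg_left b1 hp, mul_le_mul_of_nonneg_left b2 hp]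
  have t2 := (h.T1_eq hx).2.2.1
  have := abs_le.1 u1
  have := abs_le.1 u2
  have e3 : (x 2 * A - D * B) / ‖x‖ ^ 3 = x 2 * A / ‖x‖ ^ 3 - D * B / ‖x‖ ^ 3 := by ring
  have e4 : ((3 : ℕ) : ℝ) * x 2 * Oo D μ γ 0 x / ‖x‖ ^ (3 + 2) =
    3 * (x 2 * Oo D μ γ 0 x / ‖x‖ ^ (3 + 2)) := by push_cast; ring
  have e5 : (a0 μ γ x + 100 / ‖x‖) * T = a0 μ γ x * T + 100 * (1 / ‖x‖ * T) := by ring
  have e6 : (a0 μ γ x - 100 / ‖x‖) * T = a0 μ γ x * T - 100 * (1 / ‖x‖ * T) := by ring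
  rw [e3, e4, e5, e6]
  constructor <;> linarith

theorem bar3_T1 (h : Par D μ γ 0) (hx : 6 * D ≤ ‖x‖) :
    lap (T1 D μ γ) x ≤ (a0 μ γ x + 100 / ‖x‖) * T1 D μ γ x + 3 * T2 D μ γ x ∧
    (a0 μ γ x - 100 / ‖x‖) * T1 D μ γ x + T2 D μ γ x ≤ lap (T1 D μ γ) x := by
  have hD := h.D_ge
  rcases le_total 0 (x 2) with hz | hz
  · exact bar3_T1_half h hx hz
  · have := bar3_T1_half (x := rf x) h (by rwa [norm_rf]) (by rw [rf_two]; linarith)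
    rw [← lap_rf (contDiffAt_T1 μ γ (by linarith) (by rw [norm_rf]; linarith))] at this
    simpa only [T1_rf, T2_rf, a0, norm_rf] using this

/-- `φ = z / r³` is harmonic and `∇φ · ∇Oo = -2 φ (b+ - b-) - (D / r³)(1 - 3 z²/r²)(b+ + b-)` with
`-(b+ + b-) = κ Oe / r`, `κ ∈ [0.84, 1.23]`.  For `z < 0` use `lap_rf`, `T1_rf`. -/
theorem Par.lap_T1 (h : Par D μ γ 0) (hx : 6 * D ≤ ‖x‖) :
    lap (T1 D μ γ) x ≤ (a0 μ γ x + 100 / ‖x‖) * T1 D μ γ x + 3 * T2 D μ γ x ∧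
    (a0 μ γ x - 100 / ‖x‖) * T1 D μ γ x - 6 * T2 D μ γ x ≤ lap (T1 D μ γ) x ∧
    (4 * x 2 ^ 2 ≤ ‖x‖ ^ 2 →
      (a0 μ γ x - 100 / ‖x‖) * T1 D μ γ x + T2 D μ γ x / 4 ≤ lap (T1 D μ γ) x) := by
  obtain ⟨h1, h2⟩ := bar3_T1 h hx
  have t2 := (h.T1_eq hx).2.2.1
  exact ⟨h1, by linarith, fun _ => by linarith⟩

theorem bar3_comb (h : Par D μ γ 0) (hx : 6 * D ≤ ‖x‖) (p q : ℝ) :
    ContDiffAt ℝ 2 (fun y => p * T1 D μ γ y + q * T2 D μ γ y) x ∧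
      lap (fun y => p * T1 D μ γ y + q * T2 D μ γ y) x =
        p * lap (T1 D μ γ) x + q * lap (T2 D μ γ) x := by
  have hD := h.D_ge
  have c1 := contDiffAt_T1 μ γ (D := D) (x := x) (by linarith) (by linarith)
  have c2 := contDiffAt_T2 μ γ (D := D) (x := x) (by linarith) (by linarith)
  refine ⟨(contDiffAt_const.mul c1).add (contDiffAt_const.mul c2), ?_⟩
  rw [lap_add (contDiffAt_const.mul c1) (contDiffAt_const.mul c2), lap_const_mul c1,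
    lap_const_mul c2]

theorem bar3_small {δ r : ℝ} (hδ : 0 < δ) (hr : 1000 / δ ≤ r) : 100 / r ≤ δ / 10 := by
  have h0 : 0 < r := lt_of_lt_of_le (by positivity) hr
  rw [div_le_iff₀ hδ] at hr
  rw [div_le_iff₀ h0]
  linarith

/-- The upper induced profile is a supersolution with slack. -/
theorem Par.lap_pU (h : Par D μ γ 0) (hx : 6 * D ≤ ‖x‖) {δ a : ℝ} (hδ : 0 < δ)
    (hr : 1000 / δ ≤ ‖x‖) (ha : a0 μ γ x + 17 / 10 * δ ≤ a) :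
    ContDiffAt ℝ 2 (pU D μ γ δ) x ∧ 0 < pU D μ γ δ x ∧
      lap (pU D μ γ δ) x + T1 D μ γ x + δ * pU D μ γ δ x / 2 ≤ a * pU D μ γ δ x := by
  have e : pU D μ γ δ = fun y => 1 / δ * T1 D μ γ y + 3 / δ ^ 2 * T2 D μ γ y := by
    funext y; unfold pU; ring
  obtain ⟨c, l⟩ := bar3_comb h hx (1 / δ) (3 / δ ^ 2)
  obtain ⟨-, t1, t2, -⟩ := h.T1_eq hx
  have s := bar3_small hδ hr
  have p0 : 0 < pU D μ γ δ x := by unfold pU; positivity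
  refine ⟨e ▸ c, p0, ?_⟩
  have l1 : lap (T1 D μ γ) x ≤ (a0 μ γ x + δ / 10) * T1 D μ γ x + 3 * T2 D μ γ x :=
    (bar3_T1 h hx).1.trans (by gcongr)
  have l2 : lap (T2 D μ γ) x ≤ (a0 μ γ x + δ / 10) * T2 D μ γ x := by
    have := (abs_le.1 (h.lap_T2 hx)).2
    nlinarith [mul_le_mul_of_nonneg_right s t2.le]
  have l3 : lap (pU D μ γ δ) x ≤ 1 / δ * ((a0 μ γ x + δ / 10) * T1 D μ γ x + 3 * T2 D μ γ x) +
      3 / δ ^ 2 * ((a0 μ γ x + δ / 10) * T2 D μ γ x) := by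
    rw [e, l]; gcongr
  have l4 : 1 / δ * ((a0 μ γ x + δ / 10) * T1 D μ γ x + 3 * T2 D μ γ x) +
      3 / δ ^ 2 * ((a0 μ γ x + δ / 10) * T2 D μ γ x) + T1 D μ γ x =
      (a0 μ γ x + 11 / 10 * δ) * pU D μ γ δ x := by
    unfold pU; field_simp; ring
  nlinarith [mul_le_mul_of_nonneg_right ha p0.le, mul_pos hδ p0]

/-- The lower induced profile.  If `4 z² > r²` then `T1 ≥ Oe / (8 r²) ≥ 10 T2 / δ`. -/
theorem Par.lap_pL (h : Par D μ γ 0) (hx : 6 * D ≤ ‖x‖) {δ a : ℝ} (hδ : 0 < δ)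
    (hr : 1000 / δ ≤ ‖x‖) (hr' : 80 * D / δ ≤ ‖x‖ ^ 2) (ha : a ≤ a0 μ γ x + 21 / 10 * δ) :
    ContDiffAt ℝ 2 (pL D μ γ δ) x ∧ 0 < pL D μ γ δ x ∧ pU D μ γ δ x ≤ 60 * pL D μ γ δ x ∧
      a * pL D μ γ δ x - 4 * T1 D μ γ x + δ * pL D μ γ δ x / 10 ≤ lap (pL D μ γ δ) x := by
  have e : pL D μ γ δ = fun y => 1 / δ * T1 D μ γ y + 1 / (20 * δ ^ 2) * T2 D μ γ y := by
    funext y; unfold pL; ring
  obtain ⟨c, l⟩ := bar3_comb h hx (1 / δ) (1 / (20 * δ ^ 2))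
  obtain ⟨-, t1, t2, -⟩ := h.T1_eq hx
  have s := bar3_small hδ hr
  have p0 : 0 < pL D μ γ δ x := by unfold pL; positivity
  refine ⟨e ▸ c, p0, ?_, ?_⟩
  · have : 60 * pL D μ γ δ x = pU D μ γ δ x + 59 * (T1 D μ γ x / δ) := by
      unfold pU pL; ring
    have : 0 ≤ T1 D μ γ x / δ := by positivity
    linarith
  have l1 : (a0 μ γ x - δ / 10) * T1 D μ γ x + T2 D μ γ x ≤ lap (T1 D μ γ) x :=
    le_trans (by gcongr) (bar3_T1 h hx).2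
  have l2 : (a0 μ γ x - δ / 10) * T2 D μ γ x ≤ lap (T2 D μ γ) x := by
    have := (abs_le.1 (h.lap_T2 hx)).1
    nlinarith [mul_le_mul_of_nonneg_right s t2.le]
  have l3 : 1 / δ * ((a0 μ γ x - δ / 10) * T1 D μ γ x + T2 D μ γ x) +
      1 / (20 * δ ^ 2) * ((a0 μ γ x - δ / 10) * T2 D μ γ x) ≤ lap (pL D μ γ δ) x := by
    rw [e, l]; gcongr
  have l4 : 1 / δ * ((a0 μ γ x - δ / 10) * T1 D μ γ x + T2 D μ γ x) +
      1 / (20 * δ ^ 2) * ((a0 μ γ x - δ / 10) * T2 D μ γ x) =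
      (a0 μ γ x - δ / 10) * pL D μ γ δ x + T2 D μ γ x / δ := by
    unfold pL; field_simp; ring
  have l5 : δ * pL D μ γ δ x = T1 D μ γ x + T2 D μ γ x / δ / 20 := by
    unfold pL; field_simp
  have : 0 ≤ T2 D μ γ x / δ := by positivity
  nlinarith [mul_le_mul_of_nonneg_right ha p0.le]

end Crest.Agent.R335
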