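/-
R335/PR/Bar4: the correctors and the packaged barrier inequalities
Skeleton by helper48 (row 335); keep the statements unchanged, add any helper lemmas you like.
-/
import Crest.Agent.R335.PR.Bar3

set_option autoImplicit false
set_option linter.unusedSectionVars false
set_option linter.unusedVariables false
set_option linter.unusedSimpArgs false

noncomputable section

namespace Crest.Agent.R335

open MeasureTheory Set Filter Topology Metric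
open scoped ENNReal

open Crest.Agent.R338 (pd lap)

variable {D μ γ : ℝ} {x : X}

theorem bar4_gauss {f : X → ℝ} (hf : ContDiffAt ℝ 2 f x) :
    lap (fun y : X => Real.exp (-y 2 ^ 2) * f y) x =
      Real.exp (-x 2 ^ 2) * ((4 * x 2 ^ 2 - 2) * f x - 4 * x 2 * pd 2 f x + lap f x) := by
  have h1 : ∀ t : ℝ, HasDerivAt (fun t : ℝ => Real.exp (-t ^ 2)) (-2 * t * Real.exp (-t ^ 2)) t :=
    fun t => ((hasDerivAt_pow 2 t).neg.exp).congr_deriv (by simp; ring)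
  obtain ⟨c1, p1, l1⟩ := height (F := fun t => Real.exp (-t ^ 2))
    (F1 := fun t => -2 * t * Real.exp (-t ^ 2)) (F2 := fun t => (4 * t ^ 2 - 2) * Real.exp (-t ^ 2))
    (contDiff_id.pow 2).neg.exp h1
    (fun t => (((hasDerivAt_id' t).const_mul (-2)).mul (h1 t)).congr_deriv (by ring)) x
  rw [lap_mul c1 hf, l1]
  simp [p1]
  ring

theorem bar4_g (t : ℝ) : 0 < Real.exp (-t ^ 2) ∧ Real.exp (-t ^ 2) ≤ 1 ∧
    Real.exp (-t ^ 2) * t ^ 2 ≤ 1 ∧ 1 - t ^ 2 ≤ Real.exp (-t ^ 2) := by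
  refine ⟨Real.exp_pos _, Real.exp_le_one_iff.2 (by nlinarith), ?_, ?_⟩
  · rw [Real.exp_neg, inv_mul_le_iff₀ (Real.exp_pos _)]
    linarith [Real.add_one_le_exp (t ^ 2)]
  · linarith [Real.add_one_le_exp (-t ^ 2)]

theorem bar4_ex (a : ℝ) (hx : x ≠ 0) : ContDiffAt ℝ 2 (ex a) x ∧
    pd 2 (ex a) x = -a * ex a x * x 2 / ‖x‖ ∧ lap (ex a) x = (a ^ 2 - 2 * a / ‖x‖) * ex a x := by
  have h1 : ∀ t : ℝ, HasDerivAt (fun t : ℝ => Real.exp (-a * t)) (-a * Real.exp (-a * t)) t :=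
    fun t => (((hasDerivAt_id' t).const_mul (-a)).exp).congr_deriv (by ring)
  obtain ⟨c1, p1, l1⟩ := radial (F := fun t => Real.exp (-a * t))
    (F1 := fun t => -a * Real.exp (-a * t)) (F2 := fun t => -a * (-a * Real.exp (-a * t)))
    (contDiff_const.mul contDiff_id).exp.contDiffOn (fun t _ => h1 t)
    (fun t _ => (h1 t).const_mul _) 0 hx
  simp only [sub_zero, PiLp.zero_apply] at c1 p1 l1
  refine ⟨c1, p1 2, l1.trans ?_⟩
  unfold ex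
  ring

/-- `lap tau = tau (4 z² - 2 + 5.2 z² / r + 1.69 - 2.6 / r)`. -/
theorem lap_tau (hx : 6000 ≤ ‖x‖) : |lap tau x| ≤ 10 * ex (13 / 10) x ∧
    (|x 2| ≤ 1 / 8 → lap tau x ≤ 0 ∧ 9 / 10 * ex (13 / 10) x ≤ tau x) := by
  have hr : 0 < ‖x‖ := by linarith
  obtain ⟨c1, p1, l1⟩ := bar4_ex (13 / 10) (norm_pos_iff.1 hr)
  have e : lap tau x = ex (13 / 10) x * (Real.exp (-x 2 ^ 2) * x 2 ^ 2 * (4 + 26 / 5 * (1 / ‖x‖)) -
      Real.exp (-x 2 ^ 2) * (31 / 100 + 13 / 5 * (1 / ‖x‖))) := by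
    refine (bar4_gauss c1).trans ?_
    rw [p1, l1]
    ring
  obtain ⟨g1, g2, g3, g4⟩ := bar4_g (x 2)
  have i0 : 0 < 1 / ‖x‖ := by positivity
  have i1 : 1 / ‖x‖ ≤ 1 / 6000 := by gcongr
  have e0 := ex_pos (13 / 10) x
  have g5 : 0 ≤ Real.exp (-x 2 ^ 2) * x 2 ^ 2 := by positivity
  refine ⟨?_, fun hz => ⟨?_, ?_⟩⟩
  · rw [e, abs_mul, abs_of_pos e0, mul_comm]
    refine mul_le_mul_of_nonneg_right ?_ e0.le
    rw [abs_le]
    constructor <;> nlinarith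
  · have hz2 : x 2 ^ 2 ≤ 1 / 64 := by nlinarith [abs_nonneg (x 2), sq_abs (x 2)]
    rw [e]
    refine mul_nonpos_of_nonneg_of_nonpos e0.le ?_
    have : x 2 ^ 2 * (4 + 26 / 5 * (1 / ‖x‖)) ≤ 31 / 100 + 13 / 5 * (1 / ‖x‖) := by nlinarith
    nlinarith [mul_le_mul_of_nonneg_left this g1.le]
  · have hz2 : x 2 ^ 2 ≤ 1 / 64 := by nlinarith [abs_nonneg (x 2), sq_abs (x 2)]
    unfold tau
    nlinarith

theorem Par.lap_tau2 (h : Par D μ γ 0) (hx : 6 * D ≤ ‖x‖) :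
    lap (tau2 D μ γ) x ≤ a0 μ γ x * tau2 D μ γ x + 10 * (Oe D μ γ 0 x / ‖x‖ ^ 3) ∧
    (|x 2| ≤ 1 / 8 → lap (tau2 D μ γ) x ≤ (a0 μ γ x - 1) * tau2 D μ γ x) := by
  have hD := h.D_ge
  have hr : 0 < ‖x‖ := by linarith
  have hne : x ≠ 0 := norm_pos_iff.1 hr
  have co := contDiffAt_Oe μ γ 0 (D := D) (x := x) (by linarith) (by linarith)
  have e : lap (tau2 D μ γ) x = _ := bar4_gauss (contDiffAt_div_pow co hne 3)
  have oe := Oe_pos D μ γ 0 x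
  have l1 := (abs_le.1 (h.lap_Oe_div hx (k := 3) (by norm_num))).2
  have hz := (geo hD hx).2.2.2.2.1
  set H := Oe D μ γ 0 x / ‖x‖ ^ 3 with hH
  have H0 : 0 < H := by positivity
  have p1 : |pd 2 (fun y => Oe D μ γ 0 y / ‖y‖ ^ 3) x| ≤ 103 / 100 * H := by
    rw [(lap_div_pow co hne 3).2]
    refine (abs_sub _ _).trans ?_
    have u1 : |pd 2 (Oe D μ γ 0) x / ‖x‖ ^ 3| ≤ 102 / 100 * H := by
      rw [abs_div, abs_of_pos (by positivity : 0 < ‖x‖ ^ 3), hH, ← mul_div_assoc]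
      exact div_le_div_of_nonneg_right (h.grad hx).2.1 (by positivity)
    have u2 : |((3 : ℕ) : ℝ) * x 2 * Oe D μ γ 0 x / ‖x‖ ^ (3 + 2)| ≤ 1 / 100 * H := by
      have : ((3 : ℕ) : ℝ) * x 2 * Oe D μ γ 0 x / ‖x‖ ^ (3 + 2) = 3 * x 2 / ‖x‖ ^ 2 * H := by
        rw [hH]; push_cast; field_simp
      rw [this, abs_mul, abs_of_pos H0]
      refine mul_le_mul_of_nonneg_right ?_ H0.le
      rw [abs_div, abs_mul, abs_of_pos (by positivity : 0 < ‖x‖ ^ 2), div_le_iff₀ (by positivity),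
        abs_of_pos (by norm_num : (0 : ℝ) < 3)]
      nlinarith
    linarith
  have i1 : 100 / ‖x‖ ≤ 1 / 60 := by rw [div_le_iff₀ hr]; linarith
  obtain ⟨g1, g2, g3, g4⟩ := bar4_g (x 2)
  have key : lap (tau2 D μ γ) x ≤ Real.exp (-x 2 ^ 2) *
      ((4 * x 2 ^ 2 + 412 / 100 * |x 2| - 19 / 10 + a0 μ γ x) * H) := by
    rw [e]
    refine mul_le_mul_of_nonneg_left ?_ g1.le
    have u : -(4 * x 2 * pd 2 (fun y => Oe D μ γ 0 y / ‖y‖ ^ 3) x) ≤ 4 * |x 2| * (103 / 100 * H) := by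
      refine (neg_le_abs _).trans ?_
      rw [abs_mul, abs_mul, abs_of_pos (by norm_num : (0 : ℝ) < 4)]
      gcongr
    nlinarith [mul_le_mul_of_nonneg_right i1 H0.le]
  have t2 : tau2 D μ γ x = Real.exp (-x 2 ^ 2) * H := rfl
  have a1 : |x 2| ≤ (x 2 ^ 2 + 1) / 2 := by nlinarith [sq_abs (x 2), sq_nonneg (|x 2| - 1)]
  refine ⟨key.trans ?_, fun hz => key.trans ?_⟩
  · rw [t2]
    have : Real.exp (-x 2 ^ 2) * (4 * x 2 ^ 2 + 412 / 100 * |x 2| - 19 / 10) ≤ 10 := by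
      nlinarith [mul_le_mul_of_nonneg_left a1 g1.le]
    nlinarith [mul_le_mul_of_nonneg_right this H0.le]
  · rw [t2]
    have hz2 : x 2 ^ 2 ≤ 1 / 64 := by nlinarith [abs_nonneg (x 2), sq_abs (x 2)]
    have : 4 * x 2 ^ 2 + 412 / 100 * |x 2| - 19 / 10 ≤ -1 := by linarith
    nlinarith [mul_le_mul_of_nonneg_right this (mul_pos g1 H0).le]

theorem bar4_pe (hx : 6000 ≤ ‖x‖) : ‖x‖ ^ 3 * ex (1 / 5) x ≤ 1 / 10 := by
  have h1 := Real.pow_div_factorial_le_exp (x := 1 / 5 * ‖x‖) (by positivity) 6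
  unfold ex
  rw [neg_mul, Real.exp_neg, ← div_eq_mul_inv, div_le_iff₀ (Real.exp_pos _)]
  refine le_trans ?_ (mul_le_mul_of_nonneg_left h1 (by norm_num))
  have h3 : 6000 ^ 3 ≤ ‖x‖ ^ 3 := by gcongr
  have h4 : 0 ≤ ‖x‖ ^ 3 := by positivity
  simp only [Nat.factorial]
  push_cast
  nlinarith [mul_le_mul_of_nonneg_left h3 h4]

/-- The corrector `tau` costs at most `ε' Oo / r²`. -/
theorem bar4_tau (h : Par D μ γ 0) (hx : 6 * D ≤ ‖x‖) (hz : 0 ≤ x 2) {a ε : ℝ} (ha : 9 / 10 ≤ a)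
    (hε : ‖x‖ ^ 3 * ex (1 / 5) x ≤ ε) :
    lap tau x + ex (13 / 10) x / 2 ≤ a * tau x + 400 * ε * (Oo D μ γ 0 x / ‖x‖ ^ 2) := by
  have hD := h.D_ge
  have hr : 0 < ‖x‖ := by linarith
  obtain ⟨l1, l2⟩ := lap_tau (x := x) (by linarith)
  have o0 := h.Oo_nonneg hx hz
  have e0 := ex_pos (13 / 10) x
  have t0 := tau_pos x
  have ε0 : 0 ≤ ε := le_trans (by have := ex_pos (1 / 5) x; positivity) hε
  rcases le_total (x 2) (1 / 8) with hc | hc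
  · obtain ⟨l3, l4⟩ := l2 (by rwa [abs_of_nonneg hz])
    have : 0 ≤ 400 * ε * (Oo D μ γ 0 x / ‖x‖ ^ 2) := by positivity
    nlinarith
  · have o1 := (h.abs_Oo hx).1
    rw [abs_of_nonneg hz, abs_of_nonneg o0, div_mul_eq_mul_div, div_le_iff₀ hr] at o1
    have o2 := (h.Oe_exp hx).1
    have e1 := ex_pos (11 / 10) x
    have o3 : ex (11 / 10) x ≤ 32 * Oo D μ γ 0 x * ‖x‖ := by nlinarith
    have e2 : ex (13 / 10) x = ex (1 / 5) x * ex (11 / 10) x := by rw [← ex_add]; norm_num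
    have o4 : ex (13 / 10) x ≤ 32 * ε * (Oo D μ γ 0 x / ‖x‖ ^ 2) := by
      rw [← mul_div_assoc, le_div_iff₀ (by positivity), e2]
      have e3 := ex_pos (1 / 5) x
      calc _ ≤ ex (1 / 5) x * (32 * Oo D μ γ 0 x * ‖x‖) * ‖x‖ ^ 2 := by gcongr
        _ = 32 * (‖x‖ ^ 3 * ex (1 / 5) x) * Oo D μ γ 0 x := by ring
        _ ≤ _ := by gcongr
    nlinarith [(abs_le.1 l1).2, mul_pos (by linarith : 0 < a) t0]

theorem bar4_D6 (h : Par D μ γ 0) (hx : 6 * D ≤ ‖x‖) :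
    9 / 10 ≤ a0 μ γ x - 6 * D / ‖x‖ ^ 2 := by
  obtain ⟨a1, -, a3⟩ := h.a0_bounds hx
  rw [mul_div_assoc]
  linarith

/-- For `z ≥ 1/8` the slack `D / r² · Oo ≥ D / (32 r³) e^{-1.1 r}` beats `e^{-1.3 r}`. -/
theorem Par.odd_super (h : Par D μ γ 0) (hx : 6 * D ≤ ‖x‖) (hz : 0 ≤ x 2) {a : ℝ}
    (ha : a0 μ γ x - 6 * D / ‖x‖ ^ 2 ≤ a) :
    lap (fun y => Oo D μ γ (-(20 * D)) y + tau y) x + D / (10 * ‖x‖ ^ 2) * Oo D μ γ 0 x +
      ex (13 / 10) x / 2 ≤ a * (Oo D μ γ (-(20 * D)) x + tau x) := by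
  have hD := h.D_ge
  have hr : 0 < ‖x‖ := by linarith
  have h' : Par D μ γ (-(20 * D)) := h.of_abs (by rw [abs_neg, abs_of_nonneg (by linarith)])
  rw [lap_add (contDiffAt_Oo μ γ _ (by linarith) (by linarith)) (contDiffAt_tau (norm_pos_iff.1 hr))]
  have t := bar4_tau h hx hz ((bar4_D6 h hx).trans ha) (bar4_pe (by linarith))
  have l1 := (h.lap_Oo hx hz).1
  have c1 := ((h'.cmp_s hx).2.2 hz).2
  have o0 := h.Oo_nonneg hx hz
  have o1 := h'.Oo_nonneg hx hz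
  have q0 : 0 < 1 / ‖x‖ ^ 2 := by positivity
  have e1 : D / (10 * ‖x‖ ^ 2) * Oo D μ γ 0 x = D * (1 / ‖x‖ ^ 2 * Oo D μ γ 0 x) / 10 := by ring
  have e2 : Oo D μ γ 0 x / ‖x‖ ^ 2 = 1 / ‖x‖ ^ 2 * Oo D μ γ 0 x := by ring
  have e3 : (a0 μ γ x - 20 * D / ‖x‖ ^ 2) * Oo D μ γ (-(20 * D)) x =
    (a0 μ γ x - 6 * D / ‖x‖ ^ 2) * Oo D μ γ (-(20 * D)) x -
      14 * (D * (1 / ‖x‖ ^ 2 * Oo D μ γ (-(20 * D)) x)) := by ring
  have u1 : D * (1 / ‖x‖ ^ 2 * Oo D μ γ 0 x) ≤ D * (1 / ‖x‖ ^ 2 * (60 * Oo D μ γ (-(20 * D)) x)) := by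
    gcongr
  have u2 : 1000 * (1 / ‖x‖ ^ 2 * Oo D μ γ 0 x) ≤ D * (1 / ‖x‖ ^ 2 * Oo D μ γ 0 x) := by gcongr
  have u3 := mul_le_mul_of_nonneg_right ha o1
  have u4 : 0 ≤ 1 / ‖x‖ ^ 2 * Oo D μ γ 0 x := by positivity
  rw [e2] at t
  rw [e3] at l1
  rw [e1]
  nlinarith

theorem odd_sub {K : ℝ} (hK : 1 ≤ K) : ∀ᶠ r : ℝ in atTop, ∀ (D μ γ a : ℝ) (x : X), Par D μ γ 0 →
    6 * D ≤ ‖x‖ → r ≤ ‖x‖ → 0 ≤ x 2 → 9 / 10 ≤ a → a ≤ a0 μ γ x + 6 * D / ‖x‖ ^ 2 →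
    a * (Oo D μ γ (20 * D) x / K - tau x) + D / (10 * K * ‖x‖ ^ 2) * Oo D μ γ 0 x +
      ex (13 / 10) x / 2 ≤ lap (fun y => Oo D μ γ (20 * D) y / K - tau y) x := by
  have K0 : 0 < K := by linarith
  filter_upwards [ev_poly_exp 3 (a := 1 / 5) (ε := 1 / (10 * K)) (by norm_num) (by positivity)]
    with r hr D μ γ a x h hx hrx hz ha ha'
  have hD := h.D_ge
  have hr0 : 0 < ‖x‖ := by linarith
  have h' : Par D μ γ (20 * D) := h.of_abs (by rw [abs_of_nonneg (by linarith)])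
  have co := contDiffAt_Oo μ γ (20 * D) (D := D) (x := x) (by linarith) (by linarith)
  rw [lap_sub (co.div_const K) (contDiffAt_tau (norm_pos_iff.1 hr0)), lap_div_const co]
  have t := bar4_tau h hx hz ha (hr x hrx)
  have l1 := div_le_div_of_nonneg_right (h.lap_Oo hx hz).2.1 K0.le
  have c1 := ((h'.cmp_s hx).2.2 hz).2
  have o0 := h.Oo_nonneg hx hz
  have o1 := h'.Oo_nonneg hx hz
  have e1 : D / (10 * K * ‖x‖ ^ 2) * Oo D μ γ 0 x = D * (1 / ‖x‖ ^ 2 * Oo D μ γ 0 x / K) / 10 := by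
    ring
  have e2 : 400 * (1 / (10 * K)) * (Oo D μ γ 0 x / ‖x‖ ^ 2) =
    40 * (1 / ‖x‖ ^ 2 * Oo D μ γ 0 x / K) := by ring
  have e3 : (a0 μ γ x + 20 * D / ‖x‖ ^ 2) * Oo D μ γ (20 * D) x / K =
    (a0 μ γ x + 6 * D / ‖x‖ ^ 2) * (Oo D μ γ (20 * D) x / K) +
      14 / 60 * (D * (1 / ‖x‖ ^ 2 * (60 * Oo D μ γ (20 * D) x) / K)) := by ring
  have u1 : D * (1 / ‖x‖ ^ 2 * Oo D μ γ 0 x / K) ≤
      D * (1 / ‖x‖ ^ 2 * (60 * Oo D μ γ (20 * D) x) / K) := by gcongr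
  have u2 : 1000 * (1 / ‖x‖ ^ 2 * Oo D μ γ 0 x / K) ≤ D * (1 / ‖x‖ ^ 2 * Oo D μ γ 0 x / K) := by
    gcongr
  have u3 := mul_le_mul_of_nonneg_right ha' (div_nonneg o1 K0.le)
  have u4 : 0 ≤ 1 / ‖x‖ ^ 2 * Oo D μ γ 0 x / K := by positivity
  rw [e2] at t
  rw [e3] at l1
  rw [e1]
  linarith

theorem no_super {δ : ℝ} (hδ : 0 < δ) : ∀ᶠ r : ℝ in atTop, ∀ (D μ γ a : ℝ) (x : X), Par D μ γ 0 →
    6 * D ≤ ‖x‖ → r ≤ ‖x‖ → 0 ≤ x 2 → a0 μ γ x + δ / 2 ≤ a →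
    lap (fun y => Oo D μ γ 0 y / ‖y‖ ^ 2 + tau y) x + δ / 8 * (Oo D μ γ 0 x / ‖x‖ ^ 2) +
      ex (13 / 10) x / 2 ≤ a * (Oo D μ γ 0 x / ‖x‖ ^ 2 + tau x) := by
  filter_upwards [ev_poly_exp 3 (a := 1 / 5) (ε := δ / 2000) (by norm_num) (by positivity),
    eventually_ge_atTop (1000 / δ)] with r hr hr' D μ γ a x h hx hrx hz ha
  have hD := h.D_ge
  have hr0 : 0 < ‖x‖ := by linarith
  have hne := norm_pos_iff.1 hr0
  have co := contDiffAt_Oo μ γ 0 (D := D) (x := x) (by linarith) (by linarith)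
  rw [lap_add (contDiffAt_div_pow co hne 2) (contDiffAt_tau hne)]
  have t := bar4_tau h hx hz (a := a) (by linarith [(h.a0_bounds hx).1]) (hr x hrx)
  have l1 := (abs_le.1 (h.lap_Oo_div hx hz (k := 2) (by norm_num))).2
  have s := bar3_small hδ (hr'.trans hrx)
  have o0 := h.Oo_nonneg hx hz
  have H0 : 0 ≤ Oo D μ γ 0 x / ‖x‖ ^ 2 := by positivity
  nlinarith [mul_le_mul_of_nonneg_right s H0, mul_le_mul_of_nonneg_right ha H0,
    mul_nonneg hδ.le H0]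

/-- The barrier of the first pass. -/
theorem Par.pass1 (h : Par D μ γ 0) (hx : 6 * D ≤ ‖x‖) (hz : 0 ≤ x 2) {a : ℝ}
    (ha : a0 μ γ x - 6 * D / ‖x‖ ^ 2 ≤ a) :
    lap (fun y => Oo D μ γ (-(20 * D)) y + tau y + tau2 D μ γ y / 10) x ≤
      a * (Oo D μ γ (-(20 * D)) x + tau x + tau2 D μ γ x / 10) := by
  have hD := h.D_ge
  have hr : 0 < ‖x‖ := by linarith
  have c2 := contDiffAt_tau2 μ γ (D := D) (x := x) (by linarith) (by linarith)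
  rw [lap_add ((contDiffAt_Oo μ γ _ (by linarith) (by linarith)).add
    (contDiffAt_tau (norm_pos_iff.1 hr))) (c2.div_const 10), lap_div_const c2]
  have s := h.odd_super hx hz ha
  obtain ⟨l1, l2⟩ := h.lap_tau2 hx
  have o0 := h.Oo_nonneg hx hz
  have oe := Oe_pos D μ γ 0 x
  have e0 := ex_pos (13 / 10) x
  obtain ⟨g1, g2, -⟩ := bar4_g (x 2)
  have H0 : 0 < Oe D μ γ 0 x / ‖x‖ ^ 3 := by positivity
  have t0 : 0 < tau2 D μ γ x := mul_pos g1 H0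
  have t1 : tau2 D μ γ x ≤ Oe D μ γ 0 x / ‖x‖ ^ 3 := mul_le_of_le_one_left H0.le g2
  have a1 : a0 μ γ x - 1 ≤ a := by
    have := (h.a0_bounds hx).2.2
    rw [mul_div_assoc] at ha
    linarith
  have u0 := mul_le_mul_of_nonneg_right a1 t0.le
  rcases le_total (x 2) (1 / 8) with hc | hc
  · have l3 := l2 (by rwa [abs_of_nonneg hz])
    have : 0 ≤ D / (10 * ‖x‖ ^ 2) * Oo D μ γ 0 x := by positivity
    linarith
  · have o1 := (h.abs_Oo hx).1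
    rw [abs_of_nonneg hz, abs_of_nonneg o0, div_mul_eq_mul_div, div_le_iff₀ hr] at o1
    have u1 : 3 * (Oe D μ γ 0 x / ‖x‖ ^ 3) ≤ D / (10 * ‖x‖ ^ 2) * Oo D μ γ 0 x := by
      have : D / (10 * ‖x‖ ^ 2) * Oo D μ γ 0 x = D * (Oo D μ γ 0 x * ‖x‖) / 10 / ‖x‖ ^ 3 := by
        field_simp
      rw [this, ← mul_div_assoc]
      refine div_le_div_of_nonneg_right ?_ (by positivity)
      nlinarith [mul_le_mul_of_nonneg_right hD (mul_nonneg o0 hr.le)]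
    linarith

theorem bar4_lev {S : Sd} {w : Dy} (hS : S.Ok) (h : Adm S w) (hl : 0 < w.l) (h1 : 6 * S.D ≤ ‖x‖)
    (h2 : 80 * S.D / S.δ ≤ ‖x‖) :
    |aa S.D w.m2 x - (w.m2 - 4 / ‖x‖)| ≤ 5 * S.D / ‖x‖ ^ 2 ∧ 5 * S.D / ‖x‖ ^ 2 ≤ S.δ / 10 ∧
      0 ≤ 4 * w.l / ‖x‖ ∧ 4 * w.l / ‖x‖ ≤ S.δ / 100 ∧ 80 * S.D / S.δ ≤ ‖x‖ ^ 2 ∧
      4 / ‖x‖ ≤ 1 / 1000 ∧ 0 ≤ S.D / ‖x‖ ^ 2 := by
  have hD := hS.ob.D_ge
  have hr : 0 < ‖x‖ := by linarith
  have hδ := h.δ_pos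
  have h3 : ‖x‖ ≤ ‖x‖ ^ 2 := by nlinarith
  refine ⟨?_, ?_, by positivity, ?_, h2.trans h3, ?_, by positivity⟩
  · convert V_ext hD h1 using 2
    unfold aa; ring
  · rw [div_le_iff₀ hδ] at h2
    rw [div_le_iff₀ (by positivity)]
    nlinarith [mul_le_mul_of_nonneg_right h3 hδ.le]
  · rw [div_le_iff₀ hr]
    nlinarith [h.l_le, mul_le_mul_of_nonneg_left (show 4 ≤ ‖x‖ by linarith) hδ.le]
  · rw [div_le_iff₀ hr]; linarith

/-- The upper barrier of the even channels. -/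
theorem ebar_super (S : Sd) (hS : S.Ok) : ∀ᶠ r : ℝ in atTop, ∀ w : Dy, Adm S w → 0 < w.l →
    ∀ x : X, r ≤ ‖x‖ → ContDiffAt ℝ 2 (w.ebar S) x ∧ 0 < w.ebar S x ∧
      9 / 10 ≤ aa S.D w.m2 x + 2 * w.de ∧ ex (11 / 10) x ≤ w.Eu S x ∧
      lap (w.ebar S) x + √w.l * S.Kb * w.Eu S x + w.l * S.K2 * w.t1 S x +
        S.δ / 2 * (w.l * S.K2 * pU S.D w.μ w.γ S.δ x) ≤
          (aa S.D w.m2 x + 2 * w.de) * w.ebar S x := by
  filter_upwards [eventually_ge_atTop (6 * S.D), eventually_ge_atTop (80 * S.D / S.δ),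
    eventually_ge_atTop (1000 / S.δ)] with r r1 r2 r3 w h hl x hx
  have hD := hS.ob.D_ge
  have hx1 := r1.trans hx
  obtain ⟨v1, v2, v3, v4, v5, v6, v7⟩ := bar4_lev hS h hl hx1 (r2.trans hx)
  obtain ⟨v0, v1⟩ := abs_le.1 v1
  have hδ := h.δ_pos
  have hδ' := h.δ_le
  have kb : 0 < S.Kb := by have := hS.K0_ge; unfold Sd.Kb; positivity
  have k2 : 0 < w.l * S.K2 := by
    have := hS.K0_ge; have := hS.C1_ge; unfold Sd.K2; positivity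
  have de := h.de_ge
  obtain ⟨c2, p0, l2⟩ := h.par.lap_pU hx1 (a := aa S.D w.m2 x + 2 * w.de) hδ (r3.trans hx)
    (by rw [h.a_d]; linarith)
  have c1 : ContDiffAt ℝ 2 (w.Eu S) x := contDiffAt_Oe _ _ _ (by linarith) (by linarith)
  have e0 : 0 < w.Eu S x := Oe_pos _ _ _ _ _
  have l1 : lap (w.Eu S) x ≤ (w.mU - 4 / ‖x‖ - 20 * S.D / ‖x‖ ^ 2) * w.Eu S x := by
    rw [← h.a_U]; exact (h.parU.lap_Oe hx1).1
  have l3 : lap (w.Eu S) x + √w.l * w.Eu S x ≤ (aa S.D w.m2 x + 2 * w.de) * w.Eu S x := by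
    have : w.mU - 4 / ‖x‖ - 20 * S.D / ‖x‖ ^ 2 + √w.l ≤ aa S.D w.m2 x + 2 * w.de := by
      unfold Dy.mU
      rw [mul_div_assoc] at v0 ⊢
      linarith
    nlinarith [mul_le_mul_of_nonneg_right this e0.le]
  have e : lap (w.ebar S) x = S.Kb * lap (w.Eu S) x + w.l * S.K2 * lap (pU S.D w.μ w.γ S.δ) x := by
    rw [← lap_const_mul c1, ← lap_const_mul c2,
      ← lap_add (contDiffAt_const.mul c1) (contDiffAt_const.mul c2)]
    rfl
  refine ⟨(contDiffAt_const.mul c1).add (contDiffAt_const.mul c2), by unfold Dy.ebar; positivity,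
    by linarith [(abs_le.1 h.m2_near).1], ((h.parU.of_abs (s' := -(20 * S.D))
      (by rw [abs_neg, abs_of_nonneg (by linarith)])).Oe_exp hx1).1, ?_⟩
  rw [e]
  unfold Dy.ebar Dy.t1
  nlinarith [mul_le_mul_of_nonneg_left l3 kb.le, mul_le_mul_of_nonneg_left l2 k2.le]

/-- The lower barrier of the even channels. -/
theorem elow_sub (S : Sd) (hS : S.Ok) : ∀ᶠ r : ℝ in atTop, ∀ w : Dy, Adm S w → 0 < w.l →
    ∀ x : X, r ≤ ‖x‖ → ContDiffAt ℝ 2 (w.elow S) x ∧ 0 < w.elow S x ∧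
      ex (11 / 10) x ≤ w.El S x ∧ w.elow S x ≤ (1 + 2 * S.D / S.δ ^ 2) * ex (1 / 2) x ∧
      (aa S.D w.m2 x + 2 * w.de) * w.elow S x + √w.l * (w.El S x / S.Kb) -
        4 * (w.l / S.K3) * w.t1 S x + S.δ / 10 * (w.l / S.K3 * pL S.D w.μ w.γ S.δ x) ≤
          lap (w.elow S) x := by
  filter_upwards [eventually_ge_atTop (6 * S.D), eventually_ge_atTop (80 * S.D / S.δ),
    eventually_ge_atTop (1000 / S.δ)] with r r1 r2 r3 w h hl x hx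
  have hD := hS.ob.D_ge
  have hx1 := r1.trans hx
  have hr : 0 < ‖x‖ := by linarith
  obtain ⟨v1, v2, v3, v4, v5, v6, v7⟩ := bar4_lev hS h hl hx1 (r2.trans hx)
  obtain ⟨v0, v1⟩ := abs_le.1 v1
  have hδ := h.δ_pos
  have hδ' := h.δ_le
  have kb : 1 ≤ S.Kb := by have := hS.K0_ge; unfold Sd.Kb; linarith
  have k3 : 1 ≤ S.K3 := by
    have := hS.K0_ge; have := hS.C1_ge; unfold Sd.K3; nlinarith
  have k2 : 0 < w.l / S.K3 := by positivity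
  have de := h.de_le
  obtain ⟨c2, p0, -, l2⟩ := h.par.lap_pL hx1 (a := aa S.D w.m2 x + 2 * w.de) hδ (r3.trans hx) v5
    (by rw [h.a_d]; linarith)
  have c1 : ContDiffAt ℝ 2 (w.El S) x := contDiffAt_Oe _ _ _ (by linarith) (by linarith)
  have e0 : 0 < w.El S x := Oe_pos _ _ _ _ _
  have l1 : (w.mL - 4 / ‖x‖ + 20 * S.D / ‖x‖ ^ 2) * w.El S x ≤ lap (w.El S) x := by
    rw [← h.a_L]; exact (h.parL.lap_Oe hx1).2.1
  have l3 : (aa S.D w.m2 x + 2 * w.de) * w.El S x + √w.l * w.El S x ≤ lap (w.El S) x := by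
    have : aa S.D w.m2 x + 2 * w.de + √w.l ≤ w.mL - 4 / ‖x‖ + 20 * S.D / ‖x‖ ^ 2 := by
      unfold Dy.mL
      rw [mul_div_assoc] at v1 ⊢
      linarith
    nlinarith [mul_le_mul_of_nonneg_right this e0.le]
  have e : lap (w.elow S) x =
      lap (w.El S) x / S.Kb + w.l / S.K3 * lap (pL S.D w.μ w.γ S.δ) x := by
    rw [← lap_div_const c1, ← lap_const_mul c2,
      ← lap_add (c1.div_const _) (contDiffAt_const.mul c2)]
    rfl
  have pe := (h.parL.of_abs (s' := 20 * S.D) (by rw [abs_of_nonneg (by linarith)])).Oe_exp hx1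
  refine ⟨(c1.div_const _).add (contDiffAt_const.mul c2), by unfold Dy.elow; positivity, pe.1,
    ?_, ?_⟩
  · have x0 := ex_pos (1 / 2) x
    have u1 : w.El S x / S.Kb ≤ ex (1 / 2) x := (div_le_self e0.le kb).trans pe.2
    have u2 : w.l / S.K3 ≤ 1 := (div_le_self hl.le k3).trans (by linarith [h.l_le])
    have oe := (h.par.Oe_exp hx1).2
    have r1 : 1 ≤ ‖x‖ := by linarith
    have u3 : T1 S.D w.μ w.γ x ≤ ex (1 / 2) x := by
      rw [(h.par.T1_eq hx1).1]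
      refine (mul_le_of_le_one_left (abs_nonneg _) ?_).trans ((abs_Oo_le _ _ _ _ _).trans oe)
      rw [div_le_one (by positivity)]
      exact (geo hD hx1).2.2.2.2.1.trans (le_self_pow₀ r1 (by norm_num))
    have u4 : T2 S.D w.μ w.γ x ≤ S.D * ex (1 / 2) x :=
      mul_le_mul (div_le_self (by linarith) (one_le_pow₀ r1)) oe (Oe_pos _ _ _ _ _).le (by linarith)
    have u5 : pL S.D w.μ w.γ S.δ x ≤ 2 * S.D / S.δ ^ 2 * ex (1 / 2) x := by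
      have : pL S.D w.μ w.γ S.δ x =
          (S.δ * T1 S.D w.μ w.γ x + T2 S.D w.μ w.γ x / 20) / S.δ ^ 2 := by
        unfold pL; field_simp
      rw [this, div_mul_eq_mul_div]
      refine div_le_div_of_nonneg_right ?_ (by positivity)
      nlinarith [mul_le_mul_of_nonneg_left u3 hδ.le,
        mul_le_mul_of_nonneg_right (show S.δ ≤ S.D by linarith) x0.le]
    unfold Dy.elow
    nlinarith [mul_le_of_le_one_left p0.le u2]
  · rw [e]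
    have l4 := div_le_div_of_nonneg_right l3 (by linarith : 0 ≤ S.Kb)
    rw [add_div, mul_div_assoc, mul_div_assoc] at l4
    unfold Dy.elow Dy.t1
    nlinarith [mul_le_mul_of_nonneg_left l2 k2.le]

end Crest.Agent.R335
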