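/-
R335/PR/Cmp: comparison outside a ball; regularity of the channel data
Skeleton by helper48 (row 335); keep the statements unchanged, add any helper lemmas you like.
-/
import Crest.Agent.R335.PR.Bar4

set_option autoImplicit false
set_option linter.unusedSectionVars false
set_option linter.unusedVariables false
set_option linter.unusedSimpArgs false

noncomputable section

namespace Crest.Agent.R335

open MeasureTheory Set Filter Topology Metric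
open scoped ENNReal

open Crest.Agent.R338 (pd lap)

/-- `compare` with `O = {r < ‖x‖}`, `Kc = {r + 1 ≤ ‖x‖}`, `p = |f| + |C| ex (1/2)`. -/
theorem cmpE {r0 r C : ℝ} (hr : r0 ≤ r) {f a s w : X → ℝ} (hf : LH eX f) (hf2 : MemLp f 2 volume)
    (h : Sub eX (Ext r0) f a s) (ha : LI (Ext r0) a) (hs : LI (Ext r0) s)
    (hw : ∀ x : X, r < ‖x‖ → ContDiffAt ℝ 2 w x)
    (hw0 : ∀ x : X, r < ‖x‖ → -(C * ex (1 / 2) x) ≤ w x)
    (hc : ∀ᵐ x : X, r < ‖x‖ → ‖x‖ ≤ r + 1 → f x ≤ w x)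
    (hb : ∀ᵐ x : X, r + 1 ≤ ‖x‖ → w x < f x → 1 / 2 ≤ a x ∧ lap w x + s x ≤ a x * w x) :
    Bd r f w := by
  have hO : IsOpen {x : X | r < ‖x‖} := isOpen_lt continuous_const continuous_norm
  have hK : IsClosed {x : X | r + 1 ≤ ‖x‖} := isClosed_le continuous_const continuous_norm
  have hKO : {x : X | r + 1 ≤ ‖x‖} ⊆ {x : X | r < ‖x‖} := fun x hx => by
    simp only [mem_ofPred_eq] at hx ⊢; linarith
  have hOE : {x : X | r < ‖x‖} ⊆ Ext r0 := fun x hx => by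
    simp only [mem_ofPred_eq, Ext] at hx ⊢; linarith
  have hp : MemLp (fun x => |f x| + |C| * ex (1 / 2) x) 2 volume :=
    hf2.abs.add ((memLp_ex (by norm_num)).const_mul _)
  refine compare hO hK hKO (fun x hx => (hw x hx).contDiffWithinAt) hf (h.mono hOE) (ha.mono hOE)
    (hs.mono hOE) ?_ (a0 := 1 / 2) (by norm_num) ?_ hp ?_
  · filter_upwards [hc] with x hx h1 h2
    exact hx h1 (le_of_lt (not_le.1 h2))
  · filter_upwards [hb] with x hx h1 h2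
    obtain ⟨h3, h4⟩ := hx h1 h2
    nlinarith
  · refine Eventually.of_forall fun x hx => ?_
    have h1 := hw0 x (hKO hx)
    have h2 : C * ex (1 / 2) x ≤ |C| * ex (1 / 2) x :=
      mul_le_mul_of_nonneg_right (le_abs_self C) (Real.exp_pos _).le
    have h3 := le_abs_self (f x)
    linarith

/-- `compare_half`. -/
theorem cmpH {r0 r C : ℝ} (hr : r0 ≤ r) {f a s w q : X → ℝ} (hf : LH eX f)
    (hf2 : MemLp f 2 volume) (h : Sub eX (Hs ∩ Ext r0) f a s) (ha : LI (Hs ∩ Ext r0) a)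
    (hs : LI (Hs ∩ Ext r0) s) (hw : ∀ x : X, r < ‖x‖ → ContDiffAt ℝ 2 w x)
    (hw0 : ∀ x : X, r < ‖x‖ → 0 < x 2 → -(C * ex (1 / 2) x) ≤ w x)
    (hc : ∀ᵐ x : X, r < ‖x‖ → ‖x‖ ≤ r + 1 → 0 < x 2 → f x ≤ w x)
    (hb : ∀ᵐ x : X, r + 1 ≤ ‖x‖ → 0 < x 2 → w x < f x →
      1 / 2 ≤ a x ∧ lap w x + s x ≤ a x * w x)
    (hq : Strip q) (hq2 : LocL2 q)
    (hle : ∀ᵐ x : X, r + 1 ≤ ‖x‖ → 0 < x 2 → x 2 < 1 → f x - w x ≤ q x) : BdH r f w := by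
  have hO : IsOpen {x : X | r < ‖x‖} := isOpen_lt continuous_const continuous_norm
  have hK : IsClosed {x : X | r + 1 ≤ ‖x‖} := isClosed_le continuous_const continuous_norm
  have hKO : {x : X | r + 1 ≤ ‖x‖} ⊆ {x : X | r < ‖x‖} := fun x hx => by
    simp only [mem_ofPred_eq] at hx ⊢; linarith
  have hOE : Hs ∩ {x : X | r < ‖x‖} ⊆ Hs ∩ Ext r0 := fun x hx => ⟨hx.1, by
    have := hx.2
    simp only [mem_ofPred_eq, Ext] at this ⊢; linarith⟩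
  have hp : MemLp (fun x => |f x| + |C| * ex (1 / 2) x) 2 volume :=
    hf2.abs.add ((memLp_ex (by norm_num)).const_mul _)
  have := compare_half hO hK hKO (fun x hx => (hw x hx).contDiffWithinAt) hf (h.mono hOE)
    (ha.mono hOE) (hs.mono hOE) ?_ (a0 := 1 / 2) (by norm_num) ?_ hp ?_ hq hq2 ?_
  · filter_upwards [this] with x hx h1 h2
    exact hx h2 h1
  · filter_upwards [hc] with x hx h0 h1 h2
    exact hx h1 (le_of_lt (not_le.1 h2)) h0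
  · filter_upwards [hb] with x hx h0 h1 h2
    obtain ⟨h3, h4⟩ := hx h1 h0 h2
    nlinarith
  · refine Eventually.of_forall fun x h0 hx => ?_
    have h1 := hw0 x (hKO hx) h0
    have h2 : C * ex (1 / 2) x ≤ |C| * ex (1 / 2) x :=
      mul_le_mul_of_nonneg_right (le_abs_self C) (Real.exp_pos _).le
    have h3 := le_abs_self (f x)
    linarith
  · filter_upwards [hle] with x hx h0 h1 h2
    exact hx h2 h0 h1

/-- From the upper half space to everything, for even functions. -/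
theorem BdH.even {r : ℝ} {F G : X → ℝ} (h : BdH r F G) (hF : ∀ᵐ x : X, F (rf x) = F x)
    (hG : ∀ x, G (rf x) = G x) : Bd r F G := by
  refine ae_of_half (p := fun x => r < ‖x‖ → F x ≤ G x) ?_ ?_
  · filter_upwards [h] with x hx h0 h1
    exact hx h1 h0
  · filter_upwards [hF] with x hx h0 h1
    rw [← hx, ← hG x]
    exact h0 (by rwa [norm_rf])

variable {S : Sd} {w : Dy}

theorem cmp_le_of_sq {a b : ℝ} (hb : 0 ≤ b) (h : a ^ 2 ≤ b ^ 2) : |a| ≤ b :=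
  abs_le_of_sq_le_sq' h hb |> fun h => abs_le.2 h

theorem cmp_le_of_sq' {a b : ℝ} (hb : 0 ≤ b) (h : a ^ 2 ≤ b ^ 2) : a ≤ b :=
  (le_abs_self a).trans (cmp_le_of_sq hb h)

theorem Ch.sizes (h : Ch S w) : ∀ᵐ x : X, w.f.Ev x ≤ w.f.R x ∧ w.f.O x ≤ w.f.R x ∧
    |w.f.d x| ≤ w.f.O x ∧ w.f.No x ≤ w.f.O x ∧ |w.f.e1 x| ≤ w.f.Ev x ∧ |w.f.e2 x| ≤ w.f.Ev x ∧
    |w.f.e3 x| ≤ w.f.Ev x ∧ w.f.Ne x ≤ w.f.Ev x ∧ |w.f.e x| ≤ w.f.Ev x ∧ w.f.N x ≤ w.f.R x ∧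
    w.f.R x ≤ w.f.Ev x + w.f.O x ∧ w.f.O x ≤ |w.f.d x| + w.f.No x ∧
    w.f.Ev x ≤ |w.f.e1 x| + |w.f.e2 x| + |w.f.e3 x| + w.f.Ne x ∧
    w.f.R x ≤ S.M * ex (9 / 10) x ∧ w.f.R x ≤ S.M := by
  filter_upwards [h.pyth, h.bd] with x hx hb
  obtain ⟨h1, h2, h3, h4⟩ := hx
  obtain ⟨n1, n2, n3, n4, n5, n6⟩ := h.nn x
  have hM := h.M_ge
  have he : |w.f.e x| ≤ w.f.Ev x := by
    refine cmp_le_of_sq n2 ?_
    have : w.f.e x ^ 2 = (2 * w.f.e1 x + w.f.e2 x + w.f.e3 x) ^ 2 / 6 := by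
      unfold Fns.e
      rw [div_pow, Real.sq_sqrt (by norm_num)]
    rw [this, h3]
    nlinarith [sq_nonneg (w.f.e1 x - 2 * w.f.e2 x), sq_nonneg (w.f.e1 x - 2 * w.f.e3 x),
      sq_nonneg (w.f.e2 x - w.f.e3 x), sq_nonneg (w.f.Ne x)]
  have hex : ex (9 / 10) x ≤ 1 := by
    unfold ex
    exact Real.exp_le_one_iff.2 (by nlinarith [norm_nonneg x])
  refine ⟨cmp_le_of_sq' n1 (by nlinarith [sq_nonneg (w.f.O x)]),
    cmp_le_of_sq' n1 (by nlinarith [sq_nonneg (w.f.Ev x)]),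
    cmp_le_of_sq n3 (by nlinarith [sq_nonneg (w.f.No x)]),
    cmp_le_of_sq' n3 (by nlinarith [sq_nonneg (w.f.d x)]),
    cmp_le_of_sq n2 (by nlinarith [sq_nonneg (w.f.e2 x), sq_nonneg (w.f.e3 x), sq_nonneg (w.f.Ne x)]),
    cmp_le_of_sq n2 (by nlinarith [sq_nonneg (w.f.e1 x), sq_nonneg (w.f.e3 x), sq_nonneg (w.f.Ne x)]),
    cmp_le_of_sq n2 (by nlinarith [sq_nonneg (w.f.e2 x), sq_nonneg (w.f.e1 x), sq_nonneg (w.f.Ne x)]),
    cmp_le_of_sq' n2 (by nlinarith [sq_nonneg (w.f.e2 x), sq_nonneg (w.f.e3 x), sq_nonneg (w.f.e1 x)]),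
    he, cmp_le_of_sq' n1 (by nlinarith [sq_nonneg (w.f.e x), sq_nonneg (w.f.d x)]),
    cmp_le_of_sq' (by positivity) (by nlinarith [mul_nonneg n2 n3]),
    cmp_le_of_sq' (by positivity) ?_, cmp_le_of_sq' (by positivity) ?_, hb, ?_⟩
  · rw [h2, ← sq_abs (w.f.d x)]
    nlinarith [mul_nonneg (abs_nonneg (w.f.d x)) n4]
  · rw [h3, ← sq_abs (w.f.e1 x), ← sq_abs (w.f.e2 x), ← sq_abs (w.f.e3 x)]
    have a1 := abs_nonneg (w.f.e1 x)
    have a2 := abs_nonneg (w.f.e2 x)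
    have a3 := abs_nonneg (w.f.e3 x)
    nlinarith [mul_nonneg a1 a2, mul_nonneg a1 a3, mul_nonneg a2 a3, mul_nonneg a1 n5,
      mul_nonneg a2 n5, mul_nonneg a3 n5]
  · nlinarith

theorem Ch.cmp_he (h : Ch S w) : H1 eX w.f.e := by
  have := ((((h.he1.const_mul 2).add h.he2).add h.he3).const_mul (√6)⁻¹)
  refine this.congr (Eventually.of_forall fun x => ?_)
  simp only [Fns.e]
  ring

theorem Ch.lh (h : Ch S w) : LH eX w.f.R ∧ LH eX w.f.Ev ∧ LH eX w.f.O ∧ LH eX w.f.No ∧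
    LH eX w.f.Ne ∧ LH eX w.f.N ∧ LH eX w.f.d ∧ LH eX w.f.e1 ∧ LH eX w.f.e2 ∧ LH eX w.f.e3 ∧
    LH eX w.f.e := by
  have hs := h.sizes
  refine ⟨h.hR.lh (M := S.M) ?_, h.hEv.lh (M := S.M) ?_, h.hO.lh (M := S.M) ?_,
    h.hNo.lh (M := S.M) ?_, h.hNe.lh (M := S.M) ?_, h.hN.lh (M := S.M) ?_, h.hd.lh (M := S.M) ?_,
    h.he1.lh (M := S.M) ?_, h.he2.lh (M := S.M) ?_, h.he3.lh (M := S.M) ?_,
    h.cmp_he.lh (M := S.M) ?_⟩ <;>
  · filter_upwards [hs] with x hx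
    obtain ⟨n1, n2, n3, n4, n5, n6⟩ := h.nn x
    obtain ⟨s1, s2, s3, s4, s5, s6, s7, s8, s9, s10, -, -, -, -, s15⟩ := hx
    first
      | linarith
      | (rw [abs_of_nonneg (by assumption)]; linarith)

theorem Ch.lin (h : Ch S w) (α1 α2 α3 : ℝ) :
    LH eX (fun x => α1 * w.f.e1 x + α2 * w.f.e2 x + α3 * w.f.e3 x) ∧
      MemLp (fun x => α1 * w.f.e1 x + α2 * w.f.e2 x + α3 * w.f.e3 x) 2 volume := by
  obtain ⟨-, -, -, -, -, -, -, l1, l2, l3, -⟩ := h.lh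
  exact ⟨((l1.const_mul α1).add (l2.const_mul α2)).add (l3.const_mul α3),
    (((h.he1.const_mul α1).add (h.he2.const_mul α2)).add (h.he3.const_mul α3)).1⟩

theorem Ch.e_even (h : Ch S w) : ∀ᵐ x : X, w.f.e (rf x) = w.f.e x := by
  filter_upwards [h.par] with x hx
  obtain ⟨-, -, -, -, -, -, -, p1, p2, p3, -⟩ := hx
  simp only [Fns.e, p1, p2, p3]

/-- Measurable and bounded on bounded parts of `Ext r`. -/
def CmpB (r : ℝ) (f : X → ℝ) : Prop :=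
  AEStronglyMeasurable f volume ∧ ∀ R : ℝ, ∃ M : ℝ, ∀ᵐ x : X, x ∈ Ext r → ‖x‖ ≤ R → |f x| ≤ M

theorem CmpB.li {r : ℝ} {f : X → ℝ} (h : CmpB r f) : LI (Ext r) f :=
  LI.of_bdd (measurableSet_Ext r) h.1 h.2

theorem CmpB.const (r c : ℝ) : CmpB r fun _ => c :=
  ⟨aestronglyMeasurable_const, fun _ => ⟨|c|, Eventually.of_forall fun _ _ _ => le_rfl⟩⟩

theorem CmpB.add {r : ℝ} {f g : X → ℝ} (h : CmpB r f) (h' : CmpB r g) :
    CmpB r fun x => f x + g x := by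
  refine ⟨h.1.add h'.1, fun R => ?_⟩
  obtain ⟨M, hM⟩ := h.2 R
  obtain ⟨M', hM'⟩ := h'.2 R
  refine ⟨M + M', ?_⟩
  filter_upwards [hM, hM'] with x h1 h2 hx hR
  exact (abs_add_le _ _).trans (add_le_add (h1 hx hR) (h2 hx hR))

theorem CmpB.mul {r : ℝ} {f g : X → ℝ} (h : CmpB r f) (h' : CmpB r g) :
    CmpB r fun x => f x * g x := by
  refine ⟨h.1.mul h'.1, fun R => ?_⟩
  obtain ⟨M, hM⟩ := h.2 R
  obtain ⟨M', hM'⟩ := h'.2 R
  refine ⟨M * M', ?_⟩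
  filter_upwards [hM, hM'] with x h1 h2 hx hR
  rw [abs_mul]
  exact mul_le_mul (h1 hx hR) (h2 hx hR) (abs_nonneg _) ((abs_nonneg _).trans (h1 hx hR))

theorem CmpB.cmul {r : ℝ} {f : X → ℝ} (c : ℝ) (h : CmpB r f) : CmpB r fun x => c * f x :=
  (CmpB.const r c).mul h

theorem CmpB.abs {r : ℝ} {f : X → ℝ} (h : CmpB r f) : CmpB r fun x => |f x| := by
  refine ⟨h.1.norm, fun R => ?_⟩
  obtain ⟨M, hM⟩ := h.2 R
  refine ⟨M, ?_⟩
  filter_upwards [hM] with x h1 hx hR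
  rw [abs_abs]
  exact h1 hx hR

theorem CmpB.div {r : ℝ} (hr : 0 < r) {f : X → ℝ} (h : CmpB r f) (k : ℕ) :
    CmpB r fun x => f x / ‖x‖ ^ k := by
  have : CmpB r fun x : X => (‖x‖ ^ k)⁻¹ := by
    refine ⟨Measurable.aestronglyMeasurable (by fun_prop), fun R => ⟨(r ^ k)⁻¹, ?_⟩⟩
    refine Eventually.of_forall fun x hx _ => ?_
    have hx' : r ≤ ‖x‖ := hx
    rw [abs_of_nonneg (by positivity)]
    exact inv_anti₀ (by positivity) (by gcongr)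
  simpa only [div_eq_mul_inv] using h.mul this

theorem CmpB.of_lh (r : ℝ) {f : X → ℝ} (h : LH eX f) : CmpB r f := by
  refine ⟨h.1.1.aesm, fun R => ?_⟩
  obtain ⟨M, hM⟩ := h.2 R
  refine ⟨M, ?_⟩
  filter_upwards [hM] with x h1 _ hR
  exact h1 hR

theorem CmpB.of_cont (r : ℝ) {f : X → ℝ} (h : Continuous f) : CmpB r f := by
  refine ⟨h.aestronglyMeasurable, fun R => ?_⟩
  obtain ⟨M, hM⟩ := LocBdd.of_continuous h R
  refine ⟨M, ?_⟩
  filter_upwards [hM] with x h1 _ hR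
  exact h1 hR

theorem CmpB.ex (r a : ℝ) : CmpB r (ex a) :=
  CmpB.of_cont r (by unfold R335.ex; fun_prop)

theorem CmpB.z (r : ℝ) : CmpB r fun x : X => |x 2| :=
  CmpB.of_cont r (by fun_prop)

theorem CmpB.of_le {r : ℝ} {f g : X → ℝ} (hf : AEStronglyMeasurable f volume) (h : CmpB r g)
    (hle : ∀ x ∈ Ext r, |f x| ≤ g x) : CmpB r f := by
  refine ⟨hf, fun R => ?_⟩
  obtain ⟨M, hM⟩ := h.2 R
  refine ⟨M, ?_⟩
  filter_upwards [hM] with x h1 hx hR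
  exact (hle x hx).trans ((le_abs_self _).trans (h1 hx hR))

/-- Local integrability of all coefficients and sources of `Chan` outside the ball `6 D`
(`LI.of_bdd`: everything is bounded there). -/
theorem Ch.li (hS : S.Ok) (h : Ch S w) :
    LI (Ext (6 * S.D)) (aS S.D w.m2 w.l S.M) ∧
    (∀ t : ℝ, LI (Ext (6 * S.D)) fun x => aa S.D w.m2 x + t) ∧
    (∀ t t' : ℝ, LI (Ext (6 * S.D)) fun x => aa S.D w.m2 x + t + t') ∧
    (LI (Ext (6 * S.D)) fun x => aa S.D w.m2 x + 4 * w.l / ‖x‖) ∧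
    (LI (Ext (6 * S.D)) fun x =>
      2 * w.l * (8 * |x 2| / ‖x‖ ^ 2 * w.f.O x + S.M * ex (13 / 10) x)) ∧
    LI (Ext (6 * S.D)) (srcE S.C1 S.D w.l S.M w.f) ∧
    (LI (Ext (6 * S.D)) fun x =>
      2 * w.l * (8 * |x 2| / ‖x‖ ^ 2 * w.f.Ev x + S.M * ex (13 / 10) x)) ∧
    (LI (Ext (6 * S.D)) fun x =>
      w.l * S.M * (w.f.O x / ‖x‖ ^ 2 + (|x 2| / ‖x‖ ^ 3 + ex (2 / 5) x) * w.f.Ev x)) ∧
    (LI (Ext (6 * S.D)) fun x =>
      w.l * S.M * (|w.f.d x| / ‖x‖ ^ 2 + |x 2| / ‖x‖ ^ 2 * w.f.Ev x + ex (13 / 10) x)) ∧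
    (LI (Ext (6 * S.D)) fun x => w.l * S.M * w.f.Ev x + srcE S.C1 S.D w.l S.M w.f x) ∧
    ∀ α : ℝ, LI (Ext (6 * S.D)) fun x => 2 * w.l * α * w.f.k x * w.f.d x +
      w.l * S.M * (w.f.Ev x + (|x 2| / ‖x‖ ^ 3 + ex (2 / 5) x) * w.f.No x) := by
  have hr : 0 < 6 * S.D := by have := hS.ob.D_ge; linarith
  set r := 6 * S.D with hrdef
  obtain ⟨lR, lEv, lO, lNo, lNe, lN, ld, l1, l2, l3, le⟩ := h.lh
  have bEv := CmpB.of_lh r lEv
  have bO := CmpB.of_lh r lO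
  have bNo := CmpB.of_lh r lNo
  have bd := CmpB.of_lh r ld
  have bz := CmpB.z r
  have haa : LI (Ext r) (aa S.D w.m2) := (li_aa S.D w.m2).mono (subset_univ _)
  have bk0 : CmpB r fun x : X => S.C1 * S.D * |x 2| / ‖x‖ ^ 3 + S.M * ex (2 / 5) x :=
    ((bz.cmul _).div hr 3).add ((CmpB.ex r _).cmul _)
  have bk : CmpB r w.f.k := CmpB.of_le h.mkk.aestronglyMeasurable bk0 fun x hx => h.k_up x hx
  have bsrc : CmpB r (srcE S.C1 S.D w.l S.M w.f) :=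
    (((bk0.mul bd.abs).add (((bz.cmul 8).div hr 2).mul bNo)).add ((CmpB.ex r _).cmul _)).cmul _
  have bt : CmpB r fun x : X => |x 2| / ‖x‖ ^ 3 + ex (2 / 5) x := (bz.div hr 3).add (CmpB.ex r _)
  refine ⟨li_aS hr _ _ _ _, fun t => haa.add (LI.const t),
    fun t t' => (haa.add (LI.const t)).add (LI.const t'), haa.add ?_, ?_, bsrc.li, ?_, ?_, ?_, ?_,
    fun α => ?_⟩
  · simpa only [pow_one] using ((CmpB.const r (4 * w.l)).div hr 1).li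
  · exact (((((bz.cmul 8).div hr 2).mul bO).add ((CmpB.ex r _).cmul _)).cmul _).li
  · exact (((((bz.cmul 8).div hr 2).mul bEv).add ((CmpB.ex r _).cmul _)).cmul _).li
  · exact (((bO.div hr 2).add (bt.mul bEv)).cmul _).li
  · exact ((((bd.abs.div hr 2).add ((bz.div hr 2).mul bEv)).add (CmpB.ex r _)).cmul _).li
  · exact ((bEv.cmul _).add bsrc).li
  · exact (((bk.cmul _).mul bd).add ((bEv.add (bt.mul bNo)).cmul _)).li

/-- The levels against the reference level. -/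
theorem Adm.levels (h : Adm S w) (hl : 0 < w.l) {x : X} (hx : 6 * S.D ≤ ‖x‖) :
    a0 w.μ w.γ x - 6 * S.D / ‖x‖ ^ 2 ≤ aS S.D w.m2 w.l S.M x ∧
    9 / 10 ≤ a0 w.μ w.γ x - 6 * S.D / ‖x‖ ^ 2 ∧
    |aa S.D w.m2 x + 4 * w.l / ‖x‖ - a0 w.μ w.γ x| ≤ 5 * S.D / ‖x‖ ^ 2 ∧
    9 / 10 ≤ aa S.D w.m2 x ∧ aa S.D w.m2 x ≤ 2 ∧ 4 * w.l / ‖x‖ ≤ S.δ / 100 := by
  have hD := h.par.D_ge
  have hV := abs_le.1 (V_ext hD hx)
  obtain ⟨b1, b2, b3⟩ := h.par.a0_bounds hx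
  have ha := h.a_d x
  have hm := abs_le.1 h.m2_near
  have hr : 6000 ≤ ‖x‖ := by linarith
  have e5 : 5 * S.D / ‖x‖ ^ 2 = 5 * (S.D / ‖x‖ ^ 2) := by ring
  have e6 : 6 * S.D / ‖x‖ ^ 2 = 6 * (S.D / ‖x‖ ^ 2) := by ring
  have hlm : w.l * S.M / ‖x‖ ^ 2 ≤ S.D / ‖x‖ ^ 2 :=
    div_le_div_of_nonneg_right (by linarith [h.lM]) (by positivity)
  have h4 : 4 / ‖x‖ ≤ 4 / 6000 := div_le_div_of_nonneg_left (by norm_num) (by norm_num) hr
  have h4' : 0 ≤ 4 / ‖x‖ := by positivity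
  have hp : 0 ≤ S.D / ‖x‖ ^ 2 := by positivity
  refine ⟨?_, by linarith, ?_, ?_, ?_, ?_⟩
  · unfold aS aa
    linarith [hV.1]
  · unfold aa
    rw [abs_le]
    constructor <;> linarith [hV.1, hV.2]
  · unfold aa
    linarith [hV.1]
  · unfold aa
    linarith [hV.2]
  · have : 4 * w.l / ‖x‖ = w.l * (4 / ‖x‖) := by ring
    rw [this]
    nlinarith [h.l_le, h.δ_pos]

end Crest.Agent.R335
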