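/-
R335/PR/Adm: admissible parameters and the collar
Skeleton by helper48 (row 335); keep the statements unchanged, add any helper lemmas you like.
-/
import Crest.Agent.R335.PR.Cmp
import Crest.Agent.R335.PR.AdmA

set_option autoImplicit false
set_option linter.unusedSectionVars false
set_option linter.unusedVariables false
set_option linter.unusedSimpArgs false

noncomputable section

namespace Crest.Agent.R335

open MeasureTheory Set Filter Topology Metric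
open scoped ENNReal

open Crest.Agent.R338 (pd lap)

variable {S : Sd}

theorem Sd.Ok.consts (hS : S.Ok) : 1000 ≤ S.D ∧ 1000 ≤ S.Kb ∧ 1 ≤ S.K2 ∧ 1 ≤ S.K3 ∧ 1 ≤ S.K4 ∧
    0 < S.δ ∧ S.δ ≤ 1 / 10000 ∧ 0 < S.c ∧ S.c ≤ 1 / 10 := by
  exact adma_consts hS

theorem par_ga {D m Zc : ℝ} (hD : 1000 ≤ D) (hm : |m - 1| ≤ 1 / 100) (h1 : 198 / 100 ≤ Zc)
    (h2 : Zc ≤ 2) : Par D (√m) (ga m Zc) 0 ∧ ∀ x : X, a0 (√m) (ga m Zc) x = m - 2 * Zc / ‖x‖ := by
  exact adma_par hD hm h1 h2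

theorem ga_close {m m' Zc Zc' : ℝ} (hm : |m - 1| ≤ 1 / 100) (hm' : |m' - 1| ≤ 1 / 100)
    (h2 : |Zc| ≤ 2) : |√m - √m'| ≤ |m - m'| ∧
      |ga m Zc - ga m' Zc'| ≤ 3 * |m - m'| + 2 * |Zc - Zc'| := by
  exact adma_close hm hm' h2

theorem evt_adm (hS : S.Ok) : Evt S (Adm S) := by
  exact adma_evt hS

/-- On the collar the profiles of the dynamic parameters are within a factor `2` of those of `g`
and `u` (`Par.close`, `Par.cmp_s`, `Par.anti`); the lower half space by oddness of `u`. -/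
theorem evt_collar (hS : S.Ok) {r ε : ℝ} (hr : 6 * S.D ≤ r) (hε : 0 < ε) : Evt S fun w =>
    ∀ᵐ x : X, r < ‖x‖ → ‖x‖ ≤ r + 1 → w.η ≤ ε * tau x ∧ w.l ≤ ε * tau x ∧
      |S.u x| ≤ 2 * S.K0 * |w.O S 0 x| ∧ (0 < x 2 → w.O S 0 x / (2 * S.K0) ≤ S.u x) ∧
      S.g x ≤ 2 * S.K0 * w.E S 0 x ∧ S.g x ≤ 120 * S.K0 * w.Eu S x ∧
      w.El S x / (120 * S.K0) ≤ S.g x := by
  have hD := hS.ob.D_ge
  have r0 : 0 < r + 1 := by linarith
  obtain ⟨a, a0, a1, a2, a3⟩ : ∃ a : ℝ, 0 < a ∧ a ≤ 1 / 1000 ∧ 4 * (12 * a) * (r + 1) ≤ 1 ∧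
      a ≤ ε * (Real.exp (-(r + 1) ^ 2) * Real.exp (-(13 / 10) * (r + 1))) := by
    refine ⟨min (min (1 / 1000) (1 / (48 * (r + 1)))) _, lt_min (by positivity) (by positivity),
      (min_le_left _ _).trans (min_le_left _ _), ?_, min_le_right _ _⟩
    have := (le_div_iff₀ (by positivity)).1 ((min_le_left _ (ε * (Real.exp (-(r + 1) ^ 2) *
      Real.exp (-(13 / 10) * (r + 1))))).trans (min_le_right (1 / 1000) (1 / (48 * (r + 1)))))
    linarith
  refine (((evt_adm hS).and (evt_le S a0)).and (evt_le S (sq_pos_of_pos a0))).mono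
    fun w hw ⟨⟨h, hη, _⟩, _, hl, hl'⟩ => ?_
  have sl := Real.sqrt_le_iff.2 ⟨a0.le, hl'⟩
  have sl0 := Real.sqrt_nonneg w.l
  obtain ⟨g1, g2⟩ := abs_le.1 hS.ob.eg_near
  obtain ⟨u1, u2⟩ := abs_le.1 hS.ob.eu_near
  obtain ⟨m1, m2⟩ := abs_le.1 hw.m2_near
  have d1 := hw.de_le
  have d2 := hw.de_ge
  have l1 := hw.l_le
  have K1 := hS.K0_ge
  have K0 : 0 < S.K0 := by linarith
  have ng : |-2 * S.eg - 1| ≤ 1 / 100 := abs_le.2 ⟨by linarith, by linarith⟩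
  have nu : |-2 * S.eu - 1| ≤ 1 / 100 := abs_le.2 ⟨by linarith, by linarith⟩
  have cl : ∀ {m m' Z : ℝ}, |m' - 1| ≤ 1 / 100 → |m - 1| ≤ 1 / 100 → 3 * |m' - m| + 2 * |2 - Z| ≤ 12 * a →
      (|√m' - √m| ≤ 12 * a ∧ |ga m' 2 - ga m Z| ≤ 12 * a) ∧
        |√m - √m'| ≤ 12 * a ∧ |ga m Z - ga m' 2| ≤ 12 * a := fun {m m' Z} h1 h2 h3 => by
    obtain ⟨b1, b2⟩ := ga_close (Zc := 2) (Zc' := Z) h1 h2 (by norm_num)
    rw [abs_sub_comm √m, abs_sub_comm (ga m Z), and_self_iff]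
    exact ⟨by linarith [abs_nonneg (m' - m), abs_nonneg (2 - Z)], b2.trans h3⟩
  have cd := cl (Z := 2 - 2 * w.l) nu h.m2_near (by
    have : |-2 * S.eu - w.m2| ≤ a := abs_le.2 ⟨by linarith, by linarith⟩
    have : |2 - (2 - 2 * w.l)| ≤ 2 * a := abs_le.2 ⟨by linarith, by linarith⟩
    linarith)
  have cU := cl (m := w.mU) (Z := 2) ng (abs_le.2 ⟨by unfold Dy.mU; linarith, by unfold Dy.mU; linarith⟩) (by
    have : |-2 * S.eg - w.mU| ≤ 4 * a := abs_le.2 ⟨by unfold Dy.mU; linarith, by unfold Dy.mU; linarith⟩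
    rw [sub_self, abs_zero]
    linarith)
  have cL := cl (m := w.mL) (Z := 2) ng (abs_le.2 ⟨by unfold Dy.mL; linarith, by unfold Dy.mL; linarith⟩) (by
    have : |-2 * S.eg - w.mL| ≤ 4 * a := abs_le.2 ⟨by unfold Dy.mL; linarith, by unfold Dy.mL; linarith⟩
    rw [sub_self, abs_zero]
    linarith)
  have h3 : ∀ x : X, ‖x‖ ≤ r + 1 → 4 * (12 * a) * ‖x‖ ≤ 1 := fun x hx =>
    (mul_le_mul_of_nonneg_left hx (by positivity)).trans a2
  have hu : Bd r (fun x => if ‖x‖ ≤ r + 1 then |S.u x| else 0) fun x => 2 * S.K0 * |w.O S 0 x| := by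
    refine BdH.even ?_ (ae_of_all _ fun x => by simp only [norm_rf, hS.ob.u_odd, abs_neg])
      fun x => by simp only [Dy.O, Oo_rf, abs_neg]
    filter_upwards [hS.u_up] with x hx h1 h2
    split_ifs with h4
    · have := (h.paru.close h.par (by linarith) cd.1.1 cd.1.2 (h3 x h4)).2 h2.le
      rw [abs_of_nonneg (hS.ob.u_nn x h2)]
      linarith [hx (by linarith) h2, mul_le_mul_of_nonneg_left (this.trans
        (mul_le_mul_of_nonneg_left (le_abs_self (w.O S 0 x)) zero_le_two)) K0.le]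
    · positivity
  filter_upwards [hu, hS.u_lo, hS.g_up, hS.g_lo] with x h1 h2 h4 h5 hx hx'
  have hx6 : 6 * S.D ≤ ‖x‖ := by linarith
  have t : w.η ≤ ε * tau x := hη.trans (a3.trans (by
    have := sq_le_sq' (abs_le.1 ((geo hD hx6).2.2.2.2.1.trans hx')).1 (abs_le.1 ((geo hD hx6).2.2.2.2.1.trans hx')).2
    unfold tau ex
    gcongr ε * (Real.exp ?_ * Real.exp ?_) <;> linarith))
  replace h4 := h4 (by linarith)
  replace h5 := (div_le_iff₀ K0).1 (h5 (by linarith))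
  have e := hS.ob.lt
  have s1 : √(-2 * S.eu) ≤ √(-2 * S.eg) := Real.sqrt_le_sqrt (by linarith)
  refine ⟨t, l1.trans t, by simpa only [if_pos hx'] using h1 hx, fun hz => ?_, ?_, ?_, ?_⟩
  · have := (h.par.close h.paru hx6 cd.2.1 cd.2.2 (h3 x hx')).2 hz.le
    rw [div_le_iff₀ (by positivity)]
    unfold Dy.O
    linarith [(div_le_iff₀ K0).1 (h2 (by linarith) hz)]
  · have b1 := (h.paru.anti h.parg hx6 s1 (by
      unfold ga
      gcongr
      exact Real.sqrt_pos.2 (by linarith))).trans (h.paru.close h.par hx6 cd.1.1 cd.1.2 (h3 x hx')).1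
    unfold Dy.E
    linarith [mul_le_mul_of_nonneg_left b1 K0.le]
  · have b1 := (h.parg.close h.parU hx6 cU.1.1 cU.1.2 (h3 x hx')).1
    have b2 := ((h.parU.of_abs (s' := -(20 * S.D)) (by rw [abs_neg, abs_of_nonneg (by linarith)])).cmp_s hx6).2.1
    unfold Dy.Eu
    linarith [mul_le_mul_of_nonneg_left b1 K0.le, mul_le_mul_of_nonneg_left b2 K0.le]
  · have b1 := (h.parL.close h.parg hx6 cL.2.1 cL.2.2 (h3 x hx')).1
    have b2 := ((h.parL.of_abs (s' := 20 * S.D) (by rw [abs_of_nonneg (by linarith)])).cmp_s hx6).1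
    rw [div_le_iff₀ (by positivity)]
    unfold Dy.El
    linarith

theorem evt_sqrt (S : Sd) {a : ℝ} (ha : 0 < a) : Evt S fun w => w.l ≤ a * √w.l ∧ √w.l ≤ a := by
  exact adma_evt_sqrt S ha

/-- `g` is bounded below on the ball by `g_lo`; take `η ≤ inf g / 1000`. -/
theorem evt_inner (hS : S.Ok) (ρ : ℝ) : Evt S (PI S ρ) := by
  have hD := hS.ob.D_ge
  have C1 := hS.ob.C_ge
  have C0 : 0 < S.C := by linarith
  obtain ⟨c, c0, hc⟩ : ∃ c : ℝ, 0 < c ∧ ∀ᵐ x : X, ‖x‖ ≤ ρ → c ≤ S.g x := by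
    refine ⟨S.C⁻¹ * Real.exp (-(1001 / 1000) * (ρ + S.D)), by positivity, ?_⟩
    filter_upwards [hS.ob.g_lo] with x hx h1
    refine le_trans (mul_le_mul_of_nonneg_left (le_add_of_le_of_nonneg (Real.exp_le_exp.2 ?_)
      (Real.exp_pos _).le) (by positivity)) hx
    linarith [(prr_tp (by linarith : 0 ≤ S.D) x).2]
  have hu : Bd (-1) (fun x => |S.u x|) fun _ => S.C := by
    refine BdH.even ?_ (ae_of_all _ fun x => by simp only [hS.ob.u_odd, abs_neg]) fun x => rfl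
    filter_upwards [hS.ob.u_up] with x hx _ h2
    rw [abs_of_nonneg (hS.ob.u_nn x h2)]
    refine (hx h2).trans (mul_le_of_le_one_right C0.le ((sub_le_self _ (Real.exp_pos _).le).trans
      (Real.exp_le_one_iff.2 ?_)))
    linarith [show 0 ≤ tp S.D x from norm_nonneg _]
  refine ((evt_le S (a := c / 1000) (by positivity)).and
    (evt_le S (a := c / (S.M ^ 2 + 1)) (by positivity))).mono fun w hw ⟨⟨hη, hl, _⟩, _, _, hl'⟩ => ⟨⟨c, c0, hc⟩, ?_⟩
  filter_upwards [hc, hu, hw.sizes, hw.close, hw.pyth, hS.ob.g_lo] with x h1 h2 h3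
    ⟨hd, he1, he2, he3, hNo, hNe⟩ ⟨p1, p2, p3, p4⟩ h6 hx
  replace h1 := h1 hx
  replace h2 := h2 (by linarith [norm_nonneg x])
  obtain ⟨-, -, -, -, -, -, -, -, -, -, s1, s2, s3, -, s4⟩ := h3
  obtain ⟨n1, -, -, n2, n3, -⟩ := hw.nn x
  obtain ⟨a1, a2⟩ := abs_le.1 he1
  obtain ⟨b1, b2⟩ := abs_le.1 he2
  obtain ⟨c1, c2⟩ := abs_le.1 he3
  have q0 : 0 < √6 := by positivity
  have q1 : √6 ≤ 245 / 100 := Real.sqrt_le_iff.2 (by norm_num)
  have q2 : 2 ≤ √6 := Real.le_sqrt_of_sq_le (by norm_num)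
  have g0 : 0 < S.g x := c0.trans_le h1
  have e1 : 122 / 100 * S.g x ≤ w.f.e x := (le_div_iff₀ q0).2 (by
    linarith [mul_le_mul_of_nonneg_left q1 g0.le])
  refine ⟨by linarith, (div_le_iff₀ q0).2 (by linarith [mul_le_mul_of_nonneg_left q2 g0.le]), ?_,
    fun hz => by linarith [(abs_le.1 hd).1, hS.ob.u_nn x hz], ?_, fun ht => ?_⟩
  · have t1 : w.f.e1 x ^ 2 ≤ (1001 / 1000 * S.g x) ^ 2 := sq_le_sq' (by linarith) (by linarith)
    have t2 : w.f.e2 x ^ 2 ≤ (1 / 1000 * S.g x) ^ 2 := sq_le_sq' (by linarith) (by linarith)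
    have t3 : w.f.e3 x ^ 2 ≤ (1001 / 1000 * S.g x) ^ 2 := sq_le_sq' (by linarith) (by linarith)
    have t4 : w.f.No x ^ 2 ≤ (1 / 1000 * S.g x) ^ 2 := sq_le_sq' (by linarith) (by linarith)
    have t5 : w.f.Ne x ^ 2 ≤ (1 / 1000 * S.g x) ^ 2 := sq_le_sq' (by linarith) (by linarith)
    have t6 := pow_le_pow_left₀ (by positivity) e1 2
    linarith [sq_nonneg (S.g x)]
  · have M0 : 0 ≤ S.M := zero_le_one.trans hw.M_ge
    have := (le_div_iff₀ (by positivity)).1 hl'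
    linarith [mul_le_mul_of_nonneg_left s4 (mul_nonneg hl.le M0)]
  · have t1 : Real.exp (-21) ≤ Real.exp (-(1001 / 1000) * tp S.D x) + Real.exp (-(1001 / 1000) * tm S.D x) := by
      rcases ht with ht | ht
      · exact le_add_of_le_of_nonneg (Real.exp_le_exp.2 (by linarith)) (Real.exp_pos _).le
      · exact le_add_of_nonneg_of_le (Real.exp_pos _).le (Real.exp_le_exp.2 (by linarith))
    have t2 := mul_le_mul_of_nonneg_left ((mul_le_mul_of_nonneg_left t1 (inv_pos.2 C0).le).trans h6)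
      (show 0 ≤ S.C ^ 2 * Real.exp 21 by positivity)
    rw [show S.C ^ 2 * Real.exp 21 * (S.C⁻¹ * Real.exp (-21)) = S.C by rw [Real.exp_neg]; field_simp] at t2
    have t3 : 1 ≤ S.C ^ 2 * Real.exp 21 :=
      one_le_mul_of_one_le_of_one_le (one_le_pow₀ C1) (Real.one_le_exp (by norm_num))
    have t4 := abs_sub_abs_le_abs_sub (w.f.d x) (S.u x)
    have t5 : |w.f.e1 x| ≤ 2 * S.g x := abs_le.2 ⟨by linarith, by linarith⟩
    have t6 : |w.f.e3 x| ≤ 2 * S.g x := abs_le.2 ⟨by linarith, by linarith⟩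
    unfold Lam0
    linarith [mul_le_mul_of_nonneg_right t3 g0.le, mul_le_mul_of_nonneg_left e1 (zero_le_one.trans t3)]

end Crest.Agent.R335
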