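/-
R335/PR/H: small helpers for the steps
Skeleton by helper48 (row 335); keep the statements unchanged, add any helper lemmas you like.
-/
import Crest.Agent.R335.PR.Adm

set_option autoImplicit false
set_option linter.unusedSectionVars false
set_option linter.unusedVariables false
set_option linter.unusedSimpArgs false

noncomputable section

namespace Crest.Agent.R335

open MeasureTheory Set Filter Topology Metric
open scoped ENNReal

open Crest.Agent.R338 (pd lap)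

variable {S : Sd} {w : Dy}

theorem evt_lM (S : Sd) {a : ℝ} (ha : 0 < a) : Evt S fun w => w.l * S.M ≤ a :=
  (evt_le S (a := a / (|S.M| + 1)) (by positivity)).mono fun w hw h => by
    have h1 : 1 ≤ S.M := hw.M_ge
    have h2 := h.2.2
    rw [abs_of_pos (by linarith), le_div_iff₀ (by linarith)] at h2
    nlinarith [h.2.1]

theorem evt_mul (S : Sd) (K : ℝ) {a : ℝ} (ha : 0 < a) : Evt S fun w => w.l * S.M * K ≤ a :=
  (evt_lM S (a := a / (|K| + 1)) (by positivity)).mono fun w hw h => by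
    have h1 : 1 ≤ S.M := hw.M_ge
    have h0 : 0 ≤ w.l * S.M := mul_nonneg hw.l_pos.le (by linarith)
    rw [le_div_iff₀ (by positivity)] at h
    nlinarith [mul_le_mul_of_nonneg_left (le_abs_self K) h0]

theorem Par.neg20 {D μ γ s : ℝ} (h : Par D μ γ s) : Par D μ γ (-(20 * D)) :=
  h.of_abs (by rw [abs_neg, abs_of_nonneg (by linarith [h.D_ge])])

theorem Par.pos20 {D μ γ s : ℝ} (h : Par D μ γ s) : Par D μ γ (20 * D) :=
  h.of_abs (by rw [abs_of_nonneg (by linarith [h.D_ge])])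

/-- `e^{-1.3 r} ≤ E / r^k`. -/
theorem Par.ex13 {D μ γ s : ℝ} (h : Par D μ γ s) {x : X} (hx : 6 * D ≤ ‖x‖) {k : ℕ} (hk : k ≤ 3) :
    10 * ex (13 / 10) x ≤ Oe D μ γ s x / ‖x‖ ^ k := by
  have hD := h.D_ge
  have h1 := bar4_pe (x := x) (by linarith)
  have h2 := (h.Oe_exp hx).1
  have hr : 1 ≤ ‖x‖ := by linarith
  have h3 : ‖x‖ ^ k ≤ ‖x‖ ^ 3 := pow_le_pow_right₀ hr hk
  have e2 : ex (13 / 10) x = ex (1 / 5) x * ex (11 / 10) x := by rw [← ex_add]; norm_num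
  have e0 := ex_pos (1 / 5) x
  have e1 := ex_pos (11 / 10) x
  rw [le_div_iff₀ (by positivity), e2]
  calc _ ≤ 10 * (ex (1 / 5) x * ex (11 / 10) x) * ‖x‖ ^ 3 := by gcongr
    _ = 10 * (‖x‖ ^ 3 * ex (1 / 5) x) * ex (11 / 10) x := by ring
    _ ≤ 10 * (1 / 10) * Oe D μ γ s x := by gcongr
    _ = _ := by ring

theorem ex_le_one {a : ℝ} (ha : 0 ≤ a) (x : X) : ex a x ≤ 1 :=
  Real.exp_le_one_iff.2 (by nlinarith [norm_nonneg x])

/-- The channels against `g` and `u`. -/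
theorem Ch.near (hS : S.Ok) (h : Ch S w) : ∀ᵐ x : X, w.f.Ev x ≤ 2 * S.g x + 4 * w.η ∧
    w.f.O x ≤ |S.u x| + 2 * w.η ∧ S.u x - w.η ≤ w.f.d x ∧ w.f.No x ≤ w.η ∧ w.f.Ne x ≤ w.η := by
  filter_upwards [h.sizes, h.close] with x hx hc
  obtain ⟨-, -, -, -, -, -, -, -, -, -, -, s1, s2, -⟩ := hx
  obtain ⟨c1, c2, c3, c4, c5, c6⟩ := hc
  have g0 := hS.ob.g_nn x
  have u1 : |w.f.e1 x| ≤ S.g x + w.η := by
    have := abs_le.1 c2
    rw [abs_le]; constructor <;> linarith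
  have u3 : |w.f.e3 x| ≤ S.g x + w.η := by
    have := abs_le.1 c4
    rw [abs_le]; constructor <;> linarith
  have u4 : |w.f.d x| ≤ |S.u x| + w.η := by
    have := abs_sub_abs_le_abs_sub (w.f.d x) (S.u x)
    linarith
  exact ⟨by linarith, by linarith, by linarith [(abs_le.1 c1).1], c5, c6⟩

/-- The level far out. -/
theorem Adm.far (hS : S.Ok) (h : Adm S w) (hl : 0 < w.l) {x : X} (h1 : 6 * S.D ≤ ‖x‖)
    (h2 : 80 * S.D / S.δ ≤ ‖x‖) : a0 w.μ w.γ x - S.δ / 8 ≤ aa S.D w.m2 x ∧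
      aa S.D w.m2 x ≤ a0 w.μ w.γ x + S.δ / 8 := by
  obtain ⟨v1, v2, v3, v4, -⟩ := bar4_lev hS h hl h1 h2
  obtain ⟨v0, v1⟩ := abs_le.1 v1
  have := h.δ_pos
  rw [h.a_d]
  constructor <;> linarith

theorem Dy.O_rf (w : Dy) (S : Sd) (s : ℝ) (x : X) : |w.O S s (rf x)| = |w.O S s x| := by
  unfold Dy.O
  rw [Oo_rf, abs_neg]

theorem evt_sq (S : Sd) (K : ℝ) {a : ℝ} (ha : 0 < a) : Evt S fun w => w.l * K ≤ a * √w.l :=
  (evt_sqrt S (a := a / (|K| + 1)) (by positivity)).mono fun w hw h => by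
    have h1 := h.1
    rw [div_mul_eq_mul_div, le_div_iff₀ (by positivity)] at h1
    nlinarith [mul_le_mul_of_nonneg_left (le_abs_self K) hw.l_pos.le, hw.l_pos]

theorem evt_l (S : Sd) (K : ℝ) {a : ℝ} (ha : 0 < a) : Evt S fun w => w.l * K ≤ a :=
  (evt_le S (a := a / (|K| + 1)) (by positivity)).mono fun w hw h => by
    have h1 := h.2.2
    rw [le_div_iff₀ (by positivity)] at h1
    nlinarith [mul_le_mul_of_nonneg_left (le_abs_self K) hw.l_pos.le, hw.l_pos]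

theorem Par.pL_le {D μ γ δ : ℝ} (h : Par D μ γ 0) {x : X} (hx : 6 * D ≤ ‖x‖) (hδ : 0 < δ)
    (hδ1 : δ ≤ 1) : 0 < pL D μ γ δ x ∧ pL D μ γ δ x ≤ 2 * D / δ ^ 2 * ex (1 / 2) x ∧
      0 < pU D μ γ δ x ∧ T1 D μ γ x ≤ δ * pU D μ γ δ x := by
  have hD := h.D_ge
  have x0 := ex_pos (1 / 2) x
  have oe := (h.Oe_exp hx).2
  have r1 : 1 ≤ ‖x‖ := by linarith
  obtain ⟨t0, t1, t2, -⟩ := h.T1_eq hx
  have u3 : T1 D μ γ x ≤ ex (1 / 2) x := by
    rw [t0]
    refine (mul_le_of_le_one_left (abs_nonneg _) ?_).trans ((abs_Oo_le _ _ _ _ _).trans oe)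
    rw [div_le_one (by positivity)]
    exact (geo hD hx).2.2.2.2.1.trans (le_self_pow₀ r1 (by norm_num))
  have u4 : T2 D μ γ x ≤ D * ex (1 / 2) x :=
    mul_le_mul (div_le_self (by linarith) (one_le_pow₀ r1)) oe (Oe_pos _ _ _ _ _).le (by linarith)
  refine ⟨by unfold pL; positivity, ?_, by unfold pU; positivity, ?_⟩
  · have : pL D μ γ δ x = (δ * T1 D μ γ x + T2 D μ γ x / 20) / δ ^ 2 := by
      unfold pL; field_simp
    rw [this, div_mul_eq_mul_div]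
    refine div_le_div_of_nonneg_right ?_ (by positivity)
    nlinarith [mul_le_mul_of_nonneg_left u3 hδ.le,
      mul_le_mul_of_nonneg_right (show δ ≤ D by linarith) x0.le]
  · have : δ * pU D μ γ δ x = T1 D μ γ x + 3 * T2 D μ γ x / δ := by unfold pU; field_simp
    rw [this]
    exact le_add_of_nonneg_right (by positivity)

/-- Lower bounds of the upper barrier. -/
theorem Adm.ebar_ge (hS : S.Ok) (h : Adm S w) (hl : 0 < w.l) {x : X} (hx : 6 * S.D ≤ ‖x‖) :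
    ex (13 / 10) x ≤ w.Eu S x ∧ w.Eu S x ≤ S.Kb * w.Eu S x ∧ S.Kb * w.Eu S x ≤ w.ebar S x ∧
      tau x ≤ w.ebar S x ∧ 0 < w.l * S.K2 * pU S.D w.μ w.γ S.δ x ∧ 0 ≤ w.t1 S x ∧
      w.l * S.K2 * w.t1 S x ≤ S.δ * (w.l * S.K2 * pU S.D w.μ w.γ S.δ x) := by
  obtain ⟨hD, hKb, hK2, -⟩ := hS.consts
  obtain ⟨-, -, p0, p1⟩ := h.par.pL_le hx h.δ_pos (by linarith [h.δ_le])
  have e1 : ex (13 / 10) x ≤ w.Eu S x :=
    (ex_anti (by norm_num) x).trans (h.parU.neg20.Oe_exp hx).1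
  have e0 : 0 < w.Eu S x := Oe_pos _ _ _ _ _
  have e2 : w.Eu S x ≤ S.Kb * w.Eu S x := le_mul_of_one_le_left e0.le (by linarith)
  have e3 : 0 < w.l * S.K2 * pU S.D w.μ w.γ S.δ x := by positivity
  have e4 : S.Kb * w.Eu S x ≤ w.ebar S x := le_add_of_nonneg_right e3.le
  refine ⟨e1, e2, e4, by linarith [tau_le x], e3, (h.par.T1_eq hx).2.1, ?_⟩
  have := mul_le_mul_of_nonneg_left p1 (show 0 ≤ w.l * S.K2 by positivity)
  unfold Dy.t1
  linarith

/-- Products with `e^{-0.4 r}`. -/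
theorem ex_mul_le {M t : ℝ} {x : X} (h : t ≤ M * ex (9 / 10) x) :
    ex (2 / 5) x * t ≤ M * ex (13 / 10) x := by
  have e2 : ex (13 / 10) x = ex (2 / 5) x * ex (9 / 10) x := by rw [← ex_add]; norm_num
  have := mul_le_mul_of_nonneg_left h (ex_pos (2 / 5) x).le
  rw [e2]
  linarith

theorem z_div_le {x : X} (hx : 1 ≤ ‖x‖) {k : ℕ} (hk : k ≠ 0) : |x 2| / ‖x‖ ^ k ≤ 1 := by
  rw [div_le_one (by positivity)]
  exact (PiLp.norm_apply_le x 2).trans (le_self_pow₀ hx hk)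

end Crest.Agent.R335
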