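/-
R335/PR/Pass: the two passes of the decay argument
Skeleton by helper48 (row 335); keep the statements unchanged, add any helper lemmas you like.
-/
import Crest.Agent.R335.PR.H

set_option autoImplicit false
set_option linter.unusedSectionVars false
set_option linter.unusedVariables false
set_option linter.unusedSimpArgs false

noncomputable section

namespace Crest.Agent.R335

open MeasureTheory Set Filter Topology Metric
open scoped ENNReal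

open Crest.Agent.R338 (pd lap)

variable {S : Sd}

theorem pass_L2 {w : Dy} (hc : Ch S w) {y : X → ℝ} (hy : LH eX y)
    (h : ∀ᵐ x : X, 0 ≤ y x ∧ y x ≤ w.f.R x) : MemLp y 2 volume :=
  hc.hR.1.of_le hy.1.1.aesm (h.mono fun x hx => by
    rw [Real.norm_eq_abs, Real.norm_eq_abs, abs_of_nonneg hx.1]
    exact hx.2.trans (le_abs_self _))

theorem pass_w1 (hS : S.Ok) {w : Dy} (ha : Adm S w) {x : X} (hx : 6 * S.D ≤ ‖x‖) (hz : 0 < x 2) :
    1 / (10 ^ 8 * S.Kb) * (4 * (w.E S 0 x / ‖x‖ ^ 3)) ≤ w.w1 S x := by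
  obtain ⟨hD, hKb, -⟩ := hS.consts
  have r1 : 1 ≤ ‖x‖ := by linarith
  have e0 : 0 < w.E S 0 x := Oe_pos _ _ _ _ _
  have H0 : 0 < w.E S 0 x / ‖x‖ ^ 3 := by positivity
  have o0 : 0 ≤ w.O S (-(20 * S.D)) x := ha.par.neg20.Oo_nonneg hx hz.le
  have t2 : tau2 S.D w.μ w.γ x = Real.exp (-x 2 ^ 2) * (w.E S 0 x / ‖x‖ ^ 3) := rfl
  have ta := tau_pos x
  have key : w.E S 0 x / ‖x‖ ^ 3 / 240 ≤
      w.O S (-(20 * S.D)) x + tau x + tau2 S.D w.μ w.γ x / 10 := by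
    rcases le_total (x 2) 1 with h | h
    · have : 1 / 3 ≤ Real.exp (-x 2 ^ 2) :=
        le_trans (b := Real.exp (-1)) (by linarith [Real.exp_neg_one_gt_d9])
          (Real.exp_le_exp.2 (by nlinarith))
      nlinarith [mul_le_mul_of_nonneg_right this H0.le]
    · have o1 : |x 2| / ‖x‖ * w.E S 0 x ≤ 4 * |w.O S 0 x| := (ha.par.abs_Oo hx).1
      have o2 : w.O S 0 x ≤ 60 * w.O S (-(20 * S.D)) x := ((ha.par.neg20.cmp_s hx).2.2 hz.le).2
      have o3 : 0 ≤ w.O S 0 x := ha.par.Oo_nonneg hx hz.le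
      rw [abs_of_pos hz, abs_of_nonneg o3] at o1
      have o4 : w.E S 0 x / ‖x‖ ^ 3 ≤ x 2 / ‖x‖ * w.E S 0 x := by
        rw [div_mul_eq_mul_div]
        exact div_le_div₀ (by positivity) (le_mul_of_one_le_left e0.le h) (by linarith)
          (le_self_pow₀ r1 (by norm_num))
      have : 0 < tau2 S.D w.μ w.γ x := by rw [t2]; positivity
      linarith
  calc _ = 1 / (10 ^ 5 * S.Kb) * (w.E S 0 x / ‖x‖ ^ 3 / 250) := by ring
    _ ≤ _ := by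
      unfold Dy.w1
      gcongr
      linarith

theorem pass_eps {K H : ℝ} (hK : 1000 ≤ K) (hH : 0 ≤ H) :
    1 / (10 ^ 8 * K ^ 2) * H ≤ 1 / (10 ^ 8 * K) * H ∧ 0 ≤ 1 / (10 ^ 8 * K) * H ∧
      1 / (10 ^ 8 * K ^ 2) * H ≤ H := by
  refine ⟨by gcongr; nlinarith, by positivity, mul_le_of_le_one_left hH ?_⟩
  rw [div_le_one (by positivity)]
  nlinarith

theorem pass_one_aux (hS : S.Ok) (C2 : ℝ) {r R0 : ℝ} (hr : 6 * S.D ≤ r) (hR : r ≤ R0) :
    ∃ ϱ : ℝ, 0 < ϱ ∧ ϱ ≤ 1 ∧ ∀ (K5 : ℝ) (w : Dy), Ch S w → Out S r K5 w →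
      PN S C2 (1 / (10 ^ 8 * S.Kb ^ 2)) r w → ∀ y a : X → ℝ, LH eX y →
      (∀ᵐ x : X, 0 ≤ y x ∧ y x ≤ w.f.R x) → LI (Hs ∩ Ext R0) a →
      (∀ x, aS S.D w.m2 w.l S.M x ≤ a x) → Sub eX (Hs ∩ Ext R0) y a 0 →
      (∀ᵐ x : X, R0 ≤ ‖x‖ → ‖x‖ ≤ R0 + 1 → ϱ ≤ x 2 → y x ≤ C2 * S.g x) → BdH R0 y (w.w1 S) := by
  obtain ⟨hD, hKb, -⟩ := hS.consts
  have R1 : 0 < R0 + 1 := by linarith
  refine ⟨min 1 (1 / (10 ^ 10 * S.Kb ^ 2 * S.D * (R0 + 1) ^ 2)), lt_min one_pos (by positivity),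
    min_le_left _ _, fun K5 w hc ho hn y a hy hyR la ha hsub hcol => ?_⟩
  have ad := ho.adm
  have cw : ∀ x : X, R0 < ‖x‖ → ContDiffAt ℝ 2
      (fun y => w.O S (-(20 * S.D)) y + tau y + tau2 S.D w.μ w.γ y / 10) x := fun x hx =>
    ((contDiffAt_Oo _ _ _ (by linarith) (by linarith)).add
      (contDiffAt_tau (norm_pos_iff.1 (by linarith)))).add
      ((contDiffAt_tau2 _ _ (by linarith) (by linarith)).div_const _)
  have H0 : ∀ x : X, 0 ≤ w.E S 0 x / ‖x‖ ^ 3 := fun x => by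
    have : 0 < w.E S 0 x := Oe_pos _ _ _ _ _
    positivity
  refine cmpH (C := 0) (q := w.f.O) le_rfl hy (pass_L2 hc hy hyR) hsub la (LI.const 0)
    (fun x hx => contDiffAt_const.mul (cw x hx)) (fun x hx hz => ?_) ?_
    (Eventually.of_forall fun x hx hz _ => ?_) hc.strip hc.hO.hl.1 ?_
  · linarith [pass_w1 hS ad (x := x) (by linarith) hz, (pass_eps hKb (H0 x)).2.1]
  · filter_upwards [hcol, hyR, hc.sizes, ho.p3, ho.p6, hn.2.1] with x h1 h2 h3 h4 h6 h7 a1 a2 hz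
    have hx : r < ‖x‖ := by linarith
    have w1 := pass_w1 hS ad (x := x) (by linarith) hz
    obtain ⟨q1, q2, -⟩ := pass_eps hKb (H0 x)
    rcases le_total (min 1 (1 / (10 ^ 10 * S.Kb ^ 2 * S.D * (R0 + 1) ^ 2))) (x 2) with h | h
    · linarith [h1 a1.le a2 h, h7 hx.le]
    · have z1 := h.trans (min_le_left _ _)
      have z2 := h.trans (min_le_right _ _)
      have e1 := hn.1 x hx.le (by rwa [abs_of_pos hz])
      have e2 := mul_le_mul_of_nonneg_left (hn.2.2 x hx.le) (show 0 ≤ S.Kb by linarith)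
      have e3 : S.Kb * (1 / (10 ^ 8 * S.Kb ^ 2) * (w.E S 0 x / ‖x‖ ^ 3)) =
          1 / (10 ^ 8 * S.Kb) * (w.E S 0 x / ‖x‖ ^ 3) := by field_simp
      have o1 : |w.O S 0 x| ≤ 3 * (S.D * |x 2| / ‖x‖) * w.E S 0 x :=
        (ad.par.abs_Oo (by linarith)).2
      have hr0 : 0 < ‖x‖ := by linarith
      have o2 : S.Kb * (60 * |w.O S 0 x|) ≤ 1 / (10 ^ 8 * S.Kb) * (2 * (w.E S 0 x / ‖x‖ ^ 3)) :=
        calc _ ≤ S.Kb * (60 * (3 * (S.D * |x 2| / ‖x‖) * w.E S 0 x)) := by gcongr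
          _ = 180 * S.Kb * S.D * x 2 * ‖x‖ ^ 2 * (w.E S 0 x / ‖x‖ ^ 3) := by
              rw [abs_of_pos hz]; field_simp; ring
          _ ≤ 200 * S.Kb * S.D * (1 / (10 ^ 10 * S.Kb ^ 2 * S.D * (R0 + 1) ^ 2)) * (R0 + 1) ^ 2 *
              (w.E S 0 x / ‖x‖ ^ 3) := by
              gcongr
              · exact H0 x
              · norm_num
          _ = _ := by field_simp; ring
      linarith [h2.2, h3.2.2.2.2.2.2.2.2.2.2.1, h4 hx, h6 hx]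
  · obtain ⟨v1, v2, -⟩ := ad.levels hc.l_pos (x := x) (by linarith)
    refine ⟨by linarith [ha x], ?_⟩
    have l1 : lap (fun y => w.O S (-(20 * S.D)) y + tau y + tau2 S.D w.μ w.γ y / 10) x ≤
        a x * (w.O S (-(20 * S.D)) x + tau x + tau2 S.D w.μ w.γ x / 10) :=
      ad.par.pass1 (by linarith) hz.le (v1.trans (ha x))
    have l2 := mul_le_mul_of_nonneg_left l1 (show 0 ≤ 1 / (10 ^ 5 * S.Kb) by positivity)
    rw [← lap_const_mul (cw x (by linarith))] at l2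
    rw [Pi.zero_apply, add_zero]
    exact l2.trans_eq (by unfold Dy.w1; ring)
  · filter_upwards [hyR, hc.sizes, ho.p6] with x h2 h3 h6 a1 hz z1
    have hx : r < ‖x‖ := by linarith
    obtain ⟨q1, q2, -⟩ := pass_eps hKb (H0 x)
    linarith [pass_w1 hS ad (x := x) (by linarith) hz, h2.2, h3.2.2.2.2.2.2.2.2.2.2.1, h6 hx,
      hn.1 x hx.le (by rw [abs_of_pos hz]; exact z1.le)]

theorem pass_two_aux (hS : S.Ok) (C2 : ℝ) : ∀ᶠ r : ℝ in atTop, ∀ (R0 K5 : ℝ) (w : Dy), r ≤ R0 →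
    Ch S w → Out S r K5 w → PN S C2 (1 / (10 ^ 8 * S.Kb ^ 2)) r w → ∀ y κ : X → ℝ, LH eX y →
    LI (Hs ∩ Ext R0) (fun x => aS S.D w.m2 w.l S.M x + S.δ * κ x) →
    (∀ x, 0 ≤ κ x ∧ κ x ≤ 1) → (∀ᵐ x : X, 0 ≤ y x ∧ y x ≤ w.f.R x) →
    Sub eX (Hs ∩ Ext R0) y (fun x => aS S.D w.m2 w.l S.M x + S.δ * κ x) 0 →
    (∀ᵐ x : X, 0 < x 2 → y x ≤ w.f.R x / 4 → 1 / 2 ≤ κ x) → BdH R0 y (w.w1 S) →
    ∃ Cw : ℝ, BdH R0 y fun x => Cw * (w.E S 0 x / ‖x‖ ^ 2) := by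
  obtain ⟨hD, hKb, -, -, -, hδ, -⟩ := hS.consts
  filter_upwards [eventually_ge_atTop (6 * S.D), eventually_ge_atTop (80 * S.D / S.δ),
    eventually_ge_atTop (1000 / S.δ)]
    with r hr r2 r3 R0 K5 w hR hc ho hn y κ hy la hκ hyR hsub hq hw
  have ad := ho.adm
  have hC : 1 ≤ 60 * S.Kb * (R0 + 1) ^ 2 :=
    one_le_mul_of_one_le_of_one_le (by linarith) (one_le_pow₀ (by linarith))
  refine ⟨60 * S.Kb * (R0 + 1) ^ 2, ?_⟩
  set Cw := 60 * S.Kb * (R0 + 1) ^ 2 with hCw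
  have ce : ∀ x : X, R0 < ‖x‖ → ContDiffAt ℝ 2 (fun y => w.E S 0 y / ‖y‖ ^ 2) x := fun x hx =>
    contDiffAt_div_pow (contDiffAt_Oe _ _ _ (by linarith) (by linarith))
      (norm_pos_iff.1 (by linarith)) 2
  have hH : ∀ x : X, R0 < ‖x‖ → 0 ≤ w.E S 0 x / ‖x‖ ^ 3 ∧
      w.E S 0 x / ‖x‖ ^ 3 ≤ Cw * (w.E S 0 x / ‖x‖ ^ 2) := fun x hx => by
    have e0 : 0 < w.E S 0 x := Oe_pos _ _ _ _ _
    have r1 : 1 ≤ ‖x‖ := by linarith
    refine ⟨by positivity, le_trans ?_ (le_mul_of_one_le_left (by positivity) hC)⟩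
    gcongr
    norm_num
  refine cmpH (C := 0) (q := w.f.O) le_rfl hy (pass_L2 hc hy hyR) hsub la (LI.const 0)
    (fun x hx => contDiffAt_const.mul (ce x hx))
    (fun x hx hz => by linarith [(hH x hx).1, (hH x hx).2]) ?_ ?_ hc.strip hc.hO.hl.1 ?_
  · filter_upwards [hyR, ho.p1] with x h2 h1 a1 a2 hz
    have e0 : 0 < w.E S 0 x := Oe_pos _ _ _ _ _
    have hr0 : 0 < ‖x‖ := by linarith
    refine h2.2.trans ((h1 (by linarith)).trans ?_)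
    calc _ = 60 * S.Kb * ‖x‖ ^ 2 * (w.E S 0 x / ‖x‖ ^ 2) := by field_simp
      _ ≤ _ := by rw [hCw]; gcongr
  · filter_upwards [hq, hw, ho.p4, hc.sizes] with x h1 h2 h4 h3 a1 hz hlt
    have hx : r < ‖x‖ := by linarith
    have hx6 : 6 * S.D ≤ ‖x‖ := by linarith
    obtain ⟨v1, v2, -⟩ := ad.levels hc.l_pos hx6
    refine ⟨by linarith [mul_nonneg hδ.le (hκ x).1], ?_⟩
    obtain ⟨H0, H1⟩ := hH x (by linarith)
    rcases le_or_gt (y x) (w.f.R x / 4) with h | h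
    · have k1 := mul_le_mul_of_nonneg_left (h1 hz h) hδ.le
      have l1 : lap (fun y => w.E S 0 y / ‖y‖ ^ 2) x - _ * (w.E S 0 x / ‖x‖ ^ 2) ≤
        _ * (w.E S 0 x / ‖x‖ ^ 2) := (abs_le.1 (ad.par.lap_Oe_div hx6 (k := 2) (by norm_num))).2
      have s := bar3_small hδ (r3.trans hx.le)
      have s2 := (bar4_lev hS ad hc.l_pos hx6 (r2.trans hx.le)).2.1
      have G0 : 0 ≤ w.E S 0 x / ‖x‖ ^ 2 := by
        have e0 : 0 < w.E S 0 x := Oe_pos _ _ _ _ _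
        positivity
      have l2 : a0 w.μ w.γ x + 100 / ‖x‖ ≤ aS S.D w.m2 w.l S.M x + S.δ * κ x := by
        rw [mul_div_assoc] at v1 s2
        linarith
      have l3 := mul_le_mul_of_nonneg_right l2 G0
      have l4 := mul_le_mul_of_nonneg_left
        (show lap (fun y => w.E S 0 y / ‖y‖ ^ 2) x ≤
          (aS S.D w.m2 w.l S.M x + S.δ * κ x) * (w.E S 0 x / ‖x‖ ^ 2) by linarith)
        (zero_le_one.trans hC)
      rw [lap_const_mul (ce x (by linarith)), Pi.zero_apply]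
      linarith
    · exfalso
      have t1 : tau x ≤ w.E S 0 x / ‖x‖ ^ 3 := (hn.2.2 x hx.le).trans (pass_eps hKb H0).2.2
      have t2 : tau2 S.D w.μ w.γ x ≤ w.E S 0 x / ‖x‖ ^ 3 :=
        mul_le_of_le_one_left H0 (bar4_g (x 2)).2.1
      have o2 : w.O S (-(20 * S.D)) x ≤ 60 * w.O S 0 x := ((ad.par.neg20.cmp_s hx6).2.2 hz.le).1
      have u1 : y x ≤ 1 / (10 ^ 5 * S.Kb) * (60 * w.O S 0 x + 2 * (w.E S 0 x / ‖x‖ ^ 3)) :=
        (h2 (by linarith) hz).trans (mul_le_mul_of_nonneg_left (by linarith) (by positivity))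
      have u2 : 1 / (10 ^ 5 * S.Kb) * (60 * w.O S 0 x + 2 * (w.E S 0 x / ‖x‖ ^ 3)) =
          36 / 1000 * (w.O S 0 x / (60 * S.Kb)) +
            1 / (10 ^ 5 * S.Kb) * (2 * (w.E S 0 x / ‖x‖ ^ 3)) := by field_simp; ring
      have u3 : 1 / (10 ^ 5 * S.Kb) * (2 * (w.E S 0 x / ‖x‖ ^ 3)) ≤
          1 / 1000 * (2 * (w.E S 0 x / ‖x‖ ^ 3)) := by
        gcongr
        linarith
      linarith [h4 hx hz, le_abs_self (w.f.d x), h3.2.1, h3.2.2.1]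
  · filter_upwards [hyR, hc.sizes, ho.p6] with x h2 h3 h6 a1 hz z1
    have hx : r < ‖x‖ := by linarith
    obtain ⟨H0, H1⟩ := hH x (by linarith)
    linarith [(pass_eps hKb H0).2.2, h2.2, h3.2.2.2.2.2.2.2.2.2.2.1, h6 hx,
      hn.1 x hx.le (by rw [abs_of_pos hz]; exact z1.le)]

end Crest.Agent.R335
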