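/-
R335/PR/Slab: the profile in the slab, the lower bound, comparability of R
Skeleton by helper48 (row 335); keep the statements unchanged, add any helper lemmas you like.
-/
import Crest.Agent.R335.PR.H

set_option autoImplicit false
set_option linter.unusedSectionVars false
set_option linter.unusedVariables false
set_option linter.unusedSimpArgs false

noncomputable section

namespace Crest.Agent.R335

open MeasureTheory Set Filter Topology Metric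
open scoped ENNReal

open Crest.Agent.R338 (pd lap)

variable {S : Sd}

theorem low_e (hS : S.Ok) {r K5 : ℝ} (hr : 6 * S.D ≤ r) {w : Dy} (h : Ch S w) (ho : Out S r K5 w)
    (hp : LocPos w.f.e) {κ : ℝ} (hκ : 0 < κ) (hκ' : w.m2 < κ ^ 2) :
    ∃ c' : ℝ, 0 < c' ∧ ∀ᵐ x : X, |x 2| ≤ 1 → c' * ex κ x ≤ w.f.e x := by
  obtain ⟨hD, hKb, -, hK3, -, hδ, -⟩ := hS.consts
  have ha := ho.adm
  have l0 := h.l_pos
  have hμ : w.μ < κ := (Real.sqrt_lt' hκ).2 hκ'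
  obtain ⟨r1, h1⟩ := ((ev_poly_exp 4 (a := κ - w.μ) (by linarith) one_pos).and
    (eventually_ge_atTop r)).exists
  obtain ⟨c, hc, h2⟩ := hp r1
  set A := w.l / S.K3 * (S.D / (20 * S.δ ^ 2)) * Real.exp (-w.μ * S.D) with hA
  have A0 : 0 < A := by positivity
  refine ⟨min c A, lt_min hc A0, ?_⟩
  filter_upwards [h2, ho.p11] with x a1 a2 _
  have x0 := ex_pos κ x
  rcases le_or_gt ‖x‖ r1 with hx | hx
  · exact (mul_le_of_le_one_right (lt_min hc A0).le (ex_le_one hκ.le x)).trans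
      ((min_le_left _ _).trans (a1 hx))
  · have hx6 : 6 * S.D ≤ ‖x‖ := by linarith [h1.2]
    have hr0 : 0 < ‖x‖ := by linarith
    obtain ⟨-, t1, t2, -⟩ := ha.par.T1_eq hx6
    have e1 := ha.par.Oe_lower hx6
    have e2 : ex κ x = ex (κ - w.μ) x * ex w.μ x := by rw [← ex_add]; ring_nf
    have e3 : ex (κ - w.μ) x ≤ 1 / ‖x‖ ^ 4 := by
      rw [le_div_iff₀ (by positivity), mul_comm]; exact h1.1 x hx.le
    have e4 : Real.exp (-w.μ * S.D) * ex w.μ x = Real.exp (-w.μ * (‖x‖ + S.D)) := by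
      unfold ex; rw [← Real.exp_add]; ring_nf
    have e5 := ex_pos w.μ x
    have e6 : 0 < w.El S x / S.Kb := div_pos (Oe_pos _ _ _ _ _) (by linarith)
    have e7 : 0 ≤ w.l / S.K3 * (T1 S.D w.μ w.γ x / S.δ) := by positivity
    calc min c A * ex κ x ≤ A * (1 / ‖x‖ ^ 4 * ex w.μ x) := by
          rw [e2]
          exact mul_le_mul (min_le_right _ _) (by gcongr) (e2 ▸ x0.le) A0.le
      _ = w.l / S.K3 * (S.D / ‖x‖ ^ 4 * (Real.exp (-w.μ * S.D) * ex w.μ x) / (20 * S.δ ^ 2)) := by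
          rw [hA]; ring
      _ ≤ w.l / S.K3 * (T2 S.D w.μ w.γ x / (20 * S.δ ^ 2)) := by rw [e4]; unfold T2; gcongr
      _ ≤ w.elow S x := by unfold Dy.elow pL; linarith
      _ ≤ _ := (a2 (by linarith [h1.2])).1

theorem R_away (hS : S.Ok) {r K5 : ℝ} (hr : 6 * S.D ≤ r) (hK5 : 1 ≤ K5) {w : Dy} (h : Ch S w)
    (ho : Out S r K5 w) {t : ℝ} (ht : 0 < t) (ht1 : t ≤ 1) : ∃ C r1 : ℝ, 0 < C ∧ r < r1 ∧
      ∀ᵐ x : X, t ≤ x 2 → r1 ≤ ‖x‖ → w.O S 0 x / (120 * S.Kb) ≤ w.f.R x ∧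
        w.f.R x ≤ C * w.O S 0 x ∧ t / (4 * ‖x‖) * w.E S 0 x ≤ w.O S 0 x := by
  obtain ⟨hD, hKb, -⟩ := hS.consts
  have ha := ho.adm
  obtain ⟨r1, h1⟩ := ((ev_poly_exp 1 (a := 1 / 5) (ε := t / (480 * S.Kb)) (by norm_num)
    (by positivity)).and (eventually_gt_atTop r)).exists
  refine ⟨4 * K5 / t + 61 * S.Kb, r1, by positivity, h1.2, ?_⟩
  filter_upwards [ho.p2, ho.p3, ho.p4, h.sizes] with x p2 p3 p4 hs hz hx
  have hx' : r < ‖x‖ := by linarith [h1.2]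
  have hx6 : 6 * S.D ≤ ‖x‖ := by linarith
  have hr0 : 0 < ‖x‖ := by linarith
  have z0 : 0 < x 2 := by linarith
  have e0 : 0 < w.E S 0 x := Oe_pos _ _ _ _ _
  have o0 : 0 ≤ w.O S 0 x := ha.par.Oo_nonneg hx6 z0.le
  have o1 : |x 2| / ‖x‖ * w.E S 0 x ≤ 4 * |w.O S 0 x| := (ha.par.abs_Oo hx6).1
  rw [abs_of_pos z0, abs_of_nonneg o0] at o1
  have o2 : t / (4 * ‖x‖) * w.E S 0 x ≤ w.O S 0 x :=
    calc _ ≤ x 2 / (4 * ‖x‖) * w.E S 0 x := by gcongr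
      _ = x 2 / ‖x‖ * w.E S 0 x / 4 := by ring
      _ ≤ _ := by linarith
  have t1 : tau x ≤ w.O S 0 x / (120 * S.Kb) := by
    have e1 : ex (11 / 10) x ≤ w.E S 0 x := (ha.par.Oe_exp hx6).1
    have e2 : ex (13 / 10) x = ex (1 / 5) x * ex (11 / 10) x := by rw [← ex_add]; norm_num
    have e3 : ex (1 / 5) x ≤ t / (480 * S.Kb) / ‖x‖ := by
      rw [le_div_iff₀ hr0, mul_comm]; simpa only [pow_one] using h1.1 x hx
    have x1 := ex_pos (11 / 10) x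
    calc _ ≤ t / (480 * S.Kb) / ‖x‖ * w.E S 0 x := (tau_le x).trans (by rw [e2]; gcongr)
      _ = t / (4 * ‖x‖) * w.E S 0 x / (120 * S.Kb) := by ring
      _ ≤ _ := by gcongr
  have e4 : w.O S 0 x / (60 * S.Kb) = 2 * (w.O S 0 x / (120 * S.Kb)) := by ring
  refine ⟨by linarith [p4 hx' z0, le_abs_self (w.f.d x), hs.2.1, hs.2.2.1], ?_, o2⟩
  have u1 : K5 * (w.E S 0 x / ‖x‖) ≤ 4 * K5 / t * w.O S 0 x :=
    calc _ = 4 * K5 / t * (t / (4 * ‖x‖) * w.E S 0 x) := by field_simp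
      _ ≤ _ := by gcongr
  have u2 : tau x ≤ w.O S 0 x := t1.trans (div_le_self o0 (by linarith))
  have u3 := p3 hx'
  rw [abs_of_nonneg o0] at u3
  linarith [hs.2.2.2.2.2.2.2.2.2.2.1, p2 hx', mul_le_mul_of_nonneg_left u2 (show 0 ≤ S.Kb by linarith)]

theorem comp_R (hS : S.Ok) {r K5 : ℝ} (hr : 6 * S.D ≤ r) (hK5 : 1 ≤ K5) {w : Dy} (h : Ch S w)
    (ho : Out S r K5 w) {t : ℝ} (ht : 0 < t) (ht1 : t ≤ 1) : ∃ Ct r1 : ℝ, ∀ x0 : X,
      2 * t ≤ x0 2 → r1 ≤ ‖x0‖ →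
        ∃ m : ℝ, 0 < m ∧ ∀ᵐ x : X, x ∈ ball x0 t → m ≤ w.f.R x ∧ w.f.R x ≤ Ct * m := by
  obtain ⟨hD, hKb, -⟩ := hS.consts
  have ha := ho.adm
  obtain ⟨C, r1, hC, h1, h2⟩ := R_away hS hr hK5 h ho ht ht1
  refine ⟨120 * C * (19200 * S.Kb), r1 + 1, fun x0 hz0 hx0 => ?_⟩
  have e0 : 0 < w.E S 0 x0 := Oe_pos _ _ _ _ _
  have r0 : 0 < ‖x0‖ := by linarith
  have z0 : 0 < x0 2 := by linarith
  have φ0 : 0 < min 1 (S.D * x0 2 / ‖x0‖) := lt_min one_pos (by positivity)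
  refine ⟨min 1 (S.D * x0 2 / ‖x0‖) * w.E S 0 x0 / (19200 * S.Kb), by positivity, ?_⟩
  filter_upwards [h2] with x hx hb
  rw [mem_ball, dist_eq_norm] at hb
  have n1 := norm_le_norm_add_norm_sub' x x0
  have n2 := norm_le_norm_add_norm_sub x0 x
  have n3 := norm_le_norm_add_norm_sub' x0 x
  rw [norm_sub_rev] at n3
  have n4 : |x 2 - x0 2| ≤ t := (PiLp.norm_apply_le (x - x0) 2).trans hb.le
  obtain ⟨n5, n6⟩ := abs_le.1 n4
  obtain ⟨c1, c2, -⟩ := hx (by linarith) (by linarith)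
  have hx6 : 6 * S.D ≤ ‖x‖ := by linarith
  have hr0 : 0 < ‖x‖ := by linarith
  have z1 : 0 < x 2 := by linarith
  have e1 : 0 < w.E S 0 x := Oe_pos _ _ _ _ _
  have b1 : w.E S 0 x ≤ 10 * w.E S 0 x0 := ha.par.near hx6 (by linarith) (by linarith)
  have b2 : w.E S 0 x0 ≤ 10 * w.E S 0 x :=
    ha.par.near (by linarith) hx6 (by rw [norm_sub_rev]; linarith)
  have f : ∀ a b : ℝ, a ≤ 4 * b → min 1 a ≤ 4 * min 1 b := fun a b hab => by
    rcases le_total 1 b with h | h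
    · rw [min_eq_left h]; linarith [min_le_left 1 a]
    · rw [min_eq_right h]; linarith [min_le_right 1 a]
  have g : ∀ z z' ρ ρ' : ℝ, 0 < z' → z ≤ 2 * z' → 0 < ρ → 0 < ρ' → ρ' ≤ 2 * ρ →
      S.D * z / ρ ≤ 4 * (S.D * z' / ρ') := fun z z' ρ ρ' a1 a2 a3 a4 a5 =>
    calc _ ≤ S.D * (2 * z') / (ρ' / 2) := by gcongr; linarith
      _ = _ := by ring
  have p1 := f _ _ (g (x0 2) (x 2) ‖x0‖ ‖x‖ z1 (by linarith) r0 hr0 (by linarith))
  have p2 := f _ _ (g (x 2) (x0 2) ‖x‖ ‖x0‖ z0 (by linarith) hr0 r0 (by linarith))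
  have o1 : min 1 (S.D * x 2 / ‖x‖) / 4 * w.E S 0 x ≤ w.O S 0 x := (ha.par.Oo_size hx6 z1.le).1
  have o2 : w.O S 0 x ≤ 3 * min 1 (S.D * x 2 / ‖x‖) * w.E S 0 x := by
    rcases le_total 1 (S.D * x 2 / ‖x‖) with h | h
    · have : |w.O S 0 x| ≤ w.E S 0 x := abs_Oo_le _ _ _ _ _
      rw [min_eq_left h]; linarith [le_abs_self (w.O S 0 x)]
    · rw [min_eq_right h]; exact (ha.par.Oo_size hx6 z1.le).2.1
  constructor
  · calc _ ≤ 4 * min 1 (S.D * x 2 / ‖x‖) * (10 * w.E S 0 x) / (19200 * S.Kb) := by gcongr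
      _ = min 1 (S.D * x 2 / ‖x‖) / 4 * w.E S 0 x / (120 * S.Kb) := by ring
      _ ≤ w.O S 0 x / (120 * S.Kb) := by gcongr
      _ ≤ _ := c1
  · calc _ ≤ C * (3 * (4 * min 1 (S.D * x0 2 / ‖x0‖)) * (10 * w.E S 0 x0)) :=
          c2.trans (mul_le_mul_of_nonneg_left (o2.trans (by gcongr)) hC.le)
      _ = _ := by field_simp; ring

theorem slab_pi (hS : S.Ok) : ∀ᶠ r : ℝ in atTop, ∀ (K5 : ℝ) (w : Dy), Ch S w → Out S r K5 w →
    ∃ Pi : ℝ → ℝ, ContDiffOn ℝ 1 Pi (Ioi (2 * r / 2)) ∧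
      (∀ s, 2 * r / 2 < s → 0 < Pi s ∧ deriv Pi s ≤ -Pi s / 2) ∧
      ∀ᵐ x : X, |x 2| ≤ 3 → 2 * r ≤ sx x →
        Pi (sx x) ≤ w.f.e x ∧ w.f.e x ≤ 10 ^ 5 * S.K4 * Pi (sx x) := by
  obtain ⟨hD, hKb, -, hK3, hK4, hδ, hδ1, -⟩ := hS.consts
  filter_upwards [eventually_ge_atTop (6 * S.D), eventually_ge_atTop ((S.D + 3) ^ 2)]
    with r hr r2 K5 w hc ho
  have ha := ho.adm
  have l0 := hc.l_pos
  set A := w.l / S.K3 * (S.D / (20 * S.δ ^ 2)) with hA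
  have A0 : 0 < A := by positivity
  refine ⟨fun s => (Bf (√w.mL) (ga w.mL 2) 0 s / S.Kb + A * (Bf w.μ w.γ 0 s / s ^ 4)) / 200,
    ?_, fun s hs => ?_, ?_⟩
  · have sub : Ioi (2 * r / 2) ⊆ Ioi 0 := Ioi_subset_Ioi (by linarith)
    have c : ∀ μ γ, ContDiffOn ℝ 1 (Bf μ γ 0) (Ioi (2 * r / 2)) := fun μ γ =>
      ((contDiffOn_Bf μ γ 0).of_le (by norm_num)).mono sub
    exact (((c _ _).div_const _).add (contDiffOn_const.mul ((c _ _).div (contDiffOn_id.pow 4)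
      fun s hs => pow_ne_zero _ (ne_of_gt (sub hs))))).div_const _
  · have s0 : 0 < s := by linarith
    have b1 := Bf_pos (√w.mL) (ga w.mL 2) 0 s
    have b2 := Bf_pos w.μ w.γ 0 s
    have q1 : 0 < Bf (√w.mL) (ga w.mL 2) 0 s / S.Kb := by positivity
    have q2 : 0 < A * (Bf w.μ w.γ 0 s / s ^ 4) := by positivity
    refine ⟨by positivity, ?_⟩
    have d : HasDerivAt (fun s => (Bf (√w.mL) (ga w.mL 2) 0 s / S.Kb +
        A * (Bf w.μ w.γ 0 s / s ^ 4)) / 200)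
        ((ld (√w.mL) (ga w.mL 2) 0 s * (Bf (√w.mL) (ga w.mL 2) 0 s / S.Kb) +
          (ld w.μ w.γ 0 s - 4 / s) * (A * (Bf w.μ w.γ 0 s / s ^ 4))) / 200) s := by
      refine ((((hasDerivAt_Bf _ _ 0 s0).div_const S.Kb).add (((hasDerivAt_Bf _ _ 0 s0).div
        (hasDerivAt_pow 4 s) (pow_ne_zero _ s0.ne')).const_mul A)).div_const 200).congr_deriv ?_
      push_cast
      field_simp
    rw [d.deriv]
    have l1 := mul_le_mul_of_nonneg_right (ha.parL.ld (t := s) (by linarith)).2 q1.le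
    have l2 := mul_le_mul_of_nonneg_right (show ld w.μ w.γ 0 s - 4 / s ≤ -(98 / 100) by
      linarith [(ha.par.ld (t := s) (by linarith)).2, show 0 < 4 / s by positivity]) q2.le
    linarith
  · filter_upwards [ho.p11] with x h11 hz hs
    obtain ⟨s1, s2, s3, s4⟩ := ha.par.slab hz (by linarith)
    obtain ⟨-, -, s5, s6⟩ := ha.parL.slab hz (by linarith)
    have hx : r < ‖x‖ := by linarith
    have hx6 : 6 * S.D ≤ ‖x‖ := by linarith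
    have s0 : 0 < sx x := by linarith
    obtain ⟨c1, c2, -⟩ := h11 hx
    obtain ⟨-, t1, t2, t3⟩ := ha.par.T1_eq hx6
    obtain ⟨k1, k2, -⟩ := ha.parL.pos20.cmp_s hx6
    have b1 := Bf_pos (√w.mL) (ga w.mL 2) 0 (sx x)
    have b2 := Bf_pos w.μ w.γ 0 (sx x)
    have oe := Oe_pos S.D w.μ w.γ 0 x
    have q1 : 0 < Bf (√w.mL) (ga w.mL 2) 0 (sx x) / S.Kb := by positivity
    have q2 : 0 < A * (Bf w.μ w.γ 0 (sx x) / sx x ^ 4) := by positivity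
    have e1 : w.elow S x = w.El S x / S.Kb + w.l / S.K3 * (T1 S.D w.μ w.γ x / S.δ) +
        A * (Oe S.D w.μ w.γ 0 x / ‖x‖ ^ 4) := by
      rw [hA]; unfold Dy.elow pL T2; ring
    have u1 : Bf (√w.mL) (ga w.mL 2) 0 (sx x) / S.Kb ≤ 100 * (w.El S x / S.Kb) := by
      rw [← mul_div_assoc]; gcongr; unfold Dy.El; linarith
    have u2 : w.El S x / S.Kb ≤ 120 * (Bf (√w.mL) (ga w.mL 2) 0 (sx x) / S.Kb) := by
      rw [← mul_div_assoc]; gcongr; unfold Dy.El; linarith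
    have u3 : A * (Bf w.μ w.γ 0 (sx x) / sx x ^ 4) ≤ A * (32 * (Oe S.D w.μ w.γ 0 x / ‖x‖ ^ 4)) := by
      have : 0 < ‖x‖ := by linarith
      gcongr
      calc _ ≤ 2 * Oe S.D w.μ w.γ 0 x / (‖x‖ / 2) ^ 4 := by gcongr <;> linarith
        _ = _ := by ring
    have u4 : A * (Oe S.D w.μ w.γ 0 x / ‖x‖ ^ 4) ≤ A * (2 * Bf w.μ w.γ 0 (sx x) / sx x ^ 4) := by
      gcongr
    have u5 : 0 ≤ w.l / S.K3 * (T1 S.D w.μ w.γ x / S.δ) := by positivity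
    have u6 : w.l / S.K3 * (T1 S.D w.μ w.γ x / S.δ) ≤ A * (Oe S.D w.μ w.γ 0 x / ‖x‖ ^ 4) := by
      have z2 : x 2 ^ 2 ≤ 9 := by nlinarith [abs_nonneg (x 2), sq_abs (x 2)]
      have : 20 * S.δ * T1 S.D w.μ w.γ x ≤ T2 S.D w.μ w.γ x := by
        nlinarith [mul_le_mul_of_nonneg_right hδ1 t1, mul_le_mul_of_nonneg_right z2 t2.le]
      calc _ = w.l / S.K3 * (20 * S.δ * T1 S.D w.μ w.γ x / (20 * S.δ ^ 2)) := by field_simp
        _ ≤ w.l / S.K3 * (T2 S.D w.μ w.γ x / (20 * S.δ ^ 2)) := by gcongr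
        _ = _ := by rw [hA]; unfold T2; ring
    rw [mul_div_assoc 2] at u4
    refine ⟨by linarith, c2.trans ((ho.p10 x hx).trans ?_)⟩
    rw [mul_comm _ S.K4, mul_assoc]
    exact mul_le_mul_of_nonneg_left (by linarith) (by linarith)

end Crest.Agent.R335
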