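/-
R335/PR/Decay: decay of subsolutions below R
Skeleton by helper48 (row 335); keep the statements unchanged, add any helper lemmas you like.
-/
import Crest.Agent.R335.PR.Slab
import Crest.Agent.R335.PR.Pass

set_option autoImplicit false
set_option linter.unusedSectionVars false
set_option linter.unusedVariables false
set_option linter.unusedSimpArgs false

noncomputable section

namespace Crest.Agent.R335

open MeasureTheory Set Filter Topology Metric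
open scoped ENNReal

open Crest.Agent.R338 (pd lap)

variable {S : Sd}

/-- `Par.faster` with `gapU`, `gapg`, `ev_poly_exp`; for `|z| ≤ 1`: `pU ≤ 4 T2 / δ²`. -/
theorem evt_pn (hS : S.Ok) (C2 : ℝ) {ε : ℝ} (hε : 0 < ε) : ∀ᶠ r : ℝ in atTop,
    Evt S (PN S C2 ε r) := by
  obtain ⟨hD, hKb, hK2, -, -, hδ, hδ1, -⟩ := hS.consts
  have hK0 := hS.K0_ge
  have hA : 0 < 60 * S.Kb + |C2| * S.K0 := by positivity
  have hB : 0 < S.K2 * (4 * S.D / S.δ ^ 2) := by positivity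
  filter_upwards [eventually_ge_atTop (6 * S.D + 1),
    ev_poly_exp 4 (a := S.δ / 2 / 2) (ε := ε / 2 / (60 * S.Kb + |C2| * S.K0)) (by positivity)
      (by positivity), ev_poly_exp 3 (a := 1 / 5) (by norm_num) hε] with r hr r2 r3
  refine ((evt_adm hS).and (evt_l S (S.K2 * (4 * S.D / S.δ ^ 2)) (a := ε / 2)
    (by positivity))).mono fun w hc ⟨ha, hl⟩ => ?_
  have fast : ∀ (μ' γ' K : ℝ) (x : X), Par S.D μ' γ' 0 → w.μ + S.δ / 2 ≤ μ' → r ≤ ‖x‖ → 0 ≤ K →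
      K ≤ 60 * S.Kb + |C2| * S.K0 → K * Oe S.D μ' γ' 0 x ≤ ε / 2 * (w.E S 0 x / ‖x‖ ^ 3) :=
    fun μ' γ' K x h1 h2 hx k0 k1 => by
      have hr0 : 0 < ‖x‖ := by linarith
      have e0 : 0 < w.E S 0 x := Oe_pos _ _ _ _ _
      have f1 : Oe S.D μ' γ' 0 x ≤ ‖x‖ * ex (S.δ / 2 / 2) x * w.E S 0 x :=
        ha.par.faster h1 (by linarith) (by positivity) h2
      have f2 := r2 x hx
      rw [le_div_iff₀ hA] at f2
      have x0 := ex_pos (S.δ / 2 / 2) x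
      calc _ ≤ (60 * S.Kb + |C2| * S.K0) * (‖x‖ * ex (S.δ / 2 / 2) x * w.E S 0 x) :=
            mul_le_mul k1 f1 (Oe_pos _ _ _ _ _).le hA.le
        _ = ‖x‖ ^ 4 * ex (S.δ / 2 / 2) x * (60 * S.Kb + |C2| * S.K0) * (w.E S 0 x / ‖x‖ ^ 3) := by
            field_simp
        _ ≤ _ := by gcongr
  have c0 : 0 ≤ |C2| * S.K0 := by positivity
  refine ⟨fun x hx hz => ?_, ?_, fun x hx => ?_⟩
  · have hx6 : 6 * S.D ≤ ‖x‖ := by linarith
    have r1 : 1 ≤ ‖x‖ := by linarith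
    have e0 : 0 < w.E S 0 x := Oe_pos _ _ _ _ _
    have u1 := fast _ _ (60 * S.Kb) x ha.parU ha.gapU hx (by linarith) (by linarith)
    have u2 : S.Kb * w.Eu S x ≤ S.Kb * (60 * _) :=
      mul_le_mul_of_nonneg_left (ha.parU.neg20.cmp_s hx6).1 (by linarith)
    obtain ⟨-, t1, t2, t3⟩ := ha.par.T1_eq hx6
    have z2 : x 2 ^ 2 ≤ 1 := by rwa [sq_le_one_iff_abs_le_one]
    have u3 : pU S.D w.μ w.γ S.δ x ≤ 4 * S.D / S.δ ^ 2 * (w.E S 0 x / ‖x‖ ^ 3) := by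
      have p1 : T2 S.D w.μ w.γ x ≤ S.D * (w.E S 0 x / ‖x‖ ^ 3) :=
        calc _ = S.D * (w.E S 0 x / ‖x‖ ^ 4) := by unfold T2 Dy.E; ring
          _ ≤ _ := by gcongr; norm_num
      have p2 : pU S.D w.μ w.γ S.δ x =
          (S.δ * T1 S.D w.μ w.γ x + 3 * T2 S.D w.μ w.γ x) / S.δ ^ 2 := by unfold pU; field_simp
      rw [p2, div_mul_eq_mul_div]
      refine div_le_div_of_nonneg_right ?_ (by positivity)
      nlinarith [mul_le_mul_of_nonneg_right hδ1 t1, mul_le_mul_of_nonneg_right z2 t2.le]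
    have u4 := mul_le_mul_of_nonneg_left u3 (show 0 ≤ w.l * S.K2 from
      mul_nonneg hc.l_pos.le (by linarith))
    have u5 := mul_le_mul_of_nonneg_right hl (show 0 ≤ w.E S 0 x / ‖x‖ ^ 3 by positivity)
    unfold Dy.ebar
    linarith
  · filter_upwards [hS.g_up] with x h1 hx
    have u1 := fast _ _ (|C2| * S.K0) x ha.parg ha.gapg hx c0 (by linarith)
    have u2 := mul_le_mul_of_nonneg_left (h1 (by linarith)) (abs_nonneg C2)
    have u3 := mul_le_mul_of_nonneg_right (le_abs_self C2) (hS.ob.g_nn x)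
    have e0 : 0 < w.E S 0 x := Oe_pos _ _ _ _ _
    have : 0 ≤ ε * (w.E S 0 x / ‖x‖ ^ 3) := by positivity
    linarith
  · have hr0 : 0 < ‖x‖ := by linarith
    have e1 : ex (11 / 10) x ≤ w.E S 0 x := (ha.par.Oe_exp (by linarith)).1
    have e2 : ex (13 / 10) x = ex (1 / 5) x * ex (11 / 10) x := by rw [← ex_add]; norm_num
    have x0 := ex_pos (1 / 5) x
    have x1 := ex_pos (11 / 10) x
    calc _ ≤ ex (1 / 5) x * w.E S 0 x := (tau_le x).trans (by rw [e2]; gcongr)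
      _ = ‖x‖ ^ 3 * ex (1 / 5) x * (w.E S 0 x / ‖x‖ ^ 3) := by field_simp
      _ ≤ _ := mul_le_mul_of_nonneg_right (r3 x hx) (div_nonneg (by linarith) (by positivity))

/-- `cmpH` with the barrier `w1` (`Par.pass1`), `q = O`; `ε = 1 / (10⁸ Kb²)`,
`ϱ = min 1 (1 / (10¹⁰ Kb² D (R0 + 1)²))`.  Collar: for `z < ϱ` use `y ≤ Ev + O`, for
`ϱ ≤ z ≤ 1` use `tau2`, for `z ≥ 1` use `O(-20 D) ≥ E(0) / (240 r)`. -/
theorem pass_one (hS : S.Ok) (C2 : ℝ) {r R0 : ℝ} (hr : 6 * S.D ≤ r) (hR : r ≤ R0) :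
    ∃ ϱ : ℝ, 0 < ϱ ∧ ϱ ≤ 1 ∧ ∀ (K5 : ℝ) (w : Dy), Ch S w → Out S r K5 w →
      PN S C2 (1 / (10 ^ 8 * S.Kb ^ 2)) r w → ∀ y a : X → ℝ, LH eX y →
      (∀ᵐ x : X, 0 ≤ y x ∧ y x ≤ w.f.R x) → LI (Hs ∩ Ext R0) a →
      (∀ x, aS S.D w.m2 w.l S.M x ≤ a x) → Sub eX (Hs ∩ Ext R0) y a 0 →
      (∀ᵐ x : X, R0 ≤ ‖x‖ → ‖x‖ ≤ R0 + 1 → ϱ ≤ x 2 → y x ≤ C2 * S.g x) → BdH R0 y (w.w1 S) :=
  pass_one_aux hS C2 hr hR

theorem li_decay (hS : S.Ok) {R0 : ℝ} (hR : 0 < R0) (w : Dy) {κ : X → ℝ} (hκ : Measurable κ)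
    (h1 : ∀ x, 0 ≤ κ x ∧ κ x ≤ 1) :
    LI (Hs ∩ Ext R0) fun x => aS S.D w.m2 w.l S.M x + S.δ * κ x := by
  refine ((li_aS hR _ _ _ _).mono inter_subset_right).add (LI.const_mul (LI.of_bdd
    (measurableSet_Hs.inter (measurableSet_Ext _)) hκ.aestronglyMeasurable fun R =>
      ⟨1, Eventually.of_forall fun x _ _ => ?_⟩) _)
  rw [abs_of_nonneg (h1 x).1]
  exact (h1 x).2

/-- `cmpH` with the barrier `Cw E(0) / r²`: where `y > R / 4` the first pass and `P4` give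
`O(0) ≤ 360 Kb E(0) / r³`, hence `y ≤ Cw E(0) / r²`; elsewhere the level is raised by `δ / 2`
(`Par.lap_Oe_div`). -/
theorem pass_two (hS : S.Ok) (C2 : ℝ) : ∀ᶠ r : ℝ in atTop, ∀ (R0 K5 : ℝ) (w : Dy), r ≤ R0 →
    Ch S w → Out S r K5 w → PN S C2 (1 / (10 ^ 8 * S.Kb ^ 2)) r w → ∀ y κ : X → ℝ, LH eX y →
    Measurable κ → (∀ x, 0 ≤ κ x ∧ κ x ≤ 1) → (∀ᵐ x : X, 0 ≤ y x ∧ y x ≤ w.f.R x) →
    Sub eX (Hs ∩ Ext R0) y (fun x => aS S.D w.m2 w.l S.M x + S.δ * κ x) 0 →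
    (∀ᵐ x : X, 0 < x 2 → y x ≤ w.f.R x / 4 → 1 / 2 ≤ κ x) → BdH R0 y (w.w1 S) →
    ∃ Cw : ℝ, BdH R0 y fun x => Cw * (w.E S 0 x / ‖x‖ ^ 2) := by
  filter_upwards [pass_two_aux hS C2, eventually_gt_atTop 0] with r h h0 R0 K5 w hR hc ho hn y κ hy hκ h1
  exact h R0 K5 w hR hc ho hn y κ hy (li_decay hS (h0.trans_le hR) w hκ h1) h1

/-- `R_away`. -/
theorem decay_end (hS : S.Ok) {r K5 R0 Cw : ℝ} (hr : 6 * S.D ≤ r) (hK5 : 1 ≤ K5) {w : Dy}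
    (h : Ch S w) (ho : Out S r K5 w) {y : X → ℝ}
    (hy : BdH R0 y fun x => Cw * (w.E S 0 x / ‖x‖ ^ 2)) {t ε : ℝ} (ht : 0 < t) (hε : 0 < ε) :
    ∃ r1 : ℝ, ∀ᵐ x : X, t ≤ x 2 → r1 ≤ ‖x‖ → y x ≤ ε * w.f.R x := by
  obtain ⟨hD, hKb, -⟩ := hS.consts
  have t0 : 0 < min t 1 := lt_min ht one_pos
  obtain ⟨C, r1, -, h1, h2⟩ := R_away hS hr hK5 h ho t0 (min_le_right _ _)
  refine ⟨max (max r1 (R0 + 1)) (480 * S.Kb * |Cw| / (ε * min t 1)), ?_⟩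
  filter_upwards [h2, hy] with x a1 a2 hz hx
  have b1 := ((le_max_left _ _).trans (le_max_left _ _)).trans hx
  have b2 := ((le_max_right _ _).trans (le_max_left _ _)).trans hx
  have b3 := (le_max_right _ _).trans hx
  obtain ⟨c1, -, c3⟩ := a1 ((min_le_left _ _).trans hz) b1
  have hr0 : 0 < ‖x‖ := by linarith
  have e0 : 0 < w.E S 0 x := Oe_pos _ _ _ _ _
  rw [div_le_iff₀ (by positivity)] at b3
  calc y x ≤ |Cw| * (w.E S 0 x / ‖x‖ ^ 2) := (a2 (by linarith) (by linarith)).trans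
        (mul_le_mul_of_nonneg_right (le_abs_self _) (by positivity))
    _ = 480 * S.Kb * |Cw| * (w.E S 0 x / ‖x‖ ^ 2 / (480 * S.Kb)) := by field_simp
    _ ≤ ‖x‖ * (ε * min t 1) * (w.E S 0 x / ‖x‖ ^ 2 / (480 * S.Kb)) := by gcongr
    _ = ε * (min t 1 / (4 * ‖x‖) * w.E S 0 x / (120 * S.Kb)) := by field_simp; ring
    _ ≤ ε * (w.O S 0 x / (120 * S.Kb)) := by gcongr
    _ ≤ _ := by gcongr

end Crest.Agent.R335
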