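/-
R335/PR/S1: steps 1-3: upper bounds of R, Ev (crude) and O
Skeleton by helper48 (row 335); keep the statements unchanged, add any helper lemmas you like.
-/
import Crest.Agent.R335.PR.H

set_option autoImplicit false
set_option linter.unusedSectionVars false
set_option linter.unusedVariables false
set_option linter.unusedSimpArgs false

noncomputable section

namespace Crest.Agent.R335

open MeasureTheory Set Filter Topology Metric
open scoped ENNReal

open Crest.Agent.R338 (pd lap)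

variable {S : Sd}

/-- `cmpE` for `xR` with the barrier `Kb E(-20 D)`; collar: `R ≤ |u| + 2 g + 6 η`. -/
theorem step1 (hS : S.Ok) : ∀ᶠ r : ℝ in atTop, Evt S (P1 S r) := by
  obtain ⟨hD, hKb, -⟩ := hS.consts
  filter_upwards [eventually_ge_atTop (6 * S.D)] with r hr
  refine ((evt_adm hS).and (evt_collar hS hr one_pos)).mono fun w hc ⟨ha, hcol⟩ => ?_
  have hp := ha.par.neg20
  have key : Bd r w.f.R fun x => S.Kb * w.E S (-(20 * S.D)) x := by
    refine cmpE (C := 0) hr hc.lh.1 hc.hR.1 hc.xR (hc.li hS).1 (LI.const 0)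
      (fun x hx => contDiffAt_const.mul (contDiffAt_Oe _ _ _ (by linarith) (by linarith)))
      (fun x hx => ?_) ?_ (Eventually.of_forall fun x hx _ => ?_)
    · have : 0 < w.E S (-(20 * S.D)) x := Oe_pos _ _ _ _ _
      rw [zero_mul, neg_zero]
      positivity
    · filter_upwards [hcol, hc.near hS, hc.sizes] with x h1 h2 h3 a1 a2
      obtain ⟨c1, -, c3, -, c5, -⟩ := h1 a1 a2
      have hx : 6 * S.D ≤ ‖x‖ := by linarith
      have e1 : w.E S 0 x ≤ 60 * w.E S (-(20 * S.D)) x := (hp.cmp_s hx).2.1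
      have e2 : |w.O S 0 x| ≤ w.E S 0 x := abs_Oo_le _ _ _ _ _
      have e3 : ex (11 / 10) x ≤ w.E S (-(20 * S.D)) x := (hp.Oe_exp hx).1
      have e4 := (tau_le x).trans (ex_anti (a := 11 / 10) (by norm_num) x)
      have e5 := ex_pos (11 / 10) x
      have k0 := hS.K0_ge
      have u1 := mul_le_mul_of_nonneg_left e1 (show 0 ≤ S.K0 by linarith)
      have u2 := mul_le_mul_of_nonneg_left e2 (show 0 ≤ S.K0 by linarith)
      have u3 := mul_le_mul_of_nonneg_right k0 (e5.le.trans e3)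
      have s1 := h3.2.2.2.2.2.2.2.2.2.2.1
      unfold Sd.Kb
      linarith [h2.1, h2.2.1]
    · have hx6 : 6 * S.D ≤ ‖x‖ := by linarith
      obtain ⟨v1, v2, -⟩ := ha.levels hc.l_pos hx6
      refine ⟨by linarith, ?_⟩
      have c1 : ContDiffAt ℝ 2 (w.E S (-(20 * S.D))) x :=
        contDiffAt_Oe _ _ _ (by linarith) (by linarith)
      have l1 : lap (w.E S (-(20 * S.D))) x ≤ _ * w.E S (-(20 * S.D)) x := (ha.par.lap_Oe hx6).1
      have e0 : 0 < w.E S (-(20 * S.D)) x := Oe_pos _ _ _ _ _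
      have d0 : 0 ≤ S.D / ‖x‖ ^ 2 := by positivity
      have l2 : a0 w.μ w.γ x - 20 * S.D / ‖x‖ ^ 2 ≤ aS S.D w.m2 w.l S.M x := by
        rw [mul_div_assoc] at v1 ⊢
        linarith
      have l3 := mul_le_mul_of_nonneg_left (l1.trans (mul_le_mul_of_nonneg_right l2 e0.le))
        (show 0 ≤ S.Kb by linarith)
      rw [lap_const_mul c1, Pi.zero_apply]
      linarith
  filter_upwards [key] with x hx h1
  have e1 : w.E S (-(20 * S.D)) x ≤ 60 * w.E S 0 x := (hp.cmp_s (by linarith)).1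
  nlinarith [hx h1, mul_le_mul_of_nonneg_left e1 (show 0 ≤ S.Kb by linarith)]

/-- `cmpE` for `xEv` with the barrier `K5 E(0) / r`, `K5 = 60 Kb (r + 1)`; `Par.lap_Oe_div`; the
slack is at least `δ K5 E(0) / r` for `r ≥ 1000 / δ` and `D / r² ≤ δ / 100`;
`e^{-1.3 r} ≤ E(0) / r`. -/
theorem step2 (hS : S.Ok) : ∀ᶠ r : ℝ in atTop, ∃ K5 : ℝ, 1 ≤ K5 ∧
    Evt S fun w => P1 S r w → P2 S r K5 w := by
  obtain ⟨hD, hKb, -, -, -, hδ, -⟩ := hS.consts
  filter_upwards [eventually_ge_atTop (6 * S.D), eventually_ge_atTop (80 * S.D / S.δ),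
    eventually_ge_atTop (1000 / S.δ)] with r hr r2 r3
  have hK : 60 * S.Kb ≤ 60 * S.Kb * (r + 1) := le_mul_of_one_le_right (by linarith) (by linarith)
  refine ⟨60 * S.Kb * (r + 1), by linarith, ?_⟩
  set K5 := 60 * S.Kb * (r + 1) with hK5
  refine ((evt_adm hS).and (evt_lM S hδ)).mono fun w hc ⟨ha, hl⟩ p1 => ?_
  have key : Bd r w.f.Ev fun x => K5 * (w.E S 0 x / ‖x‖ ^ 1) := by
    refine cmpE (C := 0) hr hc.lh.2.1 hc.hEv.1 hc.xEv ((hc.li hS).2.1 _) (hc.li hS).2.2.2.2.1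
      (fun x hx => contDiffAt_const.mul (contDiffAt_div_pow
        (contDiffAt_Oe _ _ _ (by linarith) (by linarith)) (norm_pos_iff.1 (by linarith)) 1))
      (fun x hx => ?_) ?_ ?_
    · have : 0 < w.E S 0 x := Oe_pos _ _ _ _ _
      have : 0 < K5 := by linarith
      rw [zero_mul, neg_zero]
      positivity
    · filter_upwards [p1, hc.sizes] with x h1 h2 a1 a2
      have e0 : 0 < w.E S 0 x := Oe_pos _ _ _ _ _
      refine h2.1.trans ((h1 a1).trans ?_)
      rw [pow_one, ← mul_div_assoc, le_div_iff₀ (by linarith), hK5]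
      nlinarith [mul_le_mul_of_nonneg_left a2 (show 0 ≤ 60 * S.Kb * w.E S 0 x by positivity)]
    · filter_upwards [p1, hc.sizes] with x h1 h2 a1 _
      have hx6 : 6 * S.D ≤ ‖x‖ := by linarith
      have hr0 : 0 < ‖x‖ := by linarith
      obtain ⟨f1, -⟩ := ha.far hS hc.l_pos hx6 (by linarith)
      have de := ha.de_ge
      refine ⟨by linarith [(ha.levels hc.l_pos hx6).2.2.2.1], ?_⟩
      have c1 : ContDiffAt ℝ 2 (w.E S 0) x := contDiffAt_Oe _ _ _ (by linarith) (by linarith)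
      rw [lap_const_mul (contDiffAt_div_pow c1 (norm_pos_iff.1 hr0) 1)]
      have l1 : lap (fun y => w.E S 0 y / ‖y‖ ^ 1) x - _ * (w.E S 0 x / ‖x‖ ^ 1) ≤
        _ * (w.E S 0 x / ‖x‖ ^ 1) := (abs_le.1 (ha.par.lap_Oe_div hx6 (k := 1) (by norm_num))).2
      have s := bar3_small hδ (r3.trans (by linarith : r ≤ ‖x‖))
      have e0 : 0 < w.E S 0 x := Oe_pos _ _ _ _ _
      have x1 : 10 * ex (13 / 10) x ≤ w.E S 0 x / ‖x‖ ^ 1 := ha.par.ex13 hx6 (by norm_num)
      set H := w.E S 0 x / ‖x‖ ^ 1 with hH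
      have H0 : 0 < H := by positivity
      have l2 : lap (fun y => w.E S 0 y / ‖y‖ ^ 1) x + S.δ * H ≤
          (aa S.D w.m2 x + 2 * w.de) * H := by
        nlinarith [mul_le_mul_of_nonneg_right s H0.le, mul_pos hδ H0,
          mul_le_mul_of_nonneg_right (show a0 w.μ w.γ x + 3 / 2 * S.δ ≤ aa S.D w.m2 x + 2 * w.de by
            linarith) H0.le]
      have o1 : 8 * |x 2| / ‖x‖ ^ 2 * w.f.O x ≤ 8 * (K5 * H) := by
        have hz := (geo hD hx6).2.2.2.2.1
        have o0 := (hc.nn x).2.2.1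
        calc _ ≤ 8 * ‖x‖ / ‖x‖ ^ 2 * (60 * S.Kb * w.E S 0 x) := by
              gcongr
              exact h2.2.1.trans (h1 (by linarith))
          _ = 8 * (60 * S.Kb * H) := by rw [hH]; field_simp
          _ ≤ _ := by gcongr
      have l0 := hc.l_pos
      have KH : H ≤ K5 * H := le_mul_of_one_le_left H0.le (by linarith)
      have x0 := ex_pos (13 / 10) x
      have o2 : w.l * S.M * ex (13 / 10) x ≤ S.δ * (K5 * H / 10) := by gcongr; linarith
      have o3 : w.l * (8 * (K5 * H)) ≤ S.δ / 100 * (8 * (K5 * H)) := by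
        gcongr
        · linarith
        · exact ha.l_le
      have l3 := mul_le_mul_of_nonneg_left l2 (show 0 ≤ K5 by linarith)
      have o4 := mul_le_mul_of_nonneg_left o1 l0.le
      have o5 : 0 < S.δ * (K5 * H) := mul_pos hδ (by linarith)
      linarith
  simpa only [pow_one, P2] using key

/-- `cmpH` for `xO` with the barrier `Kb (O(-20 D) + tau)` (`Par.odd_super`, `Par.abs_Oo`),
`q = O`; then `BdH.even`. -/
theorem step3 (hS : S.Ok) : ∀ᶠ r : ℝ in atTop, ∀ K5 : ℝ, 1 ≤ K5 →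
    Evt S fun w => P2 S r K5 w → P3 S r w := by
  obtain ⟨hD, hKb, -⟩ := hS.consts
  filter_upwards [eventually_ge_atTop (6 * S.D)] with r hr K5 hK5
  refine (((evt_adm hS).and (evt_collar hS hr one_pos)).and (evt_mul S K5 one_pos)).mono
    fun w hc ⟨⟨ha, hcol⟩, hl⟩ p2 => ?_
  have hp := ha.par.neg20
  have nn : ∀ x : X, r < ‖x‖ → 0 < x 2 → 0 ≤ S.Kb * (w.O S (-(20 * S.D)) x + tau x) :=
    fun x hx hz => by
      have : 0 ≤ w.O S (-(20 * S.D)) x := hp.Oo_nonneg (by linarith) hz.le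
      have := tau_pos x
      positivity
  have key : BdH r w.f.O fun x => S.Kb * (w.O S (-(20 * S.D)) x + tau x) := by
    refine cmpH (C := 0) (q := w.f.O) hr hc.lh.2.2.1 hc.hO.1 (hc.xO.mono inter_subset_right)
      ((hc.li hS).1.mono inter_subset_right) ((hc.li hS).2.2.2.2.2.2.1.mono inter_subset_right)
      (fun x hx => contDiffAt_const.mul ((contDiffAt_Oo _ _ _ (by linarith) (by linarith)).add
        (contDiffAt_tau (norm_pos_iff.1 (by linarith)))))
      (fun x hx hz => by rw [zero_mul, neg_zero]; exact nn x hx hz) ?_ ?_ hc.strip hc.hO.hl.1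
      (Eventually.of_forall fun x hx hz _ => by linarith [nn x (by linarith) hz])
    · filter_upwards [hcol, hc.near hS] with x h1 h2 a1 a2 hz
      obtain ⟨c1, -, c3, -⟩ := h1 a1 a2
      have hx : 6 * S.D ≤ ‖x‖ := by linarith
      have e1 : w.O S 0 x ≤ 60 * w.O S (-(20 * S.D)) x := ((hp.cmp_s hx).2.2 hz.le).2
      have e2 : 0 ≤ w.O S 0 x := ha.par.Oo_nonneg hx hz.le
      rw [abs_of_nonneg e2] at c3
      have k0 := hS.K0_ge
      have u1 := mul_le_mul_of_nonneg_left e1 (show 0 ≤ S.K0 by linarith)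
      have u2 := mul_le_mul_of_nonneg_right k0 (tau_pos x).le
      have u3 : 0 ≤ S.K0 * w.O S (-(20 * S.D)) x := mul_nonneg (by linarith) (by linarith)
      unfold Sd.Kb
      linarith [h2.2.1, tau_pos x]
    · filter_upwards [p2] with x h1 a1 hz _
      have hx6 : 6 * S.D ≤ ‖x‖ := by linarith
      have hr0 : 0 < ‖x‖ := by linarith
      obtain ⟨v1, v2, -⟩ := ha.levels hc.l_pos hx6
      refine ⟨by linarith, ?_⟩
      have c1 : ContDiffAt ℝ 2 (fun y => w.O S (-(20 * S.D)) y + tau y) x :=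
        (contDiffAt_Oo _ _ _ (by linarith) (by linarith)).add (contDiffAt_tau (norm_pos_iff.1 hr0))
      have l1 : lap (fun y => w.O S (-(20 * S.D)) y + tau y) x + _ * w.O S 0 x + _ ≤
        _ * (w.O S (-(20 * S.D)) x + tau x) := ha.par.odd_super hx6 hz.le v1
      rw [lap_const_mul c1]
      have e2 : 0 ≤ w.O S 0 x := ha.par.Oo_nonneg hx6 hz.le
      have o1 : |x 2| / ‖x‖ * w.E S 0 x ≤ 4 * |w.O S 0 x| := (ha.par.abs_Oo hx6).1
      rw [abs_of_nonneg e2] at o1
      have l0 := hc.l_pos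
      have m1 : 1 ≤ S.M := hc.M_ge
      have o2 : 8 * |x 2| / ‖x‖ ^ 2 * w.f.Ev x ≤ 32 * K5 * (w.O S 0 x / ‖x‖ ^ 2) :=
        calc _ ≤ 8 * |x 2| / ‖x‖ ^ 2 * (K5 * (w.E S 0 x / ‖x‖)) := by
              gcongr
              exact h1 (by linarith)
          _ = 8 * K5 * (|x 2| / ‖x‖ * w.E S 0 x) / ‖x‖ ^ 2 := by ring
          _ ≤ 8 * K5 * (4 * w.O S 0 x) / ‖x‖ ^ 2 := by gcongr
          _ = _ := by ring
      have H0 : 0 ≤ w.O S 0 x / ‖x‖ ^ 2 := by positivity
      have lk : w.l * K5 ≤ 1 := by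
        nlinarith [mul_le_mul_of_nonneg_left m1 (show 0 ≤ w.l * K5 by positivity)]
      have x0 := ex_pos (13 / 10) x
      have o3 := mul_le_mul_of_nonneg_left o2 l0.le
      have o4 := mul_le_mul_of_nonneg_right lk H0
      have o5 := mul_le_mul_of_nonneg_right ha.lM x0.le
      have e : S.D / (10 * ‖x‖ ^ 2) * w.O S 0 x = S.D / 10 * (w.O S 0 x / ‖x‖ ^ 2) := by ring
      rw [e] at l1
      have l3 := mul_le_mul_of_nonneg_left l1 (show 0 ≤ S.Kb by linarith)
      have o6 : 1000 * (1000 / 10 * (w.O S 0 x / ‖x‖ ^ 2)) ≤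
        S.Kb * (S.D / 10 * (w.O S 0 x / ‖x‖ ^ 2)) := by gcongr
      have o7 := mul_le_mul_of_nonneg_right hKb x0.le
      linarith
  refine BdH.even ?_ (hc.par.mono fun x hx => hx.2.2.1) fun x => by rw [Dy.O_rf, tau_rf]
  filter_upwards [key] with x hx h1 hz
  have e1 : w.O S (-(20 * S.D)) x ≤ 60 * w.O S 0 x := ((hp.cmp_s (by linarith)).2.2 hz.le).1
  refine (hx h1 hz).trans ?_
  gcongr
  exact e1.trans (by gcongr; exact le_abs_self _)

end Crest.Agent.R335
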