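/-
R335/PR/S10: steps 10, 11: the two barriers are comparable; the cone condition
Skeleton by helper48 (row 335); keep the statements unchanged, add any helper lemmas you like.
-/
import Crest.Agent.R335.PR.H

set_option autoImplicit false
set_option linter.unusedSectionVars false
set_option linter.unusedVariables false
set_option linter.unusedSimpArgs false

noncomputable section

namespace Crest.Agent.R335

open MeasureTheory Set Filter Topology Metric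
open scoped ENNReal

open Crest.Agent.R338 (pd lap)

variable {S : Sd}

/-- For `‖x‖ ≤ 1 / (16 √l)`: `Par.close` with `ε = 4 √l`.  Otherwise `l ≥ 1 / (256 ‖x‖²)`,
`Par.faster` with `gapU`, and `‖x‖⁷ e^{-δ ‖x‖ / 4}` is small because `‖x‖` is large
(`ev_poly_exp`).  `pU ≤ 60 pL`. -/
theorem step10 (hS : S.Ok) : ∀ᶠ r : ℝ in atTop, Evt S (P10 S r) := by
  obtain ⟨hD, hKb, hK2, hK3, hK4, hδ, hδ1, -⟩ := hS.consts
  filter_upwards [ev_poly_exp 7 (a := S.δ / 2 / 2) (ε := 1) (by positivity) one_pos,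
    eventually_ge_atTop (6 * S.D)] with r hr hr6
  refine ((evt_adm hS).and (evt_le S (a := 1 / 1000) (by norm_num))).mono
    fun w hc ⟨ha, hη, hl, _⟩ x hx => ?_
  have hx6 : 6 * S.D ≤ ‖x‖ := hr6.trans hx.le
  have hx0 : 0 < ‖x‖ := by linarith
  have hC := hS.C1_ge
  have hK0 := hS.K0_ge
  obtain ⟨-, hT1, hT2, -⟩ := ha.par.T1_eq hx6
  have hs : |20 * S.D| ≤ 20 * S.D := (abs_of_nonneg (by linarith)).le
  have hU : w.Eu S x ≤ _ := ((ha.parU.of_abs (s' := -(20 * S.D)) (by rwa [abs_neg])).cmp_s hx6).1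
  have hL : _ ≤ 60 * w.El S x := ((ha.parL.of_abs hs).cmp_s hx6).2.1
  have hEl : 0 < w.El S x := Oe_pos _ _ _ _ _
  have h1 := div_nonneg hT1 hδ.le
  have h2 : T2 S.D w.μ w.γ x / (20 * S.δ ^ 2) ≤ pL S.D w.μ w.γ S.δ x := le_add_of_nonneg_left h1
  have hpL : 0 < pL S.D w.μ w.γ S.δ x := lt_of_lt_of_le (by positivity) h2
  have hp : pU S.D w.μ w.γ S.δ x ≤ 60 * pL S.D w.μ w.γ S.δ x := by
    have : 3 * T2 S.D w.μ w.γ x / S.δ ^ 2 = 60 * (T2 S.D w.μ w.γ x / (20 * S.δ ^ 2)) := by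
      field_simp; ring
    unfold pU pL; linarith
  have e1 : S.K4 * w.elow S x = 10 ^ 8 * (S.C1 ^ 2 * S.D) * (S.Kb * w.El S x) +
      100 * (w.l * S.K2 * pL S.D w.μ w.γ S.δ x) := by
    unfold Dy.elow Sd.K4 Sd.K2 Sd.K3 Sd.Kb; field_simp; ring
  have h3 : 1 ≤ S.C1 ^ 2 * S.D := one_le_mul_of_one_le_of_one_le (one_le_pow₀ hC) (by linarith)
  have h4 : 0 < S.Kb * w.El S x := by positivity
  have h5 : 0 < w.l * S.K2 * pL S.D w.μ w.γ S.δ x := by positivity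
  have h6 := mul_le_mul_of_nonneg_left hp (show 0 ≤ w.l * S.K2 by positivity)
  have key : S.Kb * w.Eu S x ≤ 7200 * (S.Kb * w.El S x) + 40 * (w.l * S.K2 * pL S.D w.μ w.γ S.δ x) := by
    rcases le_or_gt (4 * (6 * √w.l) * ‖x‖) 1 with hcase | hcase
    · have b1 := abs_le.1 hc.m2_near
      have b2 := abs_le.1 hS.ob.eu_near
      have b3 := ha.sl_le
      have b4 := ha.de_ge
      have b5 := ha.de_le
      have b6 := Real.sqrt_nonneg w.l
      have b7 : |w.mU - w.mL| = 2 * √w.l := by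
        rw [Dy.mU, Dy.mL, abs_sub_comm, abs_of_nonneg (by linarith)]; ring
      obtain ⟨c1, c2⟩ := ga_close (m := w.mU) (m' := w.mL) (Zc := 2) (Zc' := 2)
        (abs_le.2 ⟨by unfold Dy.mU; linarith, by unfold Dy.mU; linarith⟩)
        (abs_le.2 ⟨by unfold Dy.mL; linarith, by unfold Dy.mL; linarith⟩) (by norm_num)
      rw [sub_self, abs_zero] at c2
      have c3 := (ha.parU.close ha.parL hx6 (ε := 6 * √w.l) (by linarith) (by linarith) hcase).1
      have c4 : w.Eu S x ≤ 7200 * w.El S x := by linarith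
      nlinarith [mul_le_mul_of_nonneg_left c4 (show 0 ≤ S.Kb by linarith)]
    · have c1 := ha.par.faster ha.parU hx6 (a := S.δ / 2) (by positivity) ha.gapU
      have c2 : 1 ≤ 576 * w.l * ‖x‖ ^ 2 := by
        have := Real.sq_sqrt hl.le
        nlinarith
      have c3 := hr x hx.le
      have hO := Oe_pos S.D w.μ w.γ 0 x
      have c4 : ‖x‖ * ex (S.δ / 2 / 2) x ≤ 576 * w.l / ‖x‖ ^ 4 := by
        rw [le_div_iff₀ (by positivity)]
        refine le_of_mul_le_mul_right ?_ (pow_pos hx0 2)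
        linarith
      have c5 : 576 * 60 * S.Kb ≤ 2 * S.K2 * S.D / S.δ ^ 2 := by
        rw [le_div_iff₀ (by positivity)]
        have d1 : S.δ ^ 2 ≤ 1 := pow_le_one₀ hδ.le (by linarith)
        have d2 : 1 * 1000 * 1000 ≤ S.C1 * S.D * S.D := by gcongr
        unfold Sd.Kb Sd.K2
        nlinarith [mul_le_mul_of_nonneg_left d1 (show 0 ≤ S.K0 by linarith),
          mul_le_mul_of_nonneg_left d2 (show 0 ≤ S.K0 by linarith)]
      have c6 : S.Kb * w.Eu S x ≤ 40 * (w.l * S.K2 * (T2 S.D w.μ w.γ x / (20 * S.δ ^ 2))) :=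
        calc S.Kb * w.Eu S x ≤ S.Kb * (60 * (576 * w.l / ‖x‖ ^ 4 * Oe S.D w.μ w.γ 0 x)) := by
              gcongr
              refine hU.trans ?_
              gcongr
              exact c1.trans (by gcongr)
          _ = 576 * 60 * S.Kb * (w.l / ‖x‖ ^ 4 * Oe S.D w.μ w.γ 0 x) := by ring
          _ ≤ 2 * S.K2 * S.D / S.δ ^ 2 * (w.l / ‖x‖ ^ 4 * Oe S.D w.μ w.γ 0 x) := by gcongr
          _ = _ := by unfold T2; ring
      have c7 := mul_le_mul_of_nonneg_left h2 (show 0 ≤ w.l * S.K2 by positivity)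
      linarith
  rw [e1, Dy.ebar]
  nlinarith [mul_le_mul_of_nonneg_right h3 h4.le]

/-- Real algebra: `E = e1 > 0`, `|e1 - e2 - e3| ≤ E / 1000`, `e2, e3 ≥ -E / 1000`,
`Ne ≤ E / 1000`. -/
theorem cone_alg {e1 e2 e3 ne : ℝ} (h1 : 0 < e1) (hy : |e1 - e2 - e3| ≤ e1 / 1000)
    (h2 : -(e1 / 1000) ≤ e2) (h3 : -(e1 / 1000) ≤ e3) (hn : 0 ≤ ne) (hn' : ne ≤ e1 / 1000) :
    e1 ≤ (2 * e1 + e2 + e3) / √6 ∧
      e1 ^ 2 + e2 ^ 2 + e3 ^ 2 + ne ^ 2 + e1 ^ 2 / 100 ≤ 27 / 20 * ((2 * e1 + e2 + e3) / √6) ^ 2 := by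
  obtain ⟨y1, y2⟩ := abs_le.1 hy
  have s0 : 0 < √6 := Real.sqrt_pos.2 (by norm_num)
  have s1 : √6 ≤ 5 / 2 := Real.sqrt_le_iff.2 ⟨by norm_num, by norm_num⟩
  refine ⟨?_, ?_⟩
  · rw [le_div_iff₀ s0]
    nlinarith
  · rw [div_pow, Real.sq_sqrt (by norm_num)]
    have a1 : 0 ≤ (e2 + e1 / 1000) * (e3 + e1 / 1000) := mul_nonneg (by linarith) (by linarith)
    have a2 : ne ^ 2 ≤ (e1 / 1000) ^ 2 := by gcongr
    have a3 : (e2 + e3) ^ 2 ≤ (1001 / 1000 * e1) ^ 2 := by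
      gcongr
      · linarith
      · linarith
    have a4 : (2999 / 1000 * e1) ^ 2 ≤ (2 * e1 + e2 + e3) ^ 2 := by
      gcongr
      linarith
    have a5 : e1 * (e2 + e3) ≤ e1 * (1001 / 1000 * e1) := by
      gcongr
      linarith
    nlinarith [sq_nonneg e1]

/-- `N² = No² + Ne² + e1² + e2² + e3² - e²`, `|O(0)| ≤ 60 Kb (|d| + tau)` (both half spaces),
`14400 Kb² / r⁴ ≤ 1 / (20 r²)`, `tau ≤ e1 / 100`. -/
theorem step11 (hS : S.Ok) : ∀ᶠ r : ℝ in atTop, ∀ w : Dy, Ch S w → Adm S w → P4 S r w →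
    P5 S r 1 w → P6 S r w → P7 S r w → P8 S r (1 / (1000 * S.K4)) w → P9 S r w → P10 S r w →
    P11 S r w := by
  obtain ⟨hD, hKb, hK2, hK3, hK4, hδ, hδ1, hc0, -⟩ := hS.consts
  filter_upwards [eventually_ge_atTop (6 * S.D), eventually_ge_atTop (400 * S.Kb),
    ev_poly_exp 0 (a := 1 / 10) (ε := 1 / (100 * S.Kb)) (by norm_num) (by positivity),
    elow_sub S hS] with r hr r2 r3 hsub w hc ha p4 p5 p6 p7 p8 p9 p10
  have l0 := hc.l_pos
  have p4' : Bd r (fun x => -|w.f.d x|) fun x => tau x - |w.O S 0 x| / (60 * S.Kb) := by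
    refine BdH.even ?_ (hc.par.mono fun x hx => by rw [hx.2.2.2.2.2.2.1, abs_neg]) fun x => by
      rw [tau_rf, Dy.O_rf]
    filter_upwards [p4] with x hx h1 hz
    have o0 : 0 ≤ w.O S 0 x := ha.par.Oo_nonneg (by linarith) hz.le
    rw [abs_of_nonneg o0]
    linarith [hx h1 hz, le_abs_self (w.f.d x)]
  filter_upwards [p4', p5, p6, p7, p9, p8 (-1) 1 1 (by simp) (by simp) (by simp) (by simp) (by simp),
    p8 1 (-1) (-1) (by simp) (by simp) (by simp) (by simp) (by simp),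
    p8 0 (-1) 0 (by simp) (by simp) (by simp) (by simp) (by simp),
    p8 0 0 (-1) (by simp) (by simp) (by simp) (by simp) (by simp), hc.sizes, hc.pyth]
    with x h4 h5 h6 h7 h9 g1 g2 g3 g4 hz hp hx
  have h4 := h4 hx
  have h5 := h5 hx
  have h9 := h9 hx
  have h10 := p10 x hx
  obtain ⟨-, e0, e1, -⟩ := hsub w ha l0 x hx.le
  have b1 : 1 / (1000 * S.K4) * w.ebar S x ≤ w.f.e1 x / 1000 :=
    calc _ ≤ 1 / (1000 * S.K4) * (S.K4 * w.f.e1 x) := by
          gcongr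
          exact h10.trans (by gcongr)
      _ = _ := by field_simp
  have b2 : w.f.Ne x ≤ w.f.e1 x / 1000 :=
    calc _ ≤ S.δ / S.c * (S.K4 * w.f.e1 x) := (h7 hx).trans (by
          gcongr
          exact h10.trans (by gcongr))
      _ = S.δ * S.K4 * (w.f.e1 x / S.c) := by ring
      _ ≤ S.c / 1000 * (w.f.e1 x / S.c) :=
          mul_le_mul_of_nonneg_right hS.small (div_nonneg (by linarith) hc0.le)
      _ = _ := by field_simp
  obtain ⟨c1, c2⟩ := cone_alg (e1 := w.f.e1 x) (e2 := w.f.e2 x) (e3 := w.f.e3 x) (ne := w.f.Ne x)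
    (by linarith) (abs_le.2 ⟨by linarith [g1 hx], by linarith [g2 hx]⟩) (by linarith [g3 hx])
    (by linarith [g4 hx]) (hc.nn x).2.2.2.2.1 b2
  change w.f.e1 x ≤ w.f.e x at c1
  change _ ≤ 27 / 20 * w.f.e x ^ 2 at c2
  have b3 : ex (6 / 5) x ≤ w.f.e1 x / 100 := by
    have e2 : ex (6 / 5) x = ex (1 / 10) x * ex (11 / 10) x := by rw [← ex_add]; norm_num
    have e3 := r3 x hx.le
    rw [pow_zero, one_mul] at e3
    have e4 : w.El S x / S.Kb ≤ w.elow S x := le_add_of_nonneg_right (by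
      have := (ha.par.pL_le (x := x) (by linarith) hδ (by linarith)).1
      positivity)
    have e5 := ex_pos (11 / 10) x
    calc _ ≤ 1 / (100 * S.Kb) * w.El S x := by rw [e2]; gcongr
      _ = w.El S x / S.Kb / 100 := by ring
      _ ≤ _ := by linarith
  have b4 : tau x ≤ w.f.e1 x / 100 := (tau_le x).trans ((ex_anti (by norm_num) x).trans b3)
  have ta := tau_pos x
  obtain ⟨q1, q2, q3, q4⟩ := hp
  refine ⟨h9.trans c1, ((le_abs_self _).trans hz.2.2.2.2.2.2.2.2.1).trans (h6 hx), ?_, ?_,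
    by linarith, by linarith⟩
  · exact abs_le_of_sq_le_sq' (by nlinarith [sq_nonneg (w.f.e1 x), sq_nonneg (w.f.e x)])
      (by linarith) |>.2
  · have hr0 : 0 < ‖x‖ := by linarith
    have n1 : |w.O S 0 x| ≤ 60 * S.Kb * (|w.f.d x| + tau x) := by
      rw [mul_comm, ← div_le_iff₀ (by positivity)]
      linarith
    have n2 : 60 * S.Kb / ‖x‖ ≤ 3 / 20 := by rw [div_le_iff₀ hr0]; linarith
    have n3 : w.f.No x ≤ 3 / 20 * (|w.f.d x| / ‖x‖) + 2 * tau x := by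
      have n4 : tau x / ‖x‖ ≤ tau x := div_le_self ta.le (by linarith)
      calc _ ≤ 1 * (60 * S.Kb * (|w.f.d x| + tau x) / ‖x‖ ^ 2 + tau x) := h5.trans (by gcongr)
        _ = 60 * S.Kb / ‖x‖ * (|w.f.d x| / ‖x‖ + tau x / ‖x‖) + tau x := by field_simp
        _ ≤ 3 / 20 * (|w.f.d x| / ‖x‖ + tau x / ‖x‖) + tau x := by gcongr
        _ ≤ _ := by linarith
    have n5 : 1 / (20 * ‖x‖ ^ 2) * w.f.d x ^ 2 = 1 / 20 * (|w.f.d x| / ‖x‖) ^ 2 := by
      rw [div_pow, sq_abs]; ring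
    have n6 : w.f.No x ^ 2 ≤ (3 / 20 * (|w.f.d x| / ‖x‖) + 2 * tau x) ^ 2 := by
      gcongr
      exact (hc.nn x).2.2.2.1
    have n7 : tau x ^ 2 ≤ (w.f.e1 x / 100) ^ 2 := by gcongr
    rw [n5]
    nlinarith [sq_nonneg (3 / 20 * (|w.f.d x| / ‖x‖) - 2 * tau x), sq_nonneg (|w.f.d x| / ‖x‖),
      sq_nonneg (w.f.e1 x)]

end Crest.Agent.R335
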