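/-
R335/PR/S4: steps 4, 5: lower bound of d, upper bound of No
Skeleton by helper48 (row 335); keep the statements unchanged, add any helper lemmas you like.
-/
import Crest.Agent.R335.PR.H

set_option autoImplicit false
set_option linter.unusedSectionVars false
set_option linter.unusedVariables false
set_option linter.unusedSimpArgs false

noncomputable section

namespace Crest.Agent.R335

open MeasureTheory Set Filter Topology Metric
open scoped ENNReal

open Crest.Agent.R338 (pd lap)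

variable {S : Sd}

/-- The common estimates of the sources. -/
theorem s4_src (hS : S.Ok) {w : Dy} (hc : Ch S w) (ha : Adm S w) {r K5 : ℝ} (hr : 6 * S.D ≤ r)
    (hK5 : 1 ≤ K5) (p2 : P2 S r K5 w) (p3 : P3 S r w) : ∀ᵐ x : X, r < ‖x‖ → 0 < x 2 →
      w.f.O x / ‖x‖ ^ 2 ≤ 60 * S.Kb * (w.O S 0 x / ‖x‖ ^ 2) + S.Kb * ex (13 / 10) x ∧
      |x 2| / ‖x‖ ^ 2 * w.f.Ev x ≤ 4 * K5 * (w.O S 0 x / ‖x‖ ^ 2) ∧
      0 ≤ w.O S 0 x / ‖x‖ ^ 2 := by
  obtain ⟨hD, hKb, -⟩ := hS.consts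
  filter_upwards [p2, p3] with x h2 h3 hx hz
  have hx6 : 6 * S.D ≤ ‖x‖ := by linarith
  have hr0 : 0 < ‖x‖ := by linarith
  have e2 : 0 ≤ w.O S 0 x := ha.par.Oo_nonneg hx6 hz.le
  have o1 : |x 2| / ‖x‖ * w.E S 0 x ≤ 4 * |w.O S 0 x| := (ha.par.abs_Oo hx6).1
  have h3 := h3 hx
  rw [abs_of_nonneg e2] at o1 h3
  refine ⟨?_, ?_, by positivity⟩
  · have t1 : tau x / ‖x‖ ^ 2 ≤ ex (13 / 10) x :=
      (div_le_self (tau_pos x).le (one_le_pow₀ (by linarith))).trans (tau_le x)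
    calc _ ≤ S.Kb * (60 * w.O S 0 x + tau x) / ‖x‖ ^ 2 := by gcongr
      _ = 60 * S.Kb * (w.O S 0 x / ‖x‖ ^ 2) + S.Kb * (tau x / ‖x‖ ^ 2) := by ring
      _ ≤ _ := by gcongr
  · calc _ ≤ |x 2| / ‖x‖ ^ 2 * (K5 * (w.E S 0 x / ‖x‖)) := by
          gcongr
          exact h2 hx
      _ = K5 * (|x 2| / ‖x‖ * w.E S 0 x) / ‖x‖ ^ 2 := by ring
      _ ≤ K5 * (4 * w.O S 0 x) / ‖x‖ ^ 2 := by gcongr
      _ = _ := by ring

/-- `cmpH` for `xd` (function `-d`) with the barrier `-(O(20 D) / Kb - tau)` (`odd_sub`);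
`e^{-0.4 r} Ev ≤ M e^{-1.3 r}`; `q = O + 3 D z` (`Strip.add`, `Strip.mono`, `strip_coord`). -/
theorem step4 (hS : S.Ok) : ∀ᶠ r : ℝ in atTop, ∀ K5 : ℝ, 1 ≤ K5 →
    Evt S fun w => P2 S r K5 w → P3 S r w → P4 S r w := by
  obtain ⟨hD, hKb, -⟩ := hS.consts
  filter_upwards [eventually_ge_atTop (6 * S.D), odd_sub (K := S.Kb) (by linarith)]
    with r hr hsub K5 hK5
  refine ((((evt_adm hS).and (evt_collar hS hr one_pos)).and
    (evt_mul S (S.Kb * (60 * S.Kb + 4 * K5)) one_pos)).and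
    (evt_mul S (S.Kb + S.M) one_half_pos)).mono fun w hc ⟨⟨⟨ha, hcol⟩, hl1⟩, hl2⟩ p2 p3 => ?_
  have hp := ha.par.pos20
  have zc : LocL2 fun x : X => x 2 :=
    LocL2.of_continuous (EuclideanSpace.proj (𝕜 := ℝ) (2 : Fin 3)).continuous
  have cw : ∀ x : X, r < ‖x‖ → ContDiffAt ℝ 2 (fun y => w.O S (20 * S.D) y / S.Kb - tau y) x :=
    fun x hx => ((contDiffAt_Oo _ _ _ (by linarith) (by linarith)).div_const _).sub
      (contDiffAt_tau (norm_pos_iff.1 (by linarith)))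
  have up : ∀ x : X, r < ‖x‖ → 0 < x 2 → w.O S (20 * S.D) x / S.Kb ≤ w.O S (20 * S.D) x :=
    fun x hx hz => div_le_self (hp.Oo_nonneg (by linarith) hz.le) (by linarith)
  have key : BdH r (fun x => -w.f.d x) fun x => -(w.O S (20 * S.D) x / S.Kb - tau x) := by
    refine cmpH (C := 1) (q := fun x => w.f.O x + x 2) hr hc.lh.2.2.2.2.2.2.1.neg hc.hd.1.neg
      (hc.xd.mono inter_subset_right) ((hc.li hS).2.2.2.1.mono inter_subset_right)
      ((hc.li hS).2.2.2.2.2.2.2.1.mono inter_subset_right) (fun x hx => (cw x hx).neg)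
      (fun x hx hz => ?_) ?_ ?_ (hc.strip.add strip_coord hc.hO.hl.1 zc) (hc.hO.hl.1.add zc) ?_
    · have e1 : w.O S (20 * S.D) x ≤ ex (1 / 2) x :=
        (le_abs_self _).trans ((abs_Oo_le _ _ _ _ _).trans (hp.Oe_exp (by linarith)).2)
      linarith [up x hx hz, tau_pos x]
    · filter_upwards [hcol, hc.near hS] with x h1 h2 a1 a2 hz
      obtain ⟨c1, -, -, c3, -⟩ := h1 a1 a2
      have hx : 6 * S.D ≤ ‖x‖ := by linarith
      have e1 : w.O S (20 * S.D) x ≤ 60 * w.O S 0 x := ((hp.cmp_s hx).2.2 hz.le).1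
      have e2 : 0 ≤ w.O S 0 x := ha.par.Oo_nonneg hx hz.le
      have k0 := hS.K0_ge
      have e3 : w.O S (20 * S.D) x / S.Kb ≤ w.O S 0 x / (2 * S.K0) := by
        rw [div_le_div_iff₀ (by linarith) (by linarith)]
        unfold Sd.Kb
        nlinarith [mul_le_mul_of_nonneg_left e1 (show 0 ≤ S.K0 by linarith),
          mul_nonneg e2 (show 0 ≤ S.K0 by linarith)]
      linarith [h2.2.2.1, c3 hz]
    · filter_upwards [s4_src hS hc ha hr hK5 p2 p3, hc.sizes] with x h1 h2 a1 hz _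
      have hx6 : 6 * S.D ≤ ‖x‖ := by linarith
      have hr0 : 0 < ‖x‖ := by linarith
      obtain ⟨-, -, v3, v4, -⟩ := ha.levels hc.l_pos hx6
      have l0 := hc.l_pos
      have m1 : 1 ≤ S.M := hc.M_ge
      have q0 : 0 ≤ 4 * w.l / ‖x‖ := by positivity
      have d0 : 0 ≤ S.D / ‖x‖ ^ 2 := by positivity
      refine ⟨by linarith, ?_⟩
      have l1 : _ * (w.O S (20 * S.D) x / S.Kb - tau x) + _ * w.O S 0 x + _ ≤
          lap (fun y => w.O S (20 * S.D) y / S.Kb - tau y) x :=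
        hsub S.D w.μ w.γ (aa S.D w.m2 x + 4 * w.l / ‖x‖) x ha.par hx6 (by linarith) hz.le
          (by linarith) (by
            have := (abs_le.1 v3).2
            rw [mul_div_assoc 5] at this
            rw [mul_div_assoc 6]
            linarith)
      rw [lap_neg (cw x (by linarith))]
      obtain ⟨s1, s2, H0⟩ := h1 (by linarith) hz
      have ev0 := (hc.nn x).2.1
      have s3 : |x 2| / ‖x‖ ^ 3 * w.f.Ev x ≤ |x 2| / ‖x‖ ^ 2 * w.f.Ev x := by
        gcongr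
        · linarith
        · norm_num
      have s4 : ex (2 / 5) x * w.f.Ev x ≤ S.M * ex (13 / 10) x := by
        have e2 : ex (13 / 10) x = ex (2 / 5) x * ex (9 / 10) x := by rw [← ex_add]; norm_num
        have := mul_le_mul_of_nonneg_left (h2.1.trans h2.2.2.2.2.2.2.2.2.2.2.2.2.2.1)
          (ex_pos (2 / 5) x).le
        rw [e2]
        linarith
      set H := w.O S 0 x / ‖x‖ ^ 2 with hH
      have x0 := ex_pos (13 / 10) x
      have s5 : w.f.O x / ‖x‖ ^ 2 + (|x 2| / ‖x‖ ^ 3 + ex (2 / 5) x) * w.f.Ev x ≤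
          (60 * S.Kb + 4 * K5) * H + (S.Kb + S.M) * ex (13 / 10) x := by linarith
      have s6 := mul_le_mul_of_nonneg_left s5 (show 0 ≤ w.l * S.M by positivity)
      have s7 := mul_le_mul_of_nonneg_right hl2 x0.le
      have s8 : w.l * S.M * ((60 * S.Kb + 4 * K5) * H) ≤
          S.D / (10 * S.Kb * ‖x‖ ^ 2) * w.O S 0 x := by
        have : S.D / (10 * S.Kb * ‖x‖ ^ 2) * w.O S 0 x = S.D / 10 * H / S.Kb := by rw [hH]; ring
        rw [this, le_div_iff₀ (by linarith)]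
        nlinarith [mul_le_mul_of_nonneg_right hl1 H0, mul_le_mul_of_nonneg_right hD H0]
      linarith
    · filter_upwards [hc.sizes] with x h2 a1 hz _
      have hx6 : 6 * S.D ≤ ‖x‖ := by linarith
      have hr0 : 0 < ‖x‖ := by linarith
      have e1 : w.O S (20 * S.D) x ≤ 3 * (S.D * x 2 / ‖x‖) * w.E S (20 * S.D) x :=
        (hp.Oo_size hx6 hz.le).2.1
      have e2 : w.E S (20 * S.D) x ≤ 1 := (hp.Oe_exp hx6).2.trans (ex_le_one (by norm_num) x)
      have e3 : 3 * (S.D * x 2 / ‖x‖) ≤ x 2 := by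
        rw [← mul_div_assoc, div_le_iff₀ hr0]
        nlinarith
      have e4 : 0 ≤ 3 * (S.D * x 2 / ‖x‖) := by positivity
      have e5 := mul_le_mul_of_nonneg_left e2 e4
      linarith [up x (by linarith) hz, tau_pos x, neg_le_abs (w.f.d x), h2.2.2.1]
  filter_upwards [key] with x hx h1 hz
  have e1 : w.O S 0 x ≤ 60 * w.O S (20 * S.D) x := ((hp.cmp_s (by linarith)).2.2 hz.le).2
  have e2 : w.O S 0 x / (60 * S.Kb) ≤ w.O S (20 * S.D) x / S.Kb := by
    rw [div_le_div_iff₀ (by linarith) (by linarith)]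
    nlinarith [mul_le_mul_of_nonneg_left e1 (show 0 ≤ S.Kb by linarith)]
  linarith [hx h1 hz]

/-- `cmpH` for `xNo` with the barrier `O(0) / r² + tau` (`no_super` with `δ`), `q = O`. -/
theorem step5 (hS : S.Ok) : ∀ᶠ r : ℝ in atTop, ∀ K5 : ℝ, 1 ≤ K5 →
    Evt S fun w => P2 S r K5 w → P3 S r w → P5 S r 1 w := by
  obtain ⟨hD, hKb, -, -, -, hδ, -⟩ := hS.consts
  filter_upwards [eventually_ge_atTop (6 * S.D), eventually_ge_atTop (80 * S.D / S.δ),
    no_super hδ] with r hr r2 hsup K5 hK5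
  refine ((((evt_adm hS).and (evt_collar hS hr one_pos)).and
    (evt_mul S (60 * S.Kb + 4 * K5) (a := S.δ / 8) (by positivity))).and
    (evt_mul S (S.Kb + 1) one_half_pos)).mono fun w hc ⟨⟨⟨ha, hcol⟩, hl1⟩, hl2⟩ p2 p3 => ?_
  have nn : ∀ x : X, r < ‖x‖ → 0 < x 2 → 0 ≤ w.O S 0 x / ‖x‖ ^ 2 := fun x hx hz => by
    have : 0 ≤ w.O S 0 x := ha.par.Oo_nonneg (by linarith) hz.le
    positivity
  have key : BdH r w.f.No fun x => w.O S 0 x / ‖x‖ ^ 2 + tau x := by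
    refine cmpH (C := 0) (q := w.f.O) hr hc.lh.2.2.2.1 hc.hNo.1 (hc.xNo.mono inter_subset_right)
      (((hc.li hS).2.1 _).mono inter_subset_right)
      ((hc.li hS).2.2.2.2.2.2.2.2.1.mono inter_subset_right)
      (fun x hx => (contDiffAt_div_pow (contDiffAt_Oo _ _ _ (by linarith) (by linarith))
        (norm_pos_iff.1 (by linarith)) 2).add (contDiffAt_tau (norm_pos_iff.1 (by linarith))))
      (fun x hx hz => by linarith [nn x hx hz, tau_pos x]) ?_ ?_ hc.strip hc.hO.hl.1 ?_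
    · filter_upwards [hcol, hc.near hS] with x h1 h2 a1 a2 hz
      linarith [(h1 a1 a2).1, h2.2.2.2.1, nn x a1 hz]
    · filter_upwards [s4_src hS hc ha hr hK5 p2 p3, hc.sizes] with x h1 h2 a1 hz _
      have hx6 : 6 * S.D ≤ ‖x‖ := by linarith
      obtain ⟨f1, -⟩ := ha.far hS hc.l_pos hx6 (by linarith)
      have e : S.eu - S.eg = S.δ := rfl
      rw [e]
      refine ⟨by linarith [(ha.levels hc.l_pos hx6).2.2.2.1], ?_⟩
      have l1 : lap (fun y => w.O S 0 y / ‖y‖ ^ 2 + tau y) x + _ * (w.O S 0 x / ‖x‖ ^ 2) + _ ≤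
          _ * (w.O S 0 x / ‖x‖ ^ 2 + tau x) :=
        hsup S.D w.μ w.γ (aa S.D w.m2 x + S.δ) x ha.par hx6 (by linarith) hz.le (by linarith)
      obtain ⟨s1, s2, H0⟩ := h1 (by linarith) hz
      have l0 := hc.l_pos
      have m1 : 1 ≤ S.M := hc.M_ge
      have s3 : |w.f.d x| / ‖x‖ ^ 2 ≤ w.f.O x / ‖x‖ ^ 2 := by gcongr; exact h2.2.2.1
      have x0 := ex_pos (13 / 10) x
      have s5 : |w.f.d x| / ‖x‖ ^ 2 + |x 2| / ‖x‖ ^ 2 * w.f.Ev x + ex (13 / 10) x ≤
          (60 * S.Kb + 4 * K5) * (w.O S 0 x / ‖x‖ ^ 2) + (S.Kb + 1) * ex (13 / 10) x := by linarith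
      have s6 := mul_le_mul_of_nonneg_left s5 (show 0 ≤ w.l * S.M by positivity)
      have s7 := mul_le_mul_of_nonneg_right hl2 x0.le
      have s8 := mul_le_mul_of_nonneg_right hl1 H0
      linarith
    · filter_upwards [hc.sizes] with x h2 a1 hz _
      linarith [nn x (by linarith) hz, tau_pos x, h2.2.2.2.1]
  refine BdH.even ?_ (hc.par.mono fun x hx => hx.2.2.2.1) fun x => by
    rw [Dy.O_rf, tau_rf, norm_rf]
  filter_upwards [key] with x hx h1 hz
  rw [one_mul]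
  refine (hx h1 hz).trans ?_
  gcongr
  exact le_abs_self _

end Crest.Agent.R335
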