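/-
R335/PR/S6: steps 6, 7: upper bounds of Ev and Ne
Skeleton by helper48 (row 335); keep the statements unchanged, add any helper lemmas you like.
-/
import Crest.Agent.R335.PR.H

set_option autoImplicit false
set_option linter.unusedSectionVars false
set_option linter.unusedVariables false
set_option linter.unusedSimpArgs false

noncomputable section

namespace Crest.Agent.R335

open MeasureTheory Set Filter Topology Metric
open scoped ENNReal

open Crest.Agent.R338 (pd lap)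

variable {S : Sd}

theorem srcE_le (hS : S.Ok) : ∃ Q : ℝ, 0 < Q ∧ ∀ (r : ℝ) (w : Dy), 6 * S.D ≤ r → Ch S w →
    Adm S w → P3 S r w → P5 S r 1 w → Bd r (srcE S.C1 S.D w.l S.M w.f)
      fun x => w.l * S.K2 * w.t1 S x + w.l * Q * ex (13 / 10) x := by
  obtain ⟨hD, hKb, -⟩ := hS.consts
  have hC := hS.C1_ge
  have hK0 := hS.K0_ge
  refine ⟨2 * (S.C1 * S.D * S.Kb + S.M ^ 2 + 8 + |S.M|), by positivity,
    fun r w hr hc ha p3 p5 => ?_⟩
  filter_upwards [p3, p5, hc.sizes] with x h3 h5 h2 hx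
  have hx6 : 6 * S.D ≤ ‖x‖ := by linarith
  have r1 : 1 ≤ ‖x‖ := by linarith
  have m1 : 1 ≤ S.M := hc.M_ge
  have t0 : w.t1 S x = |x 2| / ‖x‖ ^ 3 * |w.O S 0 x| := (ha.par.T1_eq hx6).1
  have t1 : 0 ≤ w.t1 S x := (ha.par.T1_eq hx6).2.1
  have x0 := ex_pos (13 / 10) x
  have ta := tau_pos x
  have tl := tau_le x
  have z3 := z_div_le r1 (k := 3) (by norm_num)
  have z2 := z_div_le r1 (k := 2) (by norm_num)
  have u1 : S.C1 * S.D * |x 2| / ‖x‖ ^ 3 * |w.f.d x| ≤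
      60 * (S.C1 * S.D * S.Kb) * w.t1 S x + S.C1 * S.D * S.Kb * ex (13 / 10) x :=
    calc _ ≤ S.C1 * S.D * |x 2| / ‖x‖ ^ 3 * (S.Kb * (60 * |w.O S 0 x| + tau x)) := by
          gcongr
          exact h2.2.2.1.trans (h3 hx)
      _ = 60 * (S.C1 * S.D * S.Kb) * w.t1 S x + S.C1 * S.D * S.Kb * (|x 2| / ‖x‖ ^ 3 * tau x) := by
          rw [t0]; ring
      _ ≤ _ := by
          gcongr
          exact (mul_le_of_le_one_left ta.le z3).trans tl
  have u2 := mul_le_mul_of_nonneg_left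
    (ex_mul_le ((h2.2.2.1.trans h2.2.1).trans h2.2.2.2.2.2.2.2.2.2.2.2.2.2.1))
    (show 0 ≤ S.M by linarith)
  have u3 : 8 * |x 2| / ‖x‖ ^ 2 * w.f.No x ≤ 8 * w.t1 S x + 8 * ex (13 / 10) x :=
    calc _ ≤ 8 * |x 2| / ‖x‖ ^ 2 * (1 * (|w.O S 0 x| / ‖x‖ ^ 2 + tau x)) := by
          gcongr
          exact h5 hx
      _ = 8 * (w.t1 S x / ‖x‖) + 8 * (|x 2| / ‖x‖ ^ 2 * tau x) := by rw [t0]; field_simp
      _ ≤ _ := by
          gcongr
          · exact div_le_self t1 r1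
          · exact (mul_le_of_le_one_left ta.le z2).trans tl
  have u4 : 2 * (60 * (S.C1 * S.D * S.Kb) + 8) ≤ S.K2 := by
    have : 1 * 1000 * 1 ≤ S.C1 * S.D * S.K0 := by gcongr
    unfold Sd.K2 Sd.Kb
    linarith
  have u5 := mul_le_mul_of_nonneg_right u4 t1
  rw [abs_of_pos (by linarith : 0 < S.M)]
  have u6 : 2 * ((S.C1 * S.D * |x 2| / ‖x‖ ^ 3 + S.M * ex (2 / 5) x) * |w.f.d x| +
      8 * |x 2| / ‖x‖ ^ 2 * w.f.No x + S.M * ex (13 / 10) x) ≤
      S.K2 * w.t1 S x + 2 * (S.C1 * S.D * S.Kb + S.M ^ 2 + 8 + S.M) * ex (13 / 10) x := by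
    linarith
  have := mul_le_mul_of_nonneg_left u6 hc.l_pos.le
  unfold srcE
  linarith

/-- `cmpE` for `xEv'` with the barrier `ebar` (`ebar_super`); collar: `Ev ≤ 2 g + 4 η`. -/
theorem step6 (hS : S.Ok) : ∀ᶠ r : ℝ in atTop,
    Evt S fun w => P3 S r w → P5 S r 1 w → P6 S r w := by
  obtain ⟨hD, hKb, -, -, -, hδ, -⟩ := hS.consts
  obtain ⟨Q, hQ, hsrc⟩ := srcE_le hS
  filter_upwards [eventually_ge_atTop (6 * S.D), ebar_super S hS] with r hr hsup
  refine (((evt_adm hS).and (evt_collar hS hr one_pos)).and (evt_sq S Q one_pos)).mono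
    fun w hc ⟨⟨ha, hcol⟩, hl⟩ p3 p5 => ?_
  have hs := hsup w ha hc.l_pos
  refine cmpE (C := 0) hr hc.lh.2.1 hc.hEv.1 hc.xEv' ((hc.li hS).2.1 _) (hc.li hS).2.2.2.2.2.1
    (fun x hx => (hs x hx.le).1) (fun x hx => by linarith [(hs x hx.le).2.1]) ?_ ?_
  · filter_upwards [hcol, hc.near hS] with x h1 h2 a1 a2
    obtain ⟨c1, -, -, -, -, c6, -⟩ := h1 a1 a2
    obtain ⟨b1, -, b3, -⟩ := ha.ebar_ge hS hc.l_pos (x := x) (by linarith)
    have k0 := hS.K0_ge
    have x0 := ex_pos (13 / 10) x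
    have u3 := mul_le_mul_of_nonneg_right k0 (x0.le.trans b1)
    unfold Sd.Kb at b3
    linarith [h2.1, tau_le x]
  · filter_upwards [hsrc r w hr hc ha p3 p5] with x h1 a1 _
    obtain ⟨-, -, v1, -, l1⟩ := hs x (by linarith)
    obtain ⟨b1, b2, -, -, b5, -⟩ := ha.ebar_ge hS hc.l_pos (x := x) (by linarith)
    refine ⟨by linarith, ?_⟩
    have x0 := ex_pos (13 / 10) x
    have u1 := mul_le_mul_of_nonneg_right hl x0.le
    have u2 := mul_le_mul_of_nonneg_left (b1.trans b2) (Real.sqrt_nonneg w.l)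
    have u3 := mul_pos hδ b5
    linarith [h1 (by linarith)]

/-- `cmpE` for `xNe` with the barrier `δ / c · ebar`; the extra slack is
`2 δ ebar ≥ δ ebar + δ Kb Eu + l K2 t1`. -/
theorem step7 (hS : S.Ok) : ∀ᶠ r : ℝ in atTop,
    Evt S fun w => P3 S r w → P5 S r 1 w → P6 S r w → P7 S r w := by
  obtain ⟨hD, hKb, hK2, -, -, hδ, -, hc0, -⟩ := hS.consts
  obtain ⟨Q, hQ, hsrc⟩ := srcE_le hS
  have hq : 0 < S.δ / S.c := by positivity
  filter_upwards [eventually_ge_atTop (6 * S.D), ebar_super S hS] with r hr hsup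
  refine ((((evt_adm hS).and (evt_collar hS hr hq)).and (evt_l S Q hδ)).and (evt_lM S hδ)).mono
    fun w hc ⟨⟨⟨ha, hcol⟩, hl⟩, hl'⟩ p3 p5 p6 => ?_
  have hs := hsup w ha hc.l_pos
  refine cmpE (C := 0) hr hc.lh.2.2.2.2.1 hc.hNe.1 hc.xNe ((hc.li hS).2.2.1 _ _)
    (hc.li hS).2.2.2.2.2.2.2.2.2.1 (fun x hx => contDiffAt_const.mul (hs x hx.le).1)
    (fun x hx => by linarith [mul_pos hq (hs x hx.le).2.1]) ?_ ?_
  · filter_upwards [hcol, hc.near hS] with x h1 h2 a1 a2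
    obtain ⟨-, -, -, b4, -⟩ := ha.ebar_ge hS hc.l_pos (x := x) (by linarith)
    linarith [(h1 a1 a2).1, h2.2.2.2.2, mul_le_mul_of_nonneg_left b4 hq.le]
  · filter_upwards [hsrc r w hr hc ha p3 p5, p6] with x h1 h6 a1 _
    obtain ⟨c1, e0, v1, -, l1⟩ := hs x (by linarith)
    obtain ⟨b1, b2, -, -, b5, b6, b7⟩ := ha.ebar_ge hS hc.l_pos (x := x) (by linarith)
    refine ⟨by linarith, ?_⟩
    have x0 := ex_pos (13 / 10) x
    have l0 := hc.l_pos
    have m1 : 1 ≤ S.M := hc.M_ge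
    have l2 : lap (w.ebar S) x ≤ (aa S.D w.m2 x + 2 * w.de) * w.ebar S x := by
      have : 0 ≤ √w.l * S.Kb * w.Eu S x := by
        have := x0.le.trans b1
        positivity
      have : 0 ≤ w.l * S.K2 * w.t1 S x := by positivity
      linarith [mul_pos hδ b5]
    have l3 := mul_le_mul_of_nonneg_left l2 hq.le
    have u1 := mul_le_mul_of_nonneg_right hl x0.le
    have u2 := mul_le_mul_of_nonneg_left (b1.trans b2) hδ.le
    have u3 := mul_le_mul_of_nonneg_left (h6 (by linarith)) (show 0 ≤ w.l * S.M by positivity)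
    have u4 := mul_le_mul_of_nonneg_right hl' e0.le
    have e : (aa S.D w.m2 x + 2 * w.de + 2 * S.c) * (S.δ / S.c * w.ebar S x) =
        S.δ / S.c * ((aa S.D w.m2 x + 2 * w.de) * w.ebar S x) + S.δ * w.ebar S x +
          S.δ * (S.Kb * w.Eu S x + w.l * S.K2 * pU S.D w.μ w.γ S.δ x) := by
      unfold Dy.ebar
      field_simp
      ring
    rw [lap_const_mul c1, e]
    linarith [h1 (by linarith)]

end Crest.Agent.R335
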