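/-
R335/PR/S8: steps 8, 9: the small channels and the lower bound of e1
Skeleton by helper48 (row 335); keep the statements unchanged, add any helper lemmas you like.
-/
import Crest.Agent.R335.PR.H

set_option autoImplicit false
set_option linter.unusedSectionVars false
set_option linter.unusedVariables false
set_option linter.unusedSimpArgs false

noncomputable section

namespace Crest.Agent.R335

open MeasureTheory Set Filter Topology Metric
open scoped ENNReal

open Crest.Agent.R338 (pd lap)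

variable {S : Sd}

/-- For `z > 0` write `k = κ0 + k1`, `κ0 = D z / (C1 r³)`, `k1 ≥ -M e^{-0.4 r}`, `d ≥ -tau`,
`|d| ≤ M e^{-0.9 r}`; `k d` is even (`ae_of_half`). -/
theorem kd_lower (hS : S.Ok) : ∃ Q : ℝ, 0 < Q ∧ ∀ (r : ℝ) (w : Dy), 6 * S.D ≤ r → Ch S w →
    Adm S w → P4 S r w → Bd r
      (fun x => S.D / (60 * S.C1 * S.Kb) * w.t1 S x - Q * ex (13 / 10) x)
      fun x => w.f.k x * w.f.d x := by
  obtain ⟨hD, hKb, -⟩ := hS.consts
  have hC := hS.C1_ge
  refine ⟨S.D + S.M ^ 2 + S.C1 * S.D + |S.M|, by positivity, fun r w hr hc ha p4 => ?_⟩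
  have m1 : 1 ≤ S.M := hc.M_ge
  rw [abs_of_pos (by linarith : 0 < S.M)]
  have key : BdH r (fun x => -(w.f.k x * w.f.d x)) fun x => -(S.D / (60 * S.C1 * S.Kb) * w.t1 S x -
      (S.D + S.M ^ 2 + S.C1 * S.D + S.M) * ex (13 / 10) x) := by
    filter_upwards [p4, hc.sizes] with x h4 h2 hx hz
    have hx6 : 6 * S.D ≤ ‖x‖ := by linarith
    have r1 : 1 ≤ ‖x‖ := by linarith
    have h4 := h4 hx hz
    have o0 : 0 ≤ w.O S 0 x := ha.par.Oo_nonneg hx6 hz.le
    have k1 := hc.k_up x hx6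
    have k2 := hc.k_lo x hx6 hz
    have z3 := z_div_le r1 (k := 3) (by norm_num)
    rw [abs_of_pos hz] at k1 z3
    have x0 := ex_pos (13 / 10) x
    have ta := tau_pos x
    have tl := tau_le x
    set κ := S.C1⁻¹ * S.D * x 2 / ‖x‖ ^ 3 with hκ
    have κ0 : 0 ≤ κ := by positivity
    have κ1 : κ ≤ S.D := by
      rw [hκ, mul_div_assoc]
      have : S.C1⁻¹ ≤ 1 := inv_le_one_of_one_le₀ hC
      calc _ ≤ 1 * S.D * 1 := by gcongr
        _ = _ := by ring
    have e : S.D / (60 * S.C1 * S.Kb) * w.t1 S x = κ * (w.O S 0 x / (60 * S.Kb)) := by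
      rw [hκ]; unfold Dy.t1 T1 Dy.O; field_simp
    have u0 := mul_le_mul_of_nonneg_left h4 κ0
    have u1 : κ * tau x ≤ S.D * ex (13 / 10) x := by gcongr
    have p1 : 0 ≤ S.M ^ 2 * ex (13 / 10) x := by positivity
    have p2 : 0 ≤ S.C1 * S.D * ex (13 / 10) x := by positivity
    have p3 : 0 ≤ S.M * ex (13 / 10) x := by positivity
    rw [e]
    rcases le_total 0 (w.f.d x) with hd | hd
    · have u2 := mul_le_mul_of_nonneg_right k2 hd
      have u3 := mul_le_mul_of_nonneg_left (ex_mul_le (((le_abs_self _).trans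
        (h2.2.2.1.trans h2.2.1)).trans h2.2.2.2.2.2.2.2.2.2.2.2.2.2.1)) (show 0 ≤ S.M by linarith)
      linarith
    · have d1 : -w.f.d x ≤ ex (13 / 10) x := by
        have : 0 ≤ w.O S 0 x / (60 * S.Kb) := by positivity
        linarith
      have k3 : w.f.k x ≤ S.C1 * S.D + S.M := by
        have a1 : S.C1 * S.D * x 2 / ‖x‖ ^ 3 ≤ S.C1 * S.D := by
          rw [mul_div_assoc]; exact mul_le_of_le_one_right (by positivity) z3
        have a2 : S.M * ex (2 / 5) x ≤ S.M :=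
          mul_le_of_le_one_right (by linarith) (ex_le_one (by norm_num) x)
        linarith [le_abs_self (w.f.k x)]
      have u2 := mul_le_mul_of_nonneg_right k3 (neg_nonneg.2 hd)
      have u3 := mul_le_mul_of_nonneg_left d1 (show 0 ≤ S.C1 * S.D + S.M by positivity)
      have u4 := mul_nonneg κ0 (neg_nonneg.2 hd)
      linarith
  refine (key.even (hc.par.mono fun x hx => ?_) fun x => ?_).mono fun x hx h => by linarith [hx h]
  · rw [hx.2.2.2.2.2.2.1, hx.2.2.2.2.2.2.2.2.2.2]; ring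
  · simp only [Dy.t1, T1_rf, ex, norm_rf]

/-- The term with `No` in the source of `xe`. -/
theorem s8_No (hS : S.Ok) {w : Dy} (hc : Ch S w) (ha : Adm S w) {r : ℝ} (hr : 6 * S.D ≤ r)
    (p5 : P5 S r 1 w) : ∀ᵐ x : X, r < ‖x‖ → S.M * ((|x 2| / ‖x‖ ^ 3 + ex (2 / 5) x) * w.f.No x) ≤
      S.M / ‖x‖ * w.t1 S x + (S.M + S.M ^ 2) * ex (13 / 10) x := by
  have hD := hS.ob.D_ge
  filter_upwards [p5, hc.sizes] with x h5 h2 hx
  have hx6 : 6 * S.D ≤ ‖x‖ := by linarith
  have r1 : 1 ≤ ‖x‖ := by linarith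
  have m1 : 1 ≤ S.M := hc.M_ge
  have t0 : w.t1 S x = |x 2| / ‖x‖ ^ 3 * |w.O S 0 x| := (ha.par.T1_eq hx6).1
  have t1 : 0 ≤ w.t1 S x := (ha.par.T1_eq hx6).2.1
  have u1 : |x 2| / ‖x‖ ^ 3 * w.f.No x ≤ w.t1 S x / ‖x‖ + ex (13 / 10) x :=
    calc _ ≤ |x 2| / ‖x‖ ^ 3 * (1 * (|w.O S 0 x| / ‖x‖ ^ 2 + tau x)) := by
          gcongr
          exact h5 hx
      _ = w.t1 S x / ‖x‖ / ‖x‖ + |x 2| / ‖x‖ ^ 3 * tau x := by rw [t0]; field_simp
      _ ≤ _ := by
          gcongr
          · exact div_le_self (by positivity) r1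
          · exact (mul_le_of_le_one_left (tau_pos x).le (z_div_le r1 (by norm_num))).trans (tau_le x)
  have u2 := ex_mul_le ((h2.2.2.2.1.trans h2.2.1).trans h2.2.2.2.2.2.2.2.2.2.2.2.2.2.1)
  have := mul_le_mul_of_nonneg_left (add_le_add u1 u2) (show 0 ≤ S.M by linarith)
  calc _ = S.M * (|x 2| / ‖x‖ ^ 3 * w.f.No x + ex (2 / 5) x * w.f.No x) := by ring
    _ ≤ _ := this
    _ = _ := by ring

theorem s8_div {M a r : ℝ} (ha : 0 < a) (h : M / a ≤ r) (hr : 0 < r) : M / r ≤ a := by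
  rw [div_le_iff₀ ha] at h
  rw [div_le_iff₀ hr]
  linarith

/-- `cmpE` for `xe` with the barrier `η8 ebar`; `|z| / r³ · No ≤ t1 / r² + tau`, `M / r² ≤ η8`;
collar: the combination is at most `(α1 + α3) g + 3 η`. -/
theorem step8 (hS : S.Ok) {η8 : ℝ} (h8 : 0 < η8) : ∀ᶠ r : ℝ in atTop,
    Evt S fun w => P4 S r w → P5 S r 1 w → P6 S r w → P8 S r η8 w := by
  obtain ⟨hD, hKb, hK2, -, -, hδ, -⟩ := hS.consts
  obtain ⟨Q, hQ, hkd⟩ := kd_lower hS
  filter_upwards [eventually_ge_atTop (6 * S.D), eventually_ge_atTop (S.M / η8), ebar_super S hS]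
    with r hr r2 hsup
  refine (((((evt_adm hS).and (evt_collar hS hr (ε := η8 / 3) (by positivity))).and
    (evt_sq S (4 * Q + S.M + S.M ^ 2) (a := η8 / 2) (by positivity))).and
    (evt_sq S S.M (a := η8 / 2) (by positivity))).and
    (evt_lM S (a := η8 * S.δ / 2) (by positivity))).mono
    fun w hc ⟨⟨⟨⟨ha, hcol⟩, hl1⟩, hl2⟩, hl3⟩ p4 p5 p6 α1 α2 α3 a1 a2 a3 a12 a13 => ?_
  have hs := hsup w ha hc.l_pos
  refine cmpE (C := 0) hr (hc.lin α1 α2 α3).1 (hc.lin α1 α2 α3).2 (hc.xe α1 α2 α3 a1 a2 a3)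
    ((hc.li hS).2.1 _) ((hc.li hS).2.2.2.2.2.2.2.2.2.2 _)
    (fun x hx => contDiffAt_const.mul (hs x hx.le).1)
    (fun x hx => by linarith [mul_pos h8 (hs x hx.le).2.1]) ?_ ?_
  · filter_upwards [hcol, hc.close] with x h1 h2 b1 b2
    obtain ⟨-, -, -, b4, -⟩ := ha.ebar_ge hS hc.l_pos (x := x) (by linarith)
    obtain ⟨-, c2, c3, c4, -⟩ := h2
    have f : ∀ α t : ℝ, |α| ≤ 1 → |t| ≤ w.η → α * t ≤ w.η := fun α t h h' =>
      (le_abs_self _).trans (by rw [abs_mul]; exact (mul_le_of_le_one_left (abs_nonneg _) h).trans h')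
    linarith [(h1 b1 b2).1, mul_le_mul_of_nonneg_left b4 h8.le, f _ _ a1 c2, f _ _ a2 c3,
      f _ _ a3 c4, mul_nonneg (neg_nonneg.2 a13) (hS.ob.g_nn x)]
  · filter_upwards [hkd r w hr hc ha p4, s8_No hS hc ha hr p5, p6] with x h1 h5 h6 b0 _
    obtain ⟨c1, e0, v1, -, l1⟩ := hs x (by linarith)
    obtain ⟨b1, b2, -, -, b5, b6, b7⟩ := ha.ebar_ge hS hc.l_pos (x := x) (by linarith)
    refine ⟨by linarith, ?_⟩
    have x0 := ex_pos (13 / 10) x
    have l0 := hc.l_pos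
    have m1 : 1 ≤ S.M := hc.M_ge
    have hC := hS.C1_ge
    have l3 := mul_le_mul_of_nonneg_left l1 h8.le
    have k1 : -(Q * ex (13 / 10) x) ≤ w.f.k x * w.f.d x := by
      have : 0 ≤ S.D / (60 * S.C1 * S.Kb) * w.t1 S x := by positivity
      linarith [h1 (by linarith)]
    have k2 : (α1 + α2) * (w.f.k x * w.f.d x) ≤ 2 * (Q * ex (13 / 10) x) := by
      have := mul_le_mul_of_nonneg_left k1 (neg_nonneg.2 a12)
      nlinarith [mul_le_mul_of_nonneg_right (show -(α1 + α2) ≤ 2 by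
        linarith [(abs_le.1 a1).1, (abs_le.1 a2).1]) (mul_pos hQ x0).le]
    have k3 := mul_le_mul_of_nonneg_left k2 l0.le
    have u3 := mul_le_mul_of_nonneg_left (h6 (by linarith)) (show 0 ≤ w.l * S.M by positivity)
    have u4 := mul_le_mul_of_nonneg_right hl3 b5.le
    have u5 := mul_le_mul_of_nonneg_right hl2 ((x0.le.trans b1).trans b2)
    have u6 := mul_le_mul_of_nonneg_left (h5 (by linarith)) l0.le
    have u7 := mul_le_mul_of_nonneg_right hl1 x0.le
    have u8 := mul_le_mul_of_nonneg_left (b1.trans b2) (show 0 ≤ η8 / 2 * √w.l by positivity)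
    have u9 : w.l * (S.M / ‖x‖ * w.t1 S x) ≤ w.l * (η8 * S.K2 * w.t1 S x) := by
      gcongr
      exact (s8_div h8 (r2.trans (by linarith)) (by linarith)).trans
        (le_mul_of_one_le_right h8.le hK2)
    rw [lap_const_mul c1]
    unfold Dy.ebar at u3
    linarith

/-- `cmpE` for `xe (-1) 0 0` with the barrier `-elow` (`elow_sub`, `kd_lower`);
`l M Ev ≤ l M K4 elow`. -/
theorem step9 (hS : S.Ok) : ∀ᶠ r : ℝ in atTop,
    Evt S fun w => P4 S r w → P5 S r 1 w → P6 S r w → P10 S r w → P9 S r w := by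
  obtain ⟨hD, hKb, hK2, hK3, hK4, hδ, hδ1, -⟩ := hS.consts
  obtain ⟨Q, hQ, hkd⟩ := kd_lower hS
  have hK0 := hS.K0_ge
  have hC := hS.C1_ge
  have hA : 0 < 1 + 2 * S.D / S.δ ^ 2 := by positivity
  filter_upwards [eventually_ge_atTop (6 * S.D), eventually_ge_atTop (S.M / (1 / S.K3)),
    elow_sub S hS, ebar_super S hS] with r hr r2 hsub hsup
  refine (((((evt_adm hS).and
    (evt_collar hS hr (ε := 1 / (200 * S.K0) / (1 + 2 * S.D / S.δ ^ 2)) (by positivity))).and
    (evt_sq S (2 * Q + S.M + S.M ^ 2) (a := 1 / (2 * S.Kb)) (by positivity))).and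
    (evt_sq S (S.M * S.K4) one_half_pos)).and
    (evt_mul S S.K4 (a := S.δ / 10) (by positivity))).mono
    fun w hc ⟨⟨⟨⟨ha, hcol⟩, hl1⟩, hl2⟩, hl3⟩ p4 p5 p6 p10 => ?_
  have hs := hsub w ha hc.l_pos
  have l0 := hc.l_pos
  have key : Bd r (fun x => -1 * w.f.e1 x + 0 * w.f.e2 x + 0 * w.f.e3 x) fun x => -w.elow S x := by
    refine cmpE (C := 1 + 2 * S.D / S.δ ^ 2) hr (hc.lin _ _ _).1 (hc.lin _ _ _).2
      (hc.xe (-1) 0 0 (by simp) (by simp) (by simp))
      ((hc.li hS).2.1 _) ((hc.li hS).2.2.2.2.2.2.2.2.2.2 _) (fun x hx => (hs x hx.le).1.neg)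
      (fun x hx => neg_le_neg (hs x hx.le).2.2.2.1) ?_ ?_
    · filter_upwards [hcol, hc.close] with x h1 h2 b1 b2
      obtain ⟨c1, c2, -, -, -, -, c7⟩ := h1 b1 b2
      obtain ⟨p0, p1, -⟩ := ha.par.pL_le (x := x) (by linarith) hδ (by linarith)
      have ta := tau_pos x
      have q0 : 0 ≤ 2 * S.D / S.δ ^ 2 := by positivity
      have p2 : pL S.D w.μ w.γ S.δ x ≤ 2 * S.D / S.δ ^ 2 :=
        p1.trans (mul_le_of_le_one_right q0 (ex_le_one (by norm_num) x))
      set ε := 1 / (200 * S.K0) / (1 + 2 * S.D / S.δ ^ 2) with hε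
      have u1 : w.l / S.K3 * pL S.D w.μ w.γ S.δ x ≤ ε * tau x * (2 * S.D / S.δ ^ 2) := by
        gcongr
        exact (div_le_self l0.le hK3).trans c2
      have u2 : ε * tau x + ε * tau x * (2 * S.D / S.δ ^ 2) = tau x / S.K0 / 200 := by
        rw [hε]; field_simp
      have u3 : tau x / S.K0 ≤ w.El S x / S.K0 := by
        gcongr
        exact (tau_le x).trans ((ex_anti (by norm_num) x).trans (hs x b1.le).2.2.1)
      have u4 : w.El S x / (120 * S.K0) = w.El S x / S.K0 / 120 := by ring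
      have u5 : w.El S x / S.Kb = w.El S x / S.K0 / 1000 := by unfold Sd.Kb; ring
      have u6 : 0 < tau x / S.K0 := by positivity
      unfold Dy.elow
      linarith [(abs_le.1 h2.2.1).1]
    · filter_upwards [hkd r w hr hc ha p4, s8_No hS hc ha hr p5, p6] with x h1 h5 h6 b0 _
      obtain ⟨c1, e0, e1, -, l1⟩ := hs x (by linarith)
      obtain ⟨p0, -⟩ := ha.par.pL_le (x := x) (by linarith) hδ (by linarith)
      have t1 : 0 ≤ w.t1 S x := (ha.par.T1_eq (by linarith)).2.1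
      refine ⟨by linarith [(hsup w ha l0 x (by linarith)).2.2.1], ?_⟩
      have x0 := ex_pos (13 / 10) x
      have e2 : ex (13 / 10) x ≤ w.El S x := (ex_anti (by norm_num) x).trans e1
      have m1 : 1 ≤ S.M := hc.M_ge
      have k3 := mul_le_mul_of_nonneg_left (h1 (by linarith)) l0.le
      have u3 := mul_le_mul_of_nonneg_left ((h6 (by linarith)).trans (p10 x (by linarith)))
        (show 0 ≤ w.l * S.M by positivity)
      have u4 := mul_le_mul_of_nonneg_right hl3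
        (show 0 ≤ w.l / S.K3 * pL S.D w.μ w.γ S.δ x by positivity)
      have u5 := mul_le_mul_of_nonneg_right hl2
        (show 0 ≤ w.El S x / S.Kb from div_nonneg (x0.le.trans e2) (by linarith))
      have u6 := mul_le_mul_of_nonneg_left (h5 (by linarith)) l0.le
      have u7 := mul_le_mul_of_nonneg_right hl1 x0.le
      have u8 : 1 / (2 * S.Kb) * √w.l * ex (13 / 10) x ≤ 1 / 2 * √w.l * (w.El S x / S.Kb) :=
        calc _ ≤ 1 / (2 * S.Kb) * √w.l * w.El S x := by gcongr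
          _ = _ := by ring
      have u9 : w.l * (S.M / ‖x‖ * w.t1 S x) ≤ w.l * (1 / S.K3 * w.t1 S x) := by
        gcongr w.l * (?_ * _)
        exact s8_div (by positivity) (r2.trans (by linarith)) (by linarith)
      have u10 : w.l * (5 / S.K3 * w.t1 S x) ≤ w.l * (S.D / (60 * S.C1 * S.Kb) * w.t1 S x) := by
        gcongr w.l * (?_ * _)
        rw [div_le_div_iff₀ (by linarith) (by positivity)]
        unfold Sd.K3 Sd.Kb
        nlinarith [mul_le_mul_of_nonneg_right hD (show 0 ≤ S.C1 * S.K0 by positivity),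
          show 0 ≤ S.C1 * S.K0 by positivity]
      have u11 : 0 ≤ w.l * (1 / S.K3 * w.t1 S x) := by positivity
      have e3 : w.l * (5 / S.K3 * w.t1 S x) = 5 * (w.l * (1 / S.K3 * w.t1 S x)) := by ring
      have e4 : 4 * (w.l / S.K3) * w.t1 S x = 4 * (w.l * (1 / S.K3 * w.t1 S x)) := by ring
      rw [lap_neg c1]
      unfold Dy.elow at u3
      linarith
  filter_upwards [key] with x hx h
  linarith [hx h]

end Crest.Agent.R335
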