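/-
R335/PR/Out: all exterior bounds
Skeleton by helper48 (row 335); keep the statements unchanged, add any helper lemmas you like.
-/
import Crest.Agent.R335.PR.S1
import Crest.Agent.R335.PR.S4
import Crest.Agent.R335.PR.S6
import Crest.Agent.R335.PR.S8
import Crest.Agent.R335.PR.S10

set_option autoImplicit false
set_option linter.unusedSectionVars false
set_option linter.unusedVariables false
set_option linter.unusedSimpArgs false

noncomputable section

namespace Crest.Agent.R335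

open MeasureTheory Set Filter Topology Metric
open scoped ENNReal

open Crest.Agent.R338 (pd lap)

theorem evt_out {S : Sd} (hS : S.Ok) : ∀ᶠ r : ℝ in atTop, ∃ K5 : ℝ, 1 ≤ K5 ∧ Evt S (Out S r K5) := by
  have h4 : 0 < 1 / (1000 * S.K4) := by
    have := hS.consts.2.2.2.2.1
    positivity
  filter_upwards [step1 hS, step2 hS, step3 hS, step4 hS, step5 hS, step6 hS, step7 hS,
    step8 hS h4, step9 hS, step10 hS, step11 hS] with r s1 s2 s3 s4 s5 s6 s7 s8 s9 s10 s11
  obtain ⟨K5, hK5, s2⟩ := s2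
  refine ⟨K5, hK5, ?_⟩
  refine ((((((((((evt_adm hS).and s1).and s2).and (s3 K5 hK5)).and (s4 K5 hK5)).and
    (s5 K5 hK5)).and s6).and s7).and s8).and s9).and s10 |>.mono fun w hw h => ?_
  obtain ⟨⟨⟨⟨⟨⟨⟨⟨⟨⟨a, p1⟩, q2⟩, q3⟩, q4⟩, q5⟩, q6⟩, q7⟩, q8⟩, q9⟩, p10⟩ := h
  have p2 := q2 p1
  have p3 := q3 p2
  have p4 := q4 p2 p3
  have p5 := q5 p2 p3
  have p6 := q6 p3 p5
  exact ⟨a, p1, p2, p3, p4, p5, p6, p10, s11 w hw a p4 p5 p6 (q7 p3 p5 p6) (q8 p4 p5 p6)
    (q9 p4 p5 p6 p10) p10⟩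

end Crest.Agent.R335
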