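/-
R335/PR/Sube: the two-sided equation of e and the ball condition
Skeleton by helper48 (row 335); keep the statements unchanged, add any helper lemmas you like.
-/
import Crest.Agent.R335.PR.S6
import Crest.Agent.R335.PR.S8

set_option autoImplicit false
set_option linter.unusedSectionVars false
set_option linter.unusedVariables false
set_option linter.unusedSimpArgs false

noncomputable section

namespace Crest.Agent.R335

open MeasureTheory Set Filter Topology Metric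
open scoped ENNReal

open Crest.Agent.R338 (pd lap)

variable {S : Sd}

theorem sube_li {f : X → ℝ} (h : LH eX f) (A : Set X) : LI A f := by
  have := (LI.const (S := univ) 1).mul_locBdd MeasurableSet.univ h.1.1.aesm h.2
  simp only [one_mul] at this
  exact this.mono (subset_univ _)

/-- `Sub.glue` at the radius `r + 1`: inside `Chan.sube` and `PI`, outside `xe` with
`α = σ (2, 1, 1) / √6` (`Sub.congr`), `Sub.change`;
`l K2 t1 ≤ δ ebar ≤ δ K4 elow ≤ e`, `M / r² ≤ 1`, `e^{-1.3 r} ≤ e`, `Ev ≤ 2 e`. -/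
theorem evt_pe (hS : S.Ok) : ∀ᶠ r : ℝ in atTop, ∀ K5 : ℝ,
    Evt S fun w => Out S r K5 w → PI S (r + 2) w → PE S w := by
  obtain ⟨hD, hKb, hK2, -, hK4, hδ, hδ1, hc0, hc1⟩ := hS.consts
  obtain ⟨Q, hQ, hsrc⟩ := srcE_le hS
  filter_upwards [eventually_ge_atTop (6 * S.D), eventually_ge_atTop S.M] with r hr r2 K5
  refine ((evt_l S Q one_pos).and (evt_l S (S.M + S.M ^ 2) one_pos)).mono
    fun w hc ⟨hl1, hl2⟩ ho hi σ hσ => ?_
  have ha := ho.adm
  obtain ⟨lR, -, -, -, -, -, -, -, -, -, le⟩ := hc.lh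
  have l0 := hc.l_pos
  have de0 : 0 ≤ w.de := by linarith [ha.de_ge]
  have de1 := ha.de_le
  have hσ' : ∀ t : ℝ, 0 ≤ t → -t ≤ 2 * w.de * (σ * t) := fun t ht => by
    have := mul_le_mul_of_nonneg_right (abs_le.1 hσ).1 ht
    nlinarith [mul_le_mul_of_nonneg_left this de0, mul_le_mul_of_nonneg_right de1 ht]
  have laa : ∀ A : Set X, LI A (aa S.D w.m2) := fun A => (li_aa _ _).mono (subset_univ _)
  refine Sub.glue (r := r + 1) (by linarith) MeasurableSet.univ (le.const_mul σ) (li_aa _ _)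
    (sube_li (le.const_mul 10) _) ?_ ?_
  · refine ((hc.sube σ hσ).mono (subset_univ _)).change
      (MeasurableSet.univ.inter measurableSet_closedBall) (le.const_mul σ)
      ((laa _).add (LI.const _)) (laa _) (sube_li (lR.const_mul _) _) (sube_li (le.const_mul 10) _) ?_
    filter_upwards [hi.2] with x hx hm
    obtain ⟨c1, -, -, -, c5, -⟩ := hx (by linarith [mem_closedBall_zero_iff.1 hm.2])
    have e0 : 0 ≤ w.f.e x := (hS.ob.g_nn x).trans c1
    linarith [hσ' _ e0]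
  · have s2 : 2 ≤ √6 := Real.le_sqrt_of_sq_le (by norm_num)
    have a2 : |σ / √6| ≤ 1 / 2 := by
      rw [abs_div, abs_of_pos (by linarith : 0 < √6), div_le_iff₀ (by linarith)]
      linarith
    have a1 : |2 * (σ / √6)| ≤ 1 := by rw [abs_mul, abs_two]; linarith
    have a3 : |2 * (σ / √6) + σ / √6| ≤ 2 := (abs_add_le _ _).trans (by linarith)
    have hx := hc.xe (2 * (σ / √6)) (σ / √6) (σ / √6) a1 (by linarith) (by linarith)
    have e : (fun x => 2 * (σ / √6) * w.f.e1 x + σ / √6 * w.f.e2 x + σ / √6 * w.f.e3 x) =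
        fun x => σ * w.f.e x := by
      funext x; unfold Fns.e; ring
    rw [e] at hx
    have sub : univ ∩ Ext (r + 1) ⊆ Ext (6 * S.D) := fun x hx => by
      have : r + 1 ≤ ‖x‖ := hx.2
      change 6 * S.D ≤ ‖x‖
      linarith
    refine (hx.mono sub).change (MeasurableSet.univ.inter (measurableSet_Ext _)) (le.const_mul σ)
      ((laa _).add (LI.const _)) (laa _) (((hc.li hS).2.2.2.2.2.2.2.2.2.2 _).mono sub)
      (sube_li (le.const_mul 10) _) ?_
    filter_upwards [hsrc r w hr hc ha ho.p3 ho.p5, s8_No hS hc ha hr ho.p5, ho.p11]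
      with x h1 h5 h11 hm
    have hm : r + 1 ≤ ‖x‖ := hm.2
    have hx : r < ‖x‖ := by linarith
    obtain ⟨c1, -, c3, -, -, c6⟩ := h11 hx
    obtain ⟨b1, b2, b3, -, b5, b6, b7⟩ := ha.ebar_ge hS l0 (x := x) (by linarith)
    have x0 := ex_pos (13 / 10) x
    have x1 : ex (13 / 10) x ≤ w.f.e x := (ex_anti (by norm_num) x).trans c6
    have e0 : 0 ≤ w.f.e x := by linarith
    have m1 : 1 ≤ S.M := hc.M_ge
    have u1 : w.l * S.K2 * w.t1 S x ≤ w.f.e x :=
      calc _ ≤ S.δ * (S.K4 * w.f.e x) := b7.trans (by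
            refine mul_le_mul_of_nonneg_left (le_trans ?_ ((ho.p10 x hx).trans
              (mul_le_mul_of_nonneg_left c1 (by linarith)))) hδ.le
            exact le_add_of_nonneg_left (by linarith))
        _ = S.δ * S.K4 * w.f.e x := by ring
        _ ≤ _ := mul_le_of_le_one_left e0 (by linarith [hS.small])
    have u2 : 2 * w.l * (2 * (σ / √6) + σ / √6) * w.f.k x * w.f.d x ≤
        2 * srcE S.C1 S.D w.l S.M w.f x := by
      have k1 := mul_le_mul_of_nonneg_right (hc.k_up x (by linarith)) (abs_nonneg (w.f.d x))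
      have k2 : (2 * (σ / √6) + σ / √6) * (w.f.k x * w.f.d x) ≤ 2 * (|w.f.k x| * |w.f.d x|) := by
        refine (le_abs_self _).trans ?_
        rw [abs_mul, abs_mul]
        gcongr
      have k3 : 0 ≤ 8 * |x 2| / ‖x‖ ^ 2 * w.f.No x := by
        have := (hc.nn x).2.2.2.1
        positivity
      have k4 : 0 ≤ S.M * ex (13 / 10) x := by positivity
      have k5 : (2 * (σ / √6) + σ / √6) * (w.f.k x * w.f.d x) ≤
        2 * ((S.C1 * S.D * |x 2| / ‖x‖ ^ 3 + S.M * ex (2 / 5) x) * |w.f.d x| +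
          8 * |x 2| / ‖x‖ ^ 2 * w.f.No x + S.M * ex (13 / 10) x) := by linarith
      have := mul_le_mul_of_nonneg_left k5 l0.le
      unfold srcE
      linarith
    have u3 := mul_le_mul_of_nonneg_right hl1 x0.le
    have u4 := mul_le_mul_of_nonneg_right hl2 x0.le
    have u5 := mul_le_mul_of_nonneg_right ha.lM (hc.nn x).2.1
    have u6 := mul_le_mul_of_nonneg_left (h5 hx) l0.le
    have u7 : w.l * (S.M / ‖x‖ * w.t1 S x) ≤ w.l * (S.K2 * w.t1 S x) := by
      gcongr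
      exact ((div_le_one (by linarith)).2 (by linarith)).trans hK2
    linarith [hσ' _ e0, h1 hx]

theorem BC.mono {Λ Λ' : ℝ} {f : Fns} {x0 : X} (h : BC Λ f x0) (hΛ : Λ ≤ Λ') : BC Λ' f x0 := by
  obtain ⟨α, L, m, h1, h2, h3, h4, h5, h6⟩ := h
  exact ⟨α, L, m, h1, h2, h3, h4, h5, h6.mono fun x hx hm => ⟨(hx hm).1,
    (hx hm).2.1.trans (mul_le_mul_of_nonneg_right hΛ h5.le), (hx hm).2.2⟩⟩

/-- `α = 0`, `OB.harn`. -/
theorem bc_inner (hS : S.Ok) {w : Dy} (h : Ch S w) {ρ : ℝ} (hi : PI S ρ w) {x0 : X}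
    (hx : ‖x0‖ + 8 ≤ ρ) : BC (2 * S.C) w.f x0 := by
  obtain ⟨m, hm, h1⟩ := hS.ob.harn x0
  have m1 : 1 ≤ S.M := h.M_ge
  refine ⟨0, S.M / m, m, le_rfl, by norm_num, by positivity, by norm_num, hm, ?_⟩
  filter_upwards [h1, hi.2, h.sizes] with x a1 a2 a3 hb
  obtain ⟨b1, b2⟩ := a1 hb
  have hn : ‖x‖ ≤ ρ := by
    have := norm_le_norm_add_norm_sub' x x0
    rw [mem_ball, dist_eq_norm] at hb
    linarith
  obtain ⟨c1, c2, c3, -⟩ := a2 hn
  refine ⟨by linarith, by linarith, by linarith, a3.2.2.2.2.2.2.2.2.2.2.2.2.2.2.trans ?_⟩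
  calc S.M = S.M / m * m := by field_simp
    _ ≤ _ := mul_le_mul (by linarith [Real.add_one_le_exp (S.M / m)]) (by linarith) hm.le
        (Real.exp_pos _).le

/-- `harnack 12 8`; `α = 1 / (‖x0‖ - 8)²`, `L = log M + 0.3 (‖x0‖ + 8)`. -/
theorem bc_far : ∃ Λ : ℝ, 1 ≤ Λ ∧ ∀ S : Sd, S.Ok → ∀ᶠ r : ℝ in atTop, ∀ (K5 : ℝ) (w : Dy),
    Ch S w → Out S r K5 w → PE S w → ∀ x0 : X, r + 60 ≤ ‖x0‖ → BC Λ w.f x0 := by
  obtain ⟨Λ, hΛ, hh⟩ := harnack 12 8 (by norm_num)
  refine ⟨Λ, hΛ, fun S hS => ?_⟩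
  have hD := hS.ob.D_ge
  filter_upwards [eventually_ge_atTop (6 * S.D), eventually_ge_atTop S.M]
    with r hr r2 K5 w hc ho hpe x0 hx0
  have le := hc.lh.2.2.2.2.2.2.2.2.2.2
  have nb : ∀ (ρ : ℝ) (x : X), x ∈ ball x0 ρ → ‖x0‖ - ρ ≤ ‖x‖ ∧ ‖x‖ ≤ ‖x0‖ + ρ := fun ρ x hb => by
    have h1 := norm_le_norm_add_norm_sub' x x0
    have h2 := norm_le_norm_add_norm_sub x0 x
    rw [mem_ball, dist_eq_norm] at hb
    have h3 := norm_le_norm_add_norm_sub' x0 x
    rw [norm_sub_rev] at h3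
    constructor <;> linarith
  have pos : ∀ᵐ x : X, x ∈ ball x0 (7 * 8) → 0 ≤ w.f.e x ∧ 9 / 10 ≤ aa S.D w.m2 x ∧
      aa S.D w.m2 x ≤ 2 := by
    filter_upwards [ho.p11] with x h11 hb
    have := (nb _ x hb).1
    obtain ⟨-, -, -, v4, v5, -⟩ := ho.adm.levels hc.l_pos (x := x) (by linarith)
    exact ⟨(ex_pos _ x).le.trans (h11 (by linarith)).2.2.2.2.2, v4, v5⟩
  have key : ∀ σ k : ℝ, |σ| ≤ 1 → (∀ a e : ℝ, 0 ≤ e → 9 / 10 ≤ a → a ≤ 2 →
      k * (σ * e) ≤ a * (σ * e) - 10 * e) →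
      Sub eX (ball x0 (7 * 8)) (fun x => σ * w.f.e x) (fun _ => k) 0 := fun σ k h1 h2 =>
    ((hpe σ h1).mono (subset_univ _)).change measurableSet_ball (le.const_mul σ)
      ((li_aa _ _).mono (subset_univ _)) (LI.const _) (sube_li (le.const_mul 10) _) (LI.const 0)
      (pos.mono fun x hx hb => by
        rw [Pi.zero_apply, sub_zero]
        exact h2 _ _ (hx hb).1 (hx hb).2.1 (hx hb).2.2)
  obtain ⟨m, hm, h1⟩ := hh w.f.e x0 le.1 (pos.mono fun x hx hb => (hx hb).1)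
    (by simpa only [one_mul] using key 1 (-12) (by simp) fun a e h1 h2 h3 => by nlinarith)
    (by simpa only [neg_mul, one_mul] using key (-1) 12 (by simp) fun a e h1 h2 h3 => by nlinarith)
  have m1 : 1 ≤ S.M := hc.M_ge
  have ρ0 : 0 < ‖x0‖ - 8 := by linarith
  refine ⟨1 / (‖x0‖ - 8) ^ 2, S.M + 3 / 10 * (‖x0‖ + 8), max m (Real.exp (-(6 / 5) * (‖x0‖ + 8))),
    by positivity, ?_, by positivity, ?_, lt_max_of_lt_right (Real.exp_pos _), ?_⟩
  · rw [div_le_iff₀ (by positivity)]; nlinarith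
  · rw [div_mul_eq_mul_div, div_le_iff₀ (by positivity)]; nlinarith
  filter_upwards [h1, ho.p11, hc.bd] with x a1 a2 a3 hb
  obtain ⟨n1, n2⟩ := nb _ x hb
  obtain ⟨-, -, -, c4, -, c6⟩ := a2 (by linarith)
  refine ⟨max_le (a1 hb).1 (le_trans (Real.exp_le_exp.2 (by linarith)) c6),
    (a1 hb).2.trans (mul_le_mul_of_nonneg_left (le_max_left _ _) (by linarith)), c4.trans ?_,
    a3.trans ?_⟩
  · have : 1 / (20 * ‖x‖ ^ 2) ≤ 1 / (‖x0‖ - 8) ^ 2 / 20 := by
      rw [div_div, mul_comm _ (20 : ℝ)]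
      gcongr
    gcongr
  · calc S.M * ex (9 / 10) x ≤ Real.exp S.M * ex (9 / 10) x :=
          mul_le_mul_of_nonneg_right (by linarith [Real.add_one_le_exp S.M]) (ex_pos _ x).le
      _ ≤ Real.exp (S.M + 3 / 10 * (‖x0‖ + 8)) * ex (6 / 5) x := by
          unfold ex
          rw [← Real.exp_add, ← Real.exp_add]
          exact Real.exp_le_exp.2 (by linarith)
      _ ≤ _ := by gcongr

theorem locPos_e {w : Dy} {r K5 : ℝ} (ho : Out S r K5 w) (hi : PI S r w) : LocPos w.f.e := by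
  intro R
  obtain ⟨⟨cg, h0, h1⟩, h2⟩ := hi
  refine ⟨min cg (Real.exp (-(6 / 5) * R)), lt_min h0 (Real.exp_pos _), ?_⟩
  filter_upwards [h1, h2, ho.p11] with x a1 a2 a3 hR
  rcases le_or_gt ‖x‖ r with h | h
  · exact (min_le_left _ _).trans ((a1 h).trans (a2 h).1)
  · exact (min_le_right _ _).trans (le_trans (Real.exp_le_exp.2 (by linarith)) (a3 h).2.2.2.2.2)

theorem dlo_e {w : Dy} {r K5 : ℝ} (hS : S.Ok) (hr : 6 * S.D ≤ r) (ho : Out S r K5 w)
    (hi : PI S r w) : ∀ᵐ x : X, 0 < x 2 → -w.f.e x / 10 ≤ w.f.d x := by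
  filter_upwards [hi.2, ho.p11, ho.p4] with x a2 a3 a4 hz
  rcases le_or_gt ‖x‖ r with h | h
  · exact (a2 h).2.2.2.1 hz
  · have o0 : 0 ≤ w.O S 0 x := ho.adm.par.Oo_nonneg (by linarith) hz.le
    have := hS.consts.2.1
    have : 0 ≤ w.O S 0 x / (60 * S.Kb) := by positivity
    linarith [a4 h hz, (a3 h).2.2.2.2.1]

end Crest.Agent.R335
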