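/-
R335/PR/Two: sharp profiles of g and u
Skeleton by helper48 (row 335); keep the statements unchanged, add any helper lemmas you like.
-/
import Crest.Agent.R335.PR.H

set_option autoImplicit false
set_option linter.unusedSectionVars false
set_option linter.unusedVariables false
set_option linter.unusedSimpArgs false

noncomputable section

namespace Crest.Agent.R335

open MeasureTheory Set Filter Topology Metric
open scoped ENNReal

open Crest.Agent.R338 (pd lap)

theorem two_exp {a b : ℝ} (h : a + 1 ≤ b) : Real.exp a ≤ Real.exp b / 2 := by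
  have h1 := Real.exp_le_exp.2 h
  rw [Real.exp_add] at h1
  nlinarith [Real.add_one_le_exp 1, Real.exp_pos a]

/-- On the collar the crude exponentials are comparable with the sharp profile. -/
theorem collar_exp {D μ γ t : ℝ} (h : Par D μ γ 0) (hμ : |μ - 1| ≤ 2 / 1000) (h1 : 5 * D ≤ t)
    (h2 : t ≤ 7 * D + 1) :
    Real.exp (-(999 / 1000) * t) ≤ Real.exp (D / 20) / 2 * Bf μ γ (-(20 * D)) t ∧
      Bf μ γ (20 * D) t ≤ Real.exp (D / 20) / 2 * Real.exp (-(1001 / 1000) * t) := by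
  have hD := h.D_ge
  have t0 : 0 < t := by linarith
  obtain ⟨m1, m2⟩ := abs_le.1 hμ
  have l0 : 0 ≤ Real.log t := Real.log_nonneg (by linarith)
  have l1 : Real.log t ≤ t / 1024 + 6 := by
    have := Real.log_le_sub_one_of_pos (show 0 < t / 2 ^ 10 by positivity)
    rw [Real.log_div t0.ne' (by norm_num), Real.log_pow] at this
    have := Real.log_two_lt_d9
    push_cast at *
    linarith
  have q : 20 * D / t ≤ 4 := by rw [div_le_iff₀ t0]; linarith
  have g1 := mul_le_mul_of_nonneg_right h.γ_le l0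
  have g0 := mul_nonneg (show 0 ≤ γ by linarith [h.γ_ge]) l0
  have u1 := mul_le_mul_of_nonneg_right m1 t0.le
  have u2 := mul_le_mul_of_nonneg_right m2 t0.le
  unfold Bf
  rw [div_mul_eq_mul_div, div_mul_eq_mul_div, ← Real.exp_add, ← Real.exp_add, neg_div]
  exact ⟨two_exp (by linarith), two_exp (by linarith)⟩

theorem two_lev {D e : ℝ} (hD : 1000 ≤ D) (he : |e + 1 / 2| ≤ 1 / 1000) :
    Par D (√(-2 * e)) (ga (-2 * e) 2) 0 ∧ |√(-2 * e) - 1| ≤ 2 / 1000 ∧ ∀ x : X, 6 * D ≤ ‖x‖ →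
      a0 (√(-2 * e)) (ga (-2 * e) 2) x - 20 * D / ‖x‖ ^ 2 ≤ aa D (-2 * e) x ∧
      aa D (-2 * e) x ≤ a0 (√(-2 * e)) (ga (-2 * e) 2) x + 20 * D / ‖x‖ ^ 2 ∧
      1 / 2 ≤ aa D (-2 * e) x := by
  obtain ⟨e1, e2⟩ := abs_le.1 he
  have hm : |-2 * e - 1| ≤ 2 / 1000 := abs_le.2 ⟨by linarith, by linarith⟩
  obtain ⟨hp, ha⟩ := par_ga (Zc := 2) hD (hm.trans (by norm_num)) (by norm_num) le_rfl
  refine ⟨hp, ?_, fun x hx => ?_⟩
  · have := (ga_close (m' := 1) (Zc := 2) (Zc' := 2) (hm.trans (by norm_num)) (by norm_num)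
      (by norm_num)).1
    rw [Real.sqrt_one] at this
    linarith
  · obtain ⟨v1, v2⟩ := abs_le.1 (V_ext hD hx)
    obtain ⟨a1, -, a3⟩ := hp.a0_bounds hx
    have d0 : 0 ≤ D / ‖x‖ ^ 2 := by positivity
    have e4 : 2 * 2 / ‖x‖ = 4 / ‖x‖ := by norm_num
    rw [ha, e4] at a1 ⊢
    rw [mul_div_assoc] at v1 v2 ⊢
    unfold aa
    exact ⟨by linarith, by linarith, by linarith⟩

theorem two_sub {D e : ℝ} {f : X → ℝ} (hf : H1 eX f)
    (he : ∀ φ, H1 eX φ → qf eX (V D) f φ = e * ip f φ) (A : Set X) :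
    Sub eX A f (aa D (-2 * e)) 0 ∧ Sub eX A (fun x => -f x) (aa D (-2 * e)) 0 := by
  have e1 : (fun x => 2 * V D x - 2 * e) = aa D (-2 * e) := by funext x; unfold aa; ring
  have h := sub_of_qf (pot_V D) hf he
  rw [e1] at h
  exact ⟨by simpa only [one_mul] using (h 1).mono (subset_univ _),
    by simpa only [neg_mul, one_mul] using (h (-1)).mono (subset_univ _)⟩

theorem two_exp_le {a t : ℝ} (ha : 0 ≤ a) (ht : 0 ≤ t) : Real.exp (-a * t) ≤ 1 :=
  Real.exp_le_one_iff.2 (by nlinarith)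

variable {c C D : ℝ} {g u : X → ℝ} {eg eu : ℝ}

/-- `cmpE` with `r = 6 D`, `sub_of_qf`, barriers `K Oe (∓ 20 D)` (`Par.lap_Oe`, `V_ext`),
`K = C e^{D/20}`, then `Par.cmp_s`. -/
theorem OB.two_g (h : OB c C D g u eg eu) :
    (∀ᵐ x : X, 6 * D < ‖x‖ →
      g x ≤ 60 * C * Real.exp (D / 20) * Oe D (√(-2 * eg)) (ga (-2 * eg) 2) 0 x) ∧
    ∀ᵐ x : X, 6 * D < ‖x‖ →
      Oe D (√(-2 * eg)) (ga (-2 * eg) 2) 0 x / (60 * C * Real.exp (D / 20)) ≤ g x := by
  have hD := h.D_ge
  have hC := h.C_ge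
  obtain ⟨hp, hμ, hl⟩ := two_lev hD h.eg_near
  obtain ⟨s1, s2⟩ := two_sub h.hg h.eqg (Ext (6 * D))
  set μ := √(-2 * eg)
  set γ := ga (-2 * eg) 2
  have x1 : 1 ≤ Real.exp (D / 20) := Real.one_le_exp (by positivity)
  have hK : 1 ≤ C * Real.exp (D / 20) := one_le_mul_of_one_le_of_one_le hC x1
  have lg : LH eX g := h.hg.lh (M := 2 * C) (h.g_up.mono fun x hx => by
    rw [abs_of_nonneg (h.g_nn x)]
    have a1 := two_exp_le (a := 999 / 1000) (by norm_num) (norm_nonneg (x - nuc D))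
    have a2 := two_exp_le (a := 999 / 1000) (by norm_num) (norm_nonneg (x + nuc D))
    unfold tp tm at hx
    nlinarith)
  have la : LI (Ext (6 * D)) (aa D (-2 * eg)) := (li_aa _ _).mono (subset_univ _)
  have ce : ∀ (s : ℝ) (x : X), 6 * D < ‖x‖ → ContDiffAt ℝ 2 (Oe D μ γ s) x := fun s x hx =>
    contDiffAt_Oe _ _ _ (by linarith) (by linarith)
  have col : ∀ x : X, 6 * D < ‖x‖ → ‖x‖ ≤ 6 * D + 1 → _ := fun x a1 a2 => by
    obtain ⟨⟨b1, b2⟩, ⟨b3, b4⟩, -⟩ := geo hD a1.le
    exact And.intro (collar_exp hp hμ (t := tp D x) (by linarith) (by linarith))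
      (collar_exp hp hμ (t := tm D x) (by linarith) (by linarith))
  constructor
  · have key : Bd (6 * D) g fun x => C * Real.exp (D / 20) * Oe D μ γ (-(20 * D)) x := by
      refine cmpE (C := 0) le_rfl lg h.hg.1 s1 la (LI.const 0)
        (fun x hx => contDiffAt_const.mul (ce _ x hx)) (fun x hx => ?_) ?_
        (Eventually.of_forall fun x hx _ => ?_)
      · have := Oe_pos D μ γ (-(20 * D)) x
        rw [zero_mul, neg_zero]
        positivity
      · filter_upwards [h.g_up] with x hx a1 a2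
        obtain ⟨⟨c1, -⟩, c2, -⟩ := col x a1 a2
        refine hx.trans ?_
        rw [mul_assoc]
        refine mul_le_mul_of_nonneg_left ?_ (by linarith)
        unfold Oe
        linarith [Real.exp_pos (-(999 / 1000) * tp D x), Real.exp_pos (-(999 / 1000) * tm D x)]
      · obtain ⟨v1, -, v3⟩ := hl x (by linarith)
        refine ⟨v3, ?_⟩
        have := mul_le_mul_of_nonneg_left ((hp.lap_Oe (x := x) (by linarith)).1.trans
          (mul_le_mul_of_nonneg_right v1 (Oe_pos _ _ _ _ _).le)) (zero_le_one.trans hK)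
        rw [lap_const_mul (ce _ x (by linarith)), Pi.zero_apply]
        linarith
    filter_upwards [key] with x hx a1
    have := mul_le_mul_of_nonneg_left (hp.neg20.cmp_s a1.le).1 (zero_le_one.trans hK)
    linarith [hx a1]
  · have key : Bd (6 * D) (fun x => -g x)
        fun x => -(Oe D μ γ (20 * D) x / (C * Real.exp (D / 20))) := by
      refine cmpE (C := 1) le_rfl lg.neg h.hg.1.neg s2 la (LI.const 0)
        (fun x hx => ((ce _ x hx).div_const _).neg) (fun x hx => ?_) ?_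
        (Eventually.of_forall fun x hx _ => ?_)
      · linarith [div_le_self (Oe_pos D μ γ (20 * D) x).le hK, (hp.pos20.Oe_exp hx.le).2]
      · filter_upwards [h.g_lo] with x hx a1 a2
        obtain ⟨⟨-, c1⟩, -, c2⟩ := col x a1 a2
        refine neg_le_neg (le_trans ?_ hx)
        rw [div_le_iff₀ (by linarith), mul_comm C⁻¹, mul_assoc, inv_mul_cancel_left₀ (by linarith)]
        unfold Oe
        linarith [Bf_pos μ γ (20 * D) (tp D x), Bf_pos μ γ (20 * D) (tm D x)]
      · obtain ⟨-, v2, v3⟩ := hl x (by linarith)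
        refine ⟨v3, ?_⟩
        have := div_le_div_of_nonneg_right ((mul_le_mul_of_nonneg_right v2
          (Oe_pos _ _ _ _ _).le).trans (hp.lap_Oe (x := x) (by linarith)).2.1) (zero_le_one.trans hK)
        rw [lap_neg ((ce _ x (by linarith)).div_const _), lap_div_const (ce _ x (by linarith)),
          Pi.zero_apply]
        rw [mul_div_assoc] at this
        linarith
    filter_upwards [key] with x hx a1
    refine le_trans ?_ (neg_le_neg_iff.1 (hx a1))
    rw [mul_assoc, ← div_div]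
    gcongr
    linarith [(hp.pos20.cmp_s a1.le).2.1]

/-- `cmpH`, `Par.lap_Oo`, `diff_le` on the collar, `Strip.of_odd`, `strip_coord`. -/
theorem OB.two_u (h : OB c C D g u eg eu) :
    (∀ᵐ x : X, 6 * D < ‖x‖ → 0 < x 2 →
      u x ≤ 60 * C * Real.exp (D / 20) * Oo D (√(-2 * eu)) (ga (-2 * eu) 2) 0 x) ∧
    ∀ᵐ x : X, 6 * D < ‖x‖ → 0 < x 2 →
      Oo D (√(-2 * eu)) (ga (-2 * eu) 2) 0 x / (60 * C * Real.exp (D / 20)) ≤ u x := by
  have hD := h.D_ge
  have hC := h.C_ge
  obtain ⟨hp, hμ, hl⟩ := two_lev hD h.eu_near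
  obtain ⟨s1, s2⟩ := two_sub h.hu h.equ (Hs ∩ Ext (6 * D))
  set μ := √(-2 * eu)
  set γ := ga (-2 * eu) 2
  have x1 : 1 ≤ Real.exp (D / 20) := Real.one_le_exp (by positivity)
  have hK : 1 ≤ C * Real.exp (D / 20) := one_le_mul_of_one_le_of_one_le hC x1
  have lu : LH eX u := h.hu.lh (M := C) (ae_of_half (h.u_up.mono fun x hx hz => by
    rw [abs_of_nonneg (h.u_nn x hz)]
    have a1 := two_exp_le (a := 999 / 1000) (by norm_num) (norm_nonneg (x - nuc D))
    have a2 := Real.exp_pos (-(999 / 1000) * tm D x)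
    have := hx hz
    unfold tp at this
    nlinarith) (Eventually.of_forall fun x hx => by rwa [h.u_odd, abs_neg] at hx))
  have la : LI (Hs ∩ Ext (6 * D)) (aa D (-2 * eu)) := (li_aa _ _).mono (subset_univ _)
  have ce : ∀ (s : ℝ) (x : X), 6 * D < ‖x‖ → ContDiffAt ℝ 2 (Oo D μ γ s) x := fun s x hx =>
    contDiffAt_Oo _ _ _ (by linarith) (by linarith)
  have de : ∀ a t : ℝ, HasDerivAt (fun t : ℝ => Real.exp (-a * t)) (-a * Real.exp (-a * t)) t :=
    fun a t => (((hasDerivAt_id' t).const_mul (-a)).exp).congr_deriv (by ring)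
  have col : ∀ x : X, 6 * D < ‖x‖ → ‖x‖ ≤ 6 * D + 1 → 0 < x 2 →
      Real.exp (-(999 / 1000) * tp D x) - Real.exp (-(999 / 1000) * tm D x) ≤
        Real.exp (D / 20) * Oo D μ γ (-(20 * D)) x ∧ Oo D μ γ (20 * D) x ≤ Real.exp (D / 20) *
        (Real.exp (-(1001 / 1000) * tp D x) - Real.exp (-(1001 / 1000) * tm D x)) :=
    fun x a1 a2 hz => by
      obtain ⟨⟨b1, -⟩, ⟨-, b4⟩, -, -, -, b5⟩ := geo hD a1.le
      have hab : tp D x ≤ tm D x := by
        have := (b5 hz.le).1
        have : 0 ≤ D * x 2 / ‖x‖ := by positivity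
        linarith
      have t0 : ∀ t ∈ Icc (tp D x) (tm D x), 5 * D ≤ t ∧ t ≤ 7 * D + 1 := fun t ht =>
        ⟨by linarith [ht.1], by linarith [ht.2]⟩
      refine ⟨diff_le hab (fun t _ => de _ t)
        (fun t ht => hasDerivAt_Bf μ γ _ (by linarith [(t0 t ht).1])) fun t ht => ?_,
        diff_le hab (fun t ht => hasDerivAt_Bf μ γ _ (by linarith [(t0 t ht).1]))
        (fun t _ => de _ t) fun t ht => ?_⟩
      · have c1 := (collar_exp hp hμ (t0 t ht).1 (t0 t ht).2).1
        have := mul_le_mul_of_nonneg_right (hp.neg20.ld (t0 t ht).1).2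
          (mul_pos (Real.exp_pos (D / 20)) (Bf_pos μ γ (-(20 * D)) t)).le
        linarith [Real.exp_pos (-(999 / 1000) * t)]
      · have c1 := (collar_exp hp hμ (t0 t ht).1 (t0 t ht).2).2
        have := mul_le_mul_of_nonneg_right (hp.pos20.ld (t0 t ht).1).1 (Bf_pos μ γ (20 * D) t).le
        linarith [Bf_pos μ γ (20 * D) t]
  constructor
  · have nn : ∀ x : X, 6 * D < ‖x‖ → 0 < x 2 → 0 ≤ C * Real.exp (D / 20) * Oo D μ γ (-(20 * D)) x :=
      fun x hx hz => mul_nonneg (by linarith) (hp.neg20.Oo_nonneg hx.le hz.le)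
    have key : BdH (6 * D) u fun x => C * Real.exp (D / 20) * Oo D μ γ (-(20 * D)) x := by
      refine cmpH (C := 0) (q := u) le_rfl lu h.hu.1 s1 la (LI.const 0)
        (fun x hx => contDiffAt_const.mul (ce _ x hx)) (fun x hx hz => by linarith [nn x hx hz]) ?_
        (Eventually.of_forall fun x hx hz _ => ?_)
        (Strip.of_odd h.hu.hl (Eventually.of_forall h.u_odd)) h.hu.hl.1
        (Eventually.of_forall fun x hx hz _ => by linarith [nn x (by linarith) hz])
      · filter_upwards [h.u_up] with x hx a1 a2 hz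
        refine (hx hz).trans ?_
        rw [mul_assoc]
        exact mul_le_mul_of_nonneg_left (col x a1 a2 hz).1 (by linarith)
      · obtain ⟨v1, -, v3⟩ := hl x (by linarith)
        refine ⟨v3, ?_⟩
        have := mul_le_mul_of_nonneg_left ((hp.lap_Oo (x := x) (by linarith) hz.le).1.trans
          (mul_le_mul_of_nonneg_right v1 (hp.neg20.Oo_nonneg (by linarith) hz.le)))
          (zero_le_one.trans hK)
        rw [lap_const_mul (ce _ x (by linarith)), Pi.zero_apply]
        linarith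
    filter_upwards [key] with x hx a1 hz
    have := mul_le_mul_of_nonneg_left ((hp.neg20.cmp_s a1.le).2.2 hz.le).1 (zero_le_one.trans hK)
    linarith [hx a1 hz]
  · have up : ∀ x : X, 6 * D < ‖x‖ → 0 < x 2 →
        Oo D μ γ (20 * D) x / (C * Real.exp (D / 20)) ≤ Oo D μ γ (20 * D) x :=
      fun x hx hz => div_le_self (hp.pos20.Oo_nonneg hx.le hz.le) hK
    have key : BdH (6 * D) (fun x => -u x)
        fun x => -(Oo D μ γ (20 * D) x / (C * Real.exp (D / 20))) := by
      refine cmpH (C := 1) (q := fun x => x 2) le_rfl lu.neg h.hu.1.neg s2 la (LI.const 0)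
        (fun x hx => ((ce _ x hx).div_const _).neg) (fun x hx hz => ?_) ?_
        (Eventually.of_forall fun x hx hz _ => ?_) strip_coord
        (LocL2.of_continuous (EuclideanSpace.proj (𝕜 := ℝ) (2 : Fin 3)).continuous)
        (Eventually.of_forall fun x hx hz _ => ?_)
      · linarith [up x hx hz, (hp.pos20.Oe_exp hx.le).2, abs_Oo_le D μ γ (20 * D) x,
          le_abs_self (Oo D μ γ (20 * D) x)]
      · filter_upwards [h.u_lo] with x hx a1 a2 hz
        refine neg_le_neg (le_trans ?_ (hx hz))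
        rw [div_le_iff₀ (by linarith), mul_comm C⁻¹, mul_assoc, inv_mul_cancel_left₀ (by linarith)]
        exact (col x a1 a2 hz).2.trans_eq (mul_comm _ _)
      · obtain ⟨-, v2, v3⟩ := hl x (by linarith)
        refine ⟨v3, ?_⟩
        have := div_le_div_of_nonneg_right ((mul_le_mul_of_nonneg_right v2
          (hp.pos20.Oo_nonneg (by linarith) hz.le)).trans
          (hp.lap_Oo (x := x) (by linarith) hz.le).2.1) (zero_le_one.trans hK)
        rw [lap_neg ((ce _ x (by linarith)).div_const _), lap_div_const (ce _ x (by linarith)),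
          Pi.zero_apply]
        rw [mul_div_assoc] at this
        linarith
      · have hx6 : 6 * D ≤ ‖x‖ := by linarith
        have e1 := (hp.pos20.Oo_size hx6 hz.le).2.1
        have e2 := (hp.pos20.Oe_exp hx6).2.trans (ex_le_one (by norm_num) x)
        have e3 : 3 * (D * x 2 / ‖x‖) ≤ x 2 := by
          rw [← mul_div_assoc, div_le_iff₀ (by linarith)]
          nlinarith
        have e5 := mul_le_mul_of_nonneg_left e2 (show 0 ≤ 3 * (D * x 2 / ‖x‖) by positivity)
        linarith [up x (by linarith) hz, h.u_nn x hz]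
    filter_upwards [key] with x hx a1 hz
    refine le_trans ?_ (neg_le_neg_iff.1 (hx a1 hz))
    rw [mul_assoc, ← div_div]
    gcongr
    linarith [((hp.pos20.cmp_s a1.le).2.2 hz.le).2]

/-- `D² e^{D/5} e^{-3D/2} → 0`. -/
theorem exists_ok (c C C1 θ : ℝ) (hC1 : 1 ≤ C1) (hθ : 0 < θ) : ∃ D0 : ℝ, ∀ D : ℝ, D0 ≤ D →
    ∀ g u eg eu, OB c C D g u eg eu → ∀ M : ℝ,
      (Sd.mk c C C1 D g u eg eu (60 * C * Real.exp (D / 20)) M).Ok ∧
      (10 ^ 5 * (Sd.mk c C C1 D g u eg eu (60 * C * Real.exp (D / 20)) M).K4) ^ 2 * (eu - eg) ≤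
        θ := by
  by_cases hc : 0 < c ∧ 1 ≤ C
  swap
  · exact ⟨0, fun D _ g u eg eu h => (hc ⟨h.c_pos, h.C_ge⟩).elim⟩
  obtain ⟨hc, hC⟩ := hc
  set A : ℝ := (10 ^ 19 * C1 ^ 2 * (60 * C) ^ 2) ^ 2 * C with hA
  have A0 : 0 < A := by positivity
  have hm : 0 < min θ (c / 1000) := lt_min hθ (by positivity)
  obtain ⟨D0, hD0⟩ := eventually_atTop.1 ((Real.tendsto_pow_mul_exp_neg_atTop_nhds_zero 2).eventually
    (eventually_le_nhds (div_pos hm A0)))
  refine ⟨D0, fun D hD g u eg eu h M => ?_⟩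
  have hD1 := h.D_ge
  have x1 : 1 ≤ Real.exp (D / 20) := Real.one_le_exp (by positivity)
  have hK : 1 ≤ 60 * C * Real.exp (D / 20) := one_le_mul_of_one_le_of_one_le (by linarith) x1
  set S := Sd.mk c C C1 D g u eg eu (60 * C * Real.exp (D / 20)) M with hS
  have e4 : S.K4 = 10 ^ 14 * C1 ^ 2 * D * (60 * C * Real.exp (D / 20)) ^ 2 := rfl
  have k4 : 1 ≤ S.K4 := by
    rw [e4]
    calc (1 : ℝ) ≤ 10 ^ 14 * 1 ^ 2 * 1000 * 1 ^ 2 := by norm_num
      _ ≤ _ := by gcongr
  have key : (10 ^ 5 * S.K4) ^ 2 * (eu - eg) ≤ min θ (c / 1000) := by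
    have h1 := hD0 D hD
    rw [le_div_iff₀ A0] at h1
    have h2 : Real.exp (D / 20) ^ 4 * Real.exp (-(3 / 2) * D) ≤ Real.exp (-D) := by
      rw [← Real.exp_nat_mul, ← Real.exp_add]
      exact Real.exp_le_exp.2 (by push_cast; linarith)
    calc _ ≤ (10 ^ 5 * S.K4) ^ 2 * (C * Real.exp (-(3 / 2) * D)) :=
          mul_le_mul_of_nonneg_left h.del (sq_nonneg _)
      _ = D ^ 2 * (Real.exp (D / 20) ^ 4 * Real.exp (-(3 / 2) * D)) * A := by rw [e4, hA]; ring
      _ ≤ D ^ 2 * Real.exp (-D) * A := by gcongr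
      _ ≤ _ := h1
  refine ⟨⟨h, hC1, hK, h.two_g.1, h.two_g.2, h.two_u.1, h.two_u.2, ?_⟩, key.trans (min_le_left _ _)⟩
  refine le_trans ?_ (key.trans (min_le_right _ _))
  rw [mul_comm]
  exact mul_le_mul_of_nonneg_right (by nlinarith) (sub_nonneg.2 h.lt.le)

end Crest.Agent.R335
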