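/-
R335/PR/Main: block PR
Skeleton by helper48 (row 335); keep the statements unchanged, add any helper lemmas you like.
-/
import Crest.Agent.R335.PR.Two
import Crest.Agent.R335.PR.Out
import Crest.Agent.R335.PR.Sube
import Crest.Agent.R335.PR.Slab
import Crest.Agent.R335.PR.Decay

set_option autoImplicit false
set_option linter.unusedSectionVars false
set_option linter.unusedVariables false
set_option linter.unusedSimpArgs false

noncomputable section

namespace Crest.Agent.R335

open MeasureTheory Set Filter Topology Metric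
open scoped ENNReal

theorem PI.mono {S : Sd} {w : Dy} {ρ ρ' : ℝ} (h : PI S ρ w) (hρ : ρ' ≤ ρ) : PI S ρ' w := by
  obtain ⟨⟨cg, h1, h2⟩, h3⟩ := h
  exact ⟨⟨cg, h1, h2.mono fun x hx hn => hx (hn.trans hρ)⟩,
    h3.mono fun x hx hn => hx (hn.trans hρ)⟩

theorem main_li {f : X → ℝ} (h : LH eX f) : LI univ f := by
  have := (LI.const (S := univ) 1).mul_locBdd MeasurableSet.univ h.1.1.aesm h.2
  simpa only [one_mul] using this

theorem main_up {f s s' a : X → ℝ} (h : Sub eX univ f a s) (hf : LH eX f) (ha : LI univ a)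
    (hs : LH eX s) (hs' : LH eX s') (hle : ∀ᵐ x : X, s x ≤ s' x) : Sub eX univ f a s' :=
  h.change MeasurableSet.univ hf ha ha (main_li hs) (main_li hs')
    (hle.mono fun x hx _ => by linarith)

theorem main_core {D : ℝ} (hD : 0 ≤ D) {x : X} (h : tp D x ≤ 20 ∨ tm D x ≤ 20) :
    ‖x‖ ≤ D + 20 := by
  have hn : ‖nuc D‖ = D := by
    unfold nuc
    rw [EuclideanSpace.norm_single, Real.norm_eq_abs, abs_of_nonneg hD]
  rcases h with h | h
  · have := norm_add_le (x - nuc D) (nuc D)
    rw [sub_add_cancel] at this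
    unfold tp at h
    linarith
  · have := norm_sub_le (x + nuc D) (nuc D)
    rw [add_sub_cancel_right] at this
    unfold tm at h
    linarith

theorem stProf : StProf := by
  intro c C C1 C2 hC1
  obtain ⟨ΛH, hΛH, hfar⟩ := bc_far
  refine ⟨max (max ΛH (2 * C)) (max (Lam0 C) 10), fun θ hθ => ?_⟩
  set Λ := max (max ΛH (2 * C)) (max (Lam0 C) 10) with hΛ
  have l1 : ΛH ≤ Λ := (le_max_left _ _).trans (le_max_left _ _)
  have l2 : 2 * C ≤ Λ := (le_max_right _ _).trans (le_max_left _ _)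
  have l3 : Lam0 C ≤ Λ := (le_max_left _ _).trans (le_max_right _ _)
  have l4 : 10 ≤ Λ := (le_max_right _ _).trans (le_max_right _ _)
  obtain ⟨D0, hD0⟩ := exists_ok c C C1 θ hC1 hθ
  refine ⟨D0, fun D hD g u eg eu hob => ?_⟩
  refine ⟨10 ^ 5 * (Sd.mk c C C1 D g u eg eu (60 * C * Real.exp (D / 20)) 0).K4,
    (hD0 D hD g u eg eu hob 0).2, fun M Rmin => ?_⟩
  obtain ⟨hS, -⟩ := hD0 D hD g u eg eu hob M
  set S : Sd := Sd.mk c C C1 D g u eg eu (60 * C * Real.exp (D / 20)) M with hSdef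
  have hc := hS.consts
  have hε : 0 < 1 / (10 ^ 8 * S.Kb ^ 2) := by
    have := hc.2.1
    positivity
  obtain ⟨r, ⟨K5, hK5, eo⟩, epe, hbf, hsl, epn, hp2, hrm, hr6⟩ := ((evt_out hS).and ((evt_pe hS).and
    ((hfar S hS).and ((slab_pi hS).and ((evt_pn hS C2 hε).and ((pass_two hS C2).and
    ((eventually_ge_atTop Rmin).and (eventually_ge_atTop (6 * S.D + 100))))))))).exists
  have hD1 : 1000 ≤ S.D := hc.1
  have hDD : S.D = D := rfl
  obtain ⟨ϱ, hϱ, hϱ1, hp1⟩ := pass_one hS C2 (r := r) (R0 := 2 * r) (by linarith) (by linarith)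
  obtain ⟨η0, hη0, hall⟩ := (eo.and (evt_inner hS (10 * r))).and ((epe K5).and epn)
  refine ⟨2 * r, ϱ, η0, by linarith, hϱ, hϱ1, hη0, fun η l m2 de f hη hch => ?_⟩
  set w : Dy := Dy.mk η l m2 de f with hw
  have hch' : Ch S w := hch
  obtain ⟨⟨ho, hi⟩, hpe, hpn⟩ := hall w hη hch'
  have hpe := hpe ho (hi.mono (by linarith))
  have hir : PI S r w := hi.mono (by linarith)
  have hpos : LocPos f.e := locPos_e ho hir
  obtain ⟨lR, -, -, -, -, lN, ld, -, -, -, le⟩ := hch'.lh
  have hlM : l * M ≤ 1 := ho.adm.lM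
  have hlR : ∀ᵐ x : X, l * M * f.R x ≤ f.R x := Eventually.of_forall fun x => by
    have := (hch.nn x).1
    nlinarith
  refine
    { Λ_ge := by linarith
      K_ge := ?_
      R0_ge := by linarith
      m2_near := ho.adm.m2_near
      pos := hpos
      inner := ?_
      core := ?_
      dlo := dlo_e hS (by linarith) ho hir
      bc := ?_
      sube := fun σ hσ => ?_
      subd := fun σ hσ => ?_
      subN := ?_
      slab := hsl K5 w hch' ho
      decay := ?_
      comp := fun t ht ht1 => comp_R hS (by linarith) hK5 hch' ho ht ht1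
      low := fun κ h1 h2 => low_e hS (by linarith) hch' ho hpos h1 h2 }
  · have : 1 ≤ S.K4 := hc.2.2.2.2.1
    change 1 ≤ 10 ^ 5 * S.K4
    linarith
  · filter_upwards [hi.2] with x hx hn
    have := hx (by linarith)
    exact ⟨this.1, this.2.1⟩
  · filter_upwards [hi.2, hpos.ae_pos] with x hx h0 hn
    have h1 := main_core (by linarith) hn
    have h2 : f.R x ≤ Lam0 C * f.e x := (hx (by linarith)).2.2.2.2.2 hn
    exact h2.trans (mul_le_mul_of_nonneg_right l3 h0.le)
  · intro x0 _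
    by_cases h : ‖x0‖ + 8 ≤ 10 * r
    · exact (bc_inner hS hch' hi h).mono l2
    · exact (hbf K5 w hch' ho hpe x0 (by linarith)).mono l1
  · refine (main_up (hpe σ hσ) (le.const_mul σ) (li_aa _ _) (le.const_mul 10) (le.const_mul Λ)
      ?_).mono (subset_univ _)
    filter_upwards [hpos.ae_pos] with x h0
    exact mul_le_mul_of_nonneg_right l4 h0.le
  · exact main_up (hch.subd σ hσ) (ld.const_mul σ) (li_aa _ _) (lR.const_mul _) lR hlR
  · exact main_up hch.subN lN (li_aa _ _) (lR.const_mul _) lR hlR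
  · intro y κ hy hκ hκ1 hyR hsub hq hcol t ε ht hε'
    have hδ : 0 < S.δ := hc.2.2.2.2.2.1
    have b1 := hp1 K5 w hch' ho hpn y _ hy hyR (li_decay hS (by linarith) w hκ hκ1)
      (fun x => le_add_of_nonneg_right (mul_nonneg hδ.le (hκ1 x).1)) hsub hcol
    obtain ⟨Cw, b2⟩ := hp2 (2 * r) K5 w (by linarith) hch' ho hpn y κ hy hκ hκ1 hyR hsub hq b1
    exact decay_end hS (by linarith) hK5 hch' ho b2 ht hε'

end Crest.Agent.R335
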